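import Vale.Agent.P216D.Calc

/-! # The heat operator along a flow, the conjugate heat operator, Perelman's identity -/

set_option linter.unusedSimpArgs false

namespace Vale.Agent.P216D

variable {A : Type*} [CommRing A] [Algebra ℝ A]

namespace Fl

open Fr

variable (c : Fl A)

/-- the heat operator as a linear map -/
def HL : A →ₗ[ℝ] A := c.Dt.toLinearMap - c.LapL

lemma HL_apply (x : A) : c.HL x = c.H x := rfl

lemma H_add (x y : A) : c.H (x + y) = c.H x + c.H y := map_add c.HL x y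
lemma H_sub (x y : A) : c.H (x - y) = c.H x - c.H y := map_sub c.HL x y
lemma H_neg (x : A) : c.H (-x) = -c.H x := map_neg c.HL x
lemma H_zero : c.H 0 = 0 := map_zero c.HL
lemma H_smul (r : ℝ) (x : A) : c.H (r • x) = r • c.H x := map_smul c.HL r x
lemma H_zsmul (n : ℤ) (x : A) : c.H (n • x) = n • c.H x := map_zsmul c.HL n x

lemma H_sum {ι : Type*} (s : Finset ι) (x : ι → A) :
    c.H (∑ i ∈ s, x i) = ∑ i ∈ s, c.H (x i) := map_sum c.HL x s

lemma H_alg (r : ℝ) : c.H (algebraMap ℝ A r) = 0 := by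
  rw [H, der_alg, c.Lap_const fun a => der_alg _ r, sub_zero]

lemma H_mul (x y : A) : c.H (x * y) = x * c.H y + y * c.H x - 2 * c.ip x y := by
  rw [H, H, H, der_mul, Lap_mul]; ring

lemma H_sq (x : A) : c.H (x ^ 2) = 2 * x * c.H x - 2 * c.ip x x := by
  rw [sq, H_mul]; ring

/-- multiplication with a function of time -/
lemma H_time_mul {u : A} (hu : ∀ a, c.D a u = 0) (x : A) :
    c.H (u * x) = u * c.H x + x * c.Dt u := by
  rw [H_mul, c.ip_const hu, H, H, c.Lap_const hu]; ring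

/-- the chain rule: `y = φ x`, `y1 = φ' x`, `y2 = φ'' x` -/
lemma H_chain {x y y1 y2 : A} (ht : c.Dt y = y1 * c.Dt x) (h1 : ∀ a, c.D a y = y1 * c.D a x)
    (h2 : ∀ a, c.D a y1 = y2 * c.D a x) : c.H y = y1 * c.H x - y2 * c.ip x x := by
  simp only [H, Lap, ip, Fin.sum_univ_three, ht, h1, h2, der_nf]
  ring

lemma V_H (a : Fin 3) (x : A) : c.V a (c.H x) = c.H (c.V a x) := by
  rw [H, H, map_sub, V_Lap, c.tV]

variable {c} {f h : A}

lemma inv_Dt (hf : c.Inv f) : c.Inv (c.Dt f) := fun a => by rw [← c.tV, hf a, map_zero]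

lemma inv_H (hf : c.Inv f) : c.Inv (c.H f) := fun a => by rw [V_H, hf a, H_zero]

lemma Dt_D (hf : c.Inv f) (a : Fin 3) :
    c.Dt (c.D a f) = c.D a (c.Dt f) + ∑ b, c.K a b * c.D b f := by
  rw [c.tD]; simp [hf _]

lemma Dt_ip (hf : c.Inv f) (hh : c.Inv h) : c.Dt (c.ip f h) =
    c.ip (c.Dt f) h + c.ip f (c.Dt h) + 2 * ∑ a, ∑ b, c.K a b * (c.D a f * c.D b h) := by
  simp only [ip, Fin.sum_univ_three, der_nf, tD', hf _, hh _, c.nfK]
  ring

/-- the variation of the Laplacian on functions -/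
lemma Dt_Lap (hf : c.Inv f) : c.Dt (c.Lap f) = c.Lap (c.Dt f) +
    2 * ∑ a, ∑ b, c.K a b * c.D a (c.D b f) +
    ∑ b, (2 * ∑ a, c.D a (c.K a b) - c.D b (∑ a, c.K a a)) * c.D b f := by
  simp only [Lap, Fin.sum_univ_three, der_nf, c.nfT, hf _, c.nfK, c.nfD]
  ring

variable (c) in
/-- the variation of the scalar curvature -/
lemma Dt_S : c.Dt c.S = c.Lap (∑ a, c.K a a) - ∑ a, ∑ b, c.D a (c.D b (c.K a b)) +
    ∑ a, ∑ b, c.K a b * c.Ric a b := by
  have h := c.VK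
  simp only [S, map_add, Dt_M]
  simp only [Lap, Fin.sum_univ_three, eps_nf, zs_nf, der_nf, c.nfT, c.nfK, c.nfD, c.nfM, h]
  ring

end Fl

namespace RF

open Fr Fl

variable (c : RF A)

/-- along a Ricci flow the mixed curvature is minus the curl of the curvature operator -/
lemma T_curl (a d : Fin 3) : c.T a d = -∑ b, ∑ e, eps a b e • c.D b (c.M e d) := by
  revert a d
  refine all3 (all3 ?_ ?_ ?_) (all3 ?_ ?_ ?_) (all3 ?_ ?_ ?_) <;>
  · simp only [Fin.sum_univ_three, eps_nf, zs_nf, der_nf, c.nfT, c.ric, c.nfM]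
    ring

/-- **The commutator of the heat operator with a horizontal field.** -/
theorem H_D (a : Fin 3) (x : A) : c.H (c.D a x) = c.D a (c.H x) +
    2 * ∑ b, ∑ e, eps a b e • ∑ d, c.M e d * c.D b (c.V d x) := by
  rw [H, H, c.tD, Lap_D, map_sub]
  simp only [c.ric, T_curl]
  revert a
  refine all3 ?_ ?_ ?_ <;>
  · simp only [Fin.sum_univ_three, eps_nf, zs_nf]
    ring

/-- **The evolution of the scalar curvature** `R = 2 S`. -/
theorem H_S : c.H c.S = c.rsq := by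
  rw [S, H_add, H_add, H_M, H_M, H_M]
  simp only [Q, N0, rsq, Fin.sum_univ_three, eps_nf, zs_nf, c.nfM]
  ring

theorem H_Ric (a b : Fin 3) : c.H (c.Ric a b) = dl a b • c.rsq - c.Q a b := by
  rw [Ric, H_sub, H_zsmul, H_S, H_M]

theorem Dt_S : c.Dt c.S = c.Lap c.S + c.rsq := by
  rw [← H_S, H]; ring

variable {c} {f h : A}

theorem H_D_inv (hf : c.Inv f) (a : Fin 3) : c.H (c.D a f) = c.D a (c.H f) := by
  rw [H_D]; simp [hf _]

theorem Dt_ip (hf : c.Inv f) (hh : c.Inv h) :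
    c.Dt (c.ip f h) = c.ip (c.Dt f) h + c.ip f (c.Dt h) + 2 * c.rip f h := by
  rw [Fl.Dt_ip hf hh]; simp only [c.ric, rip]

theorem H_ip (hf : c.Inv f) (hh : c.Inv h) : c.H (c.ip f h) = c.ip f (c.H h) + c.ip h (c.H f) -
    2 * ∑ a, ∑ b, c.D a (c.D b f) * c.D a (c.D b h) := by
  rw [H, H, H, Dt_ip hf hh, hf.bochner hh, ip_sub_right, ip_sub_right, c.ip_comm (c.Dt f)]
  ring

theorem H_ip_self (hf : c.Inv f) : c.H (c.ip f f) = 2 * c.ip f (c.H f) - 2 * c.hsq f := by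
  rw [H_ip hf hf]; simp only [hsq, sq]; ring

theorem Dt_Lap (hf : c.Inv f) : c.Dt (c.Lap f) = c.Lap (c.Dt f) + 2 * c.rhs f := by
  rw [Fl.Dt_Lap hf]
  simp only [c.ric, div_Ric, tr_Ric, der_nf, rhs]
  simp

theorem H_Lap (hf : c.Inv f) : c.H (c.Lap f) = c.Lap (c.H f) + 2 * c.rhs f := by
  rw [H, H, Dt_Lap hf, Lap_sub]; ring

variable (c)

/-- the conjugate heat operator -/
def Hs (x : A) : A := -c.Dt x - c.Lap x + 2 * c.S * x

/-- the pointwise duality of the heat operator and the conjugate heat operator -/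
lemma H_Hs (x y : A) : c.Dt (x * y) - 2 * c.S * (x * y) =
    y * c.H x - x * c.Hs y + ∑ a, c.D a (y * c.D a x - x * c.D a y) := by
  simp only [H, Hs, Lap, Fin.sum_univ_three, der_nf]
  ring

variable {c}

/-- `u = (4 π τ)^(-3/2) exp (-f)` with `s = 1 / (2 τ)` -/
lemma Hs_exp {u s : A} (hD : ∀ a, c.D a u = -u * c.D a f) (ht : c.Dt u = -u * c.Dt f + 3 * s * u) :
    c.Hs u = u * (c.Dt f + c.Lap f - c.ip f f + 2 * c.S - 3 * s) := by
  simp only [Hs, Lap, ip, Fin.sum_univ_three, hD, ht, der_nf]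
  ring

/-- **Perelman's identity** for `v = (τ (2 Δ f - |∇ f|² + R) + f - 3) u`. -/
theorem perelman {u s τ : A} (hf : c.Inv f) (hτ : ∀ a, c.D a τ = 0) (hτt : c.Dt τ = -1)
    (hs : 2 * τ * s = 1) (hD : ∀ a, c.D a u = -u * c.D a f)
    (ht : c.Dt u = -u * c.Dt f + 3 * s * u)
    (hft : c.Dt f = -c.Lap f + c.ip f f - 2 * c.S + 3 * s) :
    c.Hs ((τ * (2 * c.Lap f - c.ip f f + 2 * c.S) + f - 3) * u) =
      -2 * τ * (∑ a, ∑ b, (c.Ric a b + c.D a (c.D b f) - dl a b • s) ^ 2) * u := by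
  have hsD : ∀ a, c.D a s = 0 := fun a => by
    have := congrArg (c.D a) hs
    simp only [der_nf, hτ] at this
    linear_combination s * this - c.D a s * hs
  have hu : c.Hs u = 0 := by rw [Hs_exp hD ht, hft]; ring
  obtain ⟨w, hw⟩ : ∃ w, w = 2 * c.Lap f - c.ip f f + 2 * c.S := ⟨_, rfl⟩
  have h1 : ∀ y, c.Hs (y * u) = y * c.Hs u - u * (c.Dt y + c.Lap y - 2 * c.ip f y) := by
    intro y
    simp only [Hs, Lap, ip, Fin.sum_univ_three, hD, der_nf]
    ring
  have h2 : c.Dt w + c.Lap w - 2 * c.ip f w =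
      2 * (c.rsq + 2 * c.rhs f + c.hsq f) := by
    rw [hw]
    simp only [der_nf, Dt_Lap hf, Dt_ip hf hf, c.Dt_S, hft, Lap_add, Lap_sub, Lap_neg, Lap_mul,
      ip_add_left, ip_add_right, ip_sub_left, ip_sub_right, ip_neg_left, ip_neg_right,
      ip_mul_left, ip_mul_right, hf.bochner_self, c.Lap_const hsD, c.ip_const hsD,
      c.Lap_const (x := 2) fun a => der_ofNat _ 2, c.Lap_const (x := 3) fun a => der_ofNat _ 3,
      c.ip_const (x := 2) fun a => der_ofNat _ 2, c.ip_const (x := 3) fun a => der_ofNat _ 3,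
      c.ip_comm _ 2, c.ip_comm _ 3, c.ip_comm _ s, c.ip_comm _ f]
    ring
  have h3 : ∑ a, ∑ b, (c.Ric a b + c.D a (c.D b f) - dl a b • s) ^ 2 =
      c.rsq + 2 * c.rhs f + c.hsq f - 2 * s * (2 * c.S + c.Lap f) + 3 * s ^ 2 := by
    simp only [rsq, rhs, hsq, Lap, ← tr_Ric, Fin.sum_univ_three, eps_nf, zs_nf]
    ring
  rw [← hw, h1, hu, h3]
  simp only [der_nf, hτt, Lap_add, Lap_sub, Lap_mul, ip_add_right, ip_sub_right, ip_mul_right,
    c.Lap_const hτ, c.ip_const hτ, c.Lap_const (x := 3) fun a => der_ofNat _ 3,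
    c.ip_const (x := 3) fun a => der_ofNat _ 3, c.ip_comm _ 3, c.ip_comm _ τ, hft]
  linear_combination (-u * τ) * h2 + u * hw -
    (u * (2 * (2 * c.S + c.Lap f) - 3 * s)) * hs

end RF

end Vale.Agent.P216D
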