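import Mathlib.RingTheory.Derivation.Basic
import Mathlib.Data.Real.Basic
import Mathlib.Algebra.BigOperators.Fin
import Mathlib.Data.Fin.VecNotation
import Mathlib.Tactic.Ring
import Mathlib.Tactic.LinearCombination
import Mathlib.Tactic.FinCases

/-! # The calculus on the frame bundle of a Riemannian 3-manifold, as a differential ring

`D a` are the horizontal fields, `V a` the vertical fields, `M` is the curvature operator (its
eigenvalues are the sectional curvatures), `Dt` is the time derivative along a Ricci flow. -/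

set_option linter.unusedSimpArgs false

namespace Vale.Agent.P216D

/-- the alternating symbol -/
def eps (a b c : Fin 3) : ℤ :=
  ![![![0, 0, 0], ![0, 0, 1], ![0, -1, 0]], ![![0, 0, -1], ![0, 0, 0], ![1, 0, 0]],
    ![![0, 1, 0], ![-1, 0, 0], ![0, 0, 0]]] a b c

@[simp] lemma eps000 : eps 0 0 0 = 0 := rfl
@[simp] lemma eps001 : eps 0 0 1 = 0 := rfl
@[simp] lemma eps002 : eps 0 0 2 = 0 := rfl
@[simp] lemma eps010 : eps 0 1 0 = 0 := rfl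
@[simp] lemma eps011 : eps 0 1 1 = 0 := rfl
@[simp] lemma eps012 : eps 0 1 2 = 1 := rfl
@[simp] lemma eps020 : eps 0 2 0 = 0 := rfl
@[simp] lemma eps021 : eps 0 2 1 = -1 := rfl
@[simp] lemma eps022 : eps 0 2 2 = 0 := rfl
@[simp] lemma eps100 : eps 1 0 0 = 0 := rfl
@[simp] lemma eps101 : eps 1 0 1 = 0 := rfl
@[simp] lemma eps102 : eps 1 0 2 = -1 := rfl
@[simp] lemma eps110 : eps 1 1 0 = 0 := rfl
@[simp] lemma eps111 : eps 1 1 1 = 0 := rfl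
@[simp] lemma eps112 : eps 1 1 2 = 0 := rfl
@[simp] lemma eps120 : eps 1 2 0 = 1 := rfl
@[simp] lemma eps121 : eps 1 2 1 = 0 := rfl
@[simp] lemma eps122 : eps 1 2 2 = 0 := rfl
@[simp] lemma eps200 : eps 2 0 0 = 0 := rfl
@[simp] lemma eps201 : eps 2 0 1 = 1 := rfl
@[simp] lemma eps202 : eps 2 0 2 = 0 := rfl
@[simp] lemma eps210 : eps 2 1 0 = -1 := rfl
@[simp] lemma eps211 : eps 2 1 1 = 0 := rfl
@[simp] lemma eps212 : eps 2 1 2 = 0 := rfl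
@[simp] lemma eps220 : eps 2 2 0 = 0 := rfl
@[simp] lemma eps221 : eps 2 2 1 = 0 := rfl
@[simp] lemma eps222 : eps 2 2 2 = 0 := rfl

/-- the Kronecker symbol -/
def dl (a b : Fin 3) : ℤ := if a = b then 1 else 0

@[simp] lemma dl_self (a : Fin 3) : dl a a = 1 := if_pos rfl
@[simp] lemma dl01 : dl 0 1 = 0 := rfl
@[simp] lemma dl02 : dl 0 2 = 0 := rfl
@[simp] lemma dl10 : dl 1 0 = 0 := rfl
@[simp] lemma dl12 : dl 1 2 = 0 := rfl
@[simp] lemma dl20 : dl 2 0 = 0 := rfl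
@[simp] lemma dl21 : dl 2 1 = 0 := rfl

lemma all3 {P : Fin 3 → Prop} (h0 : P 0) (h1 : P 1) (h2 : P 2) (a : Fin 3) : P a := by
  fin_cases a
  exacts [h0, h1, h2]

variable {A : Type*} [CommRing A] [Algebra ℝ A]

lemma der_mul (X : Derivation ℝ A A) (x y : A) : X (x * y) = x * X y + y * X x := by
  rw [X.leibniz, smul_eq_mul, smul_eq_mul]

lemma der_ofNat (X : Derivation ℝ A A) (n : ℕ) [n.AtLeastTwo] : X (ofNat(n) : A) = 0 :=
  X.map_natCast n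

lemma der_sq (X : Derivation ℝ A A) (x : A) : X (x ^ 2) = 2 * x * X x := by
  rw [sq, der_mul]; ring

/-- The calculus on the frame bundle of a fixed metric. -/
structure Fr (A : Type*) [CommRing A] [Algebra ℝ A] where
  /-- horizontal fields -/
  D : Fin 3 → Derivation ℝ A A
  /-- vertical fields -/
  V : Fin 3 → Derivation ℝ A A
  /-- curvature operator -/
  M : Fin 3 → Fin 3 → A
  DD : ∀ a b x, D a (D b x) = D b (D a x) + ∑ c, eps a b c • ∑ d, M c d * V d x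
  VD : ∀ a b x, V a (D b x) = D b (V a x) + ∑ c, eps a b c • D c x
  VV : ∀ a b x, V a (V b x) = V b (V a x) + ∑ c, eps a b c • V c x
  ind : ∀ f h : Fin 3 → A, (∀ x, ∑ a, f a * D a x + ∑ a, h a * V a x = 0) →
    ∀ a, f a = 0 ∧ h a = 0

namespace Fr

variable (c : Fr A)

/-- half the scalar curvature -/
def S : A := c.M 0 0 + c.M 1 1 + c.M 2 2

/-- the Ricci tensor -/
def Ric (a b : Fin 3) : A := dl a b • c.S - c.M a b

/-- the Laplacian -/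
def Lap (x : A) : A := ∑ a, c.D a (c.D a x)

/-- the inner product of the gradients -/
def ip (x y : A) : A := ∑ a, c.D a x * c.D a y

end Fr

/-- The calculus on the frame bundle of a family of metrics with `g' = -2 K`. -/
structure Fl (A : Type*) [CommRing A] [Algebra ℝ A] extends Fr A where
  /-- time derivative -/
  Dt : Derivation ℝ A A
  /-- the variation of the metric -/
  K : Fin 3 → Fin 3 → A
  /-- the mixed curvature of the space-time connection -/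
  T : Fin 3 → Fin 3 → A
  K_symm : ∀ a b, K a b = K b a
  tD : ∀ a x, Dt (D a x) = D a (Dt x) + ∑ b, K a b * D b x + ∑ b, T a b * V b x
  tV : ∀ a x, Dt (V a x) = V a (Dt x)

/-- The calculus on the frame bundle of a Ricci flow. -/
structure RF (A : Type*) [CommRing A] [Algebra ℝ A] extends Fl A where
  ric : ∀ a b, K a b = toFr.Ric a b

namespace Fr

variable (c : Fr A)

lemma D01 (x : A) : c.D 0 (c.D 1 x) =
    c.D 1 (c.D 0 x) + (c.M 2 0 * c.V 0 x + c.M 2 1 * c.V 1 x + c.M 2 2 * c.V 2 x) := by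
  simpa [Fin.sum_univ_three] using c.DD 0 1 x

lemma D02 (x : A) : c.D 0 (c.D 2 x) =
    c.D 2 (c.D 0 x) - (c.M 1 0 * c.V 0 x + c.M 1 1 * c.V 1 x + c.M 1 2 * c.V 2 x) := by
  have := c.DD 0 2 x
  simp only [Fin.sum_univ_three, eps020, eps021, eps022, zero_smul, neg_smul, one_smul] at this
  linear_combination this

lemma D12 (x : A) : c.D 1 (c.D 2 x) =
    c.D 2 (c.D 1 x) + (c.M 0 0 * c.V 0 x + c.M 0 1 * c.V 1 x + c.M 0 2 * c.V 2 x) := by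
  simpa [Fin.sum_univ_three] using c.DD 1 2 x

lemma VD00 (x : A) : c.V 0 (c.D 0 x) = c.D 0 (c.V 0 x) := by
  simpa [Fin.sum_univ_three, sub_eq_add_neg] using c.VD 0 0 x

lemma VD01 (x : A) : c.V 0 (c.D 1 x) = c.D 1 (c.V 0 x) + c.D 2 x := by
  simpa [Fin.sum_univ_three, sub_eq_add_neg] using c.VD 0 1 x

lemma VD02 (x : A) : c.V 0 (c.D 2 x) = c.D 2 (c.V 0 x) - c.D 1 x := by
  simpa [Fin.sum_univ_three, sub_eq_add_neg] using c.VD 0 2 x

lemma VD10 (x : A) : c.V 1 (c.D 0 x) = c.D 0 (c.V 1 x) - c.D 2 x := by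
  simpa [Fin.sum_univ_three, sub_eq_add_neg] using c.VD 1 0 x

lemma VD11 (x : A) : c.V 1 (c.D 1 x) = c.D 1 (c.V 1 x) := by
  simpa [Fin.sum_univ_three, sub_eq_add_neg] using c.VD 1 1 x

lemma VD12 (x : A) : c.V 1 (c.D 2 x) = c.D 2 (c.V 1 x) + c.D 0 x := by
  simpa [Fin.sum_univ_three, sub_eq_add_neg] using c.VD 1 2 x

lemma VD20 (x : A) : c.V 2 (c.D 0 x) = c.D 0 (c.V 2 x) + c.D 1 x := by
  simpa [Fin.sum_univ_three, sub_eq_add_neg] using c.VD 2 0 x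

lemma VD21 (x : A) : c.V 2 (c.D 1 x) = c.D 1 (c.V 2 x) - c.D 0 x := by
  simpa [Fin.sum_univ_three, sub_eq_add_neg] using c.VD 2 1 x

lemma VD22 (x : A) : c.V 2 (c.D 2 x) = c.D 2 (c.V 2 x) := by
  simpa [Fin.sum_univ_three, sub_eq_add_neg] using c.VD 2 2 x

lemma VV01 (x : A) : c.V 0 (c.V 1 x) = c.V 1 (c.V 0 x) + c.V 2 x := by
  simpa [Fin.sum_univ_three, sub_eq_add_neg] using c.VV 0 1 x

lemma VV02 (x : A) : c.V 0 (c.V 2 x) = c.V 2 (c.V 0 x) - c.V 1 x := by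
  simpa [Fin.sum_univ_three, sub_eq_add_neg] using c.VV 0 2 x

lemma VV12 (x : A) : c.V 1 (c.V 2 x) = c.V 2 (c.V 1 x) + c.V 0 x := by
  simpa [Fin.sum_univ_three, sub_eq_add_neg] using c.VV 1 2 x

lemma ind3 {f0 f1 f2 h0 h1 h2 : A} (h : ∀ x, f0 * c.D 0 x + f1 * c.D 1 x + f2 * c.D 2 x +
    (h0 * c.V 0 x + h1 * c.V 1 x + h2 * c.V 2 x) = 0) :
    (f0 = 0 ∧ f1 = 0 ∧ f2 = 0) ∧ h0 = 0 ∧ h1 = 0 ∧ h2 = 0 := by
  have := c.ind ![f0, f1, f2] ![h0, h1, h2] fun x => by simpa [Fin.sum_univ_three] using h x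
  exact ⟨⟨(this 0).1, (this 1).1, (this 2).1⟩, (this 0).2, (this 1).2, (this 2).2⟩

/-- the Jacobi identity for the horizontal fields -/
lemma jac : (c.M 1 2 - c.M 2 1 = 0 ∧ c.M 2 0 - c.M 0 2 = 0 ∧ c.M 0 1 - c.M 1 0 = 0) ∧
    c.D 0 (c.M 0 0) + c.D 1 (c.M 1 0) + c.D 2 (c.M 2 0) = 0 ∧
    c.D 0 (c.M 0 1) + c.D 1 (c.M 1 1) + c.D 2 (c.M 2 1) = 0 ∧
    c.D 0 (c.M 0 2) + c.D 1 (c.M 1 2) + c.D 2 (c.M 2 2) = 0 := by
  refine c.ind3 fun x => ?_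
  have h1 := c.D01 (c.D 2 x)
  have h2 := c.D12 (c.D 0 x)
  have h3 := c.D02 (c.D 1 x)
  have h4 := congrArg (c.D 2) (c.D01 x)
  have h5 := congrArg (c.D 0) (c.D12 x)
  have h6 := congrArg (c.D 1) (c.D02 x)
  simp only [map_add, map_sub, der_mul, VD00, VD01, VD02, VD10, VD11, VD12, VD20, VD21,
    VD22] at h1 h2 h3 h4 h5 h6
  linear_combination h1 + h2 - h3 - h4 - h5 + h6

lemma M10 : c.M 1 0 = c.M 0 1 := (sub_eq_zero.1 c.jac.1.2.2).symm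
lemma M20 : c.M 2 0 = c.M 0 2 := sub_eq_zero.1 c.jac.1.2.1
lemma M21 : c.M 2 1 = c.M 1 2 := (sub_eq_zero.1 c.jac.1.1).symm

lemma M_symm (a b : Fin 3) : c.M a b = c.M b a := by
  revert a b
  refine all3 (all3 ?_ ?_ ?_) (all3 ?_ ?_ ?_) (all3 ?_ ?_ ?_) <;> simp only [M10, M20, M21]

lemma B0 : c.D 0 (c.M 0 0) = -c.D 1 (c.M 0 1) - c.D 2 (c.M 0 2) := by
  have := c.jac.2.1
  simp only [M10, M20] at this
  linear_combination this

lemma B1 : c.D 0 (c.M 0 1) = -c.D 1 (c.M 1 1) - c.D 2 (c.M 1 2) := by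
  have := c.jac.2.2.1
  simp only [M21] at this
  linear_combination this

lemma B2 : c.D 0 (c.M 0 2) = -c.D 1 (c.M 1 2) - c.D 2 (c.M 2 2) := by
  linear_combination c.jac.2.2.2

/-- the second Bianchi identity -/
lemma bianchi (b : Fin 3) : ∑ a, c.D a (c.M a b) = 0 := by
  rw [Fin.sum_univ_three]
  revert b
  exact all3 c.jac.2.1 c.jac.2.2.1 c.jac.2.2.2

lemma jacV02 : c.V 0 (c.M 0 2) - (-c.M 0 1) = 0 ∧
    c.V 0 (c.M 1 2) - (-c.M 1 1 + c.M 2 2) = 0 ∧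
    c.V 0 (c.M 2 2) - (-c.M 1 2 - c.M 1 2) = 0 := by
  refine (c.ind3 (f0 := 0) (f1 := 0) (f2 := 0) fun x => ?_).2
  have h1 := (congrArg (c.V 0) (c.D01 x)).symm.trans (c.VD00 (c.D 1 x))
  simp only [map_add, map_sub, der_mul, VD00, VD01, VD02, VD10, VD11, VD12, VD20, VD21, VD22,
    D01, D02, D12, VV01, VV02, VV12, M10, M20, M21] at h1
  linear_combination h1

lemma jacV01 : c.V 0 (c.M 0 1) - (c.M 0 2) = 0 ∧
    c.V 0 (c.M 1 1) - (c.M 1 2 + c.M 1 2) = 0 ∧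
    c.V 0 (c.M 1 2) - (-c.M 1 1 + c.M 2 2) = 0 := by
  refine (c.ind3 (f0 := 0) (f1 := 0) (f2 := 0) fun x => ?_).2
  have h1 := (congrArg (c.V 0) (c.D02 x)).symm.trans (c.VD00 (c.D 2 x))
  simp only [map_add, map_sub, der_mul, VD00, VD01, VD02, VD10, VD11, VD12, VD20, VD21, VD22,
    D01, D02, D12, VV01, VV02, VV12, M10, M20, M21] at h1
  linear_combination -h1

lemma jacV00 : c.V 0 (c.M 0 0) - (0) = 0 ∧
    c.V 0 (c.M 0 1) - (c.M 0 2) = 0 ∧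
    c.V 0 (c.M 0 2) - (-c.M 0 1) = 0 := by
  refine (c.ind3 (f0 := 0) (f1 := 0) (f2 := 0) fun x => ?_).2
  have h1 := (congrArg (c.V 0) (c.D12 x)).symm.trans (c.VD01 (c.D 2 x))
  simp only [map_add, map_sub, der_mul, VD00, VD01, VD02, VD10, VD11, VD12, VD20, VD21, VD22,
    D01, D02, D12, VV01, VV02, VV12, M10, M20, M21] at h1
  linear_combination h1

lemma jacV12 : c.V 1 (c.M 0 2) - (c.M 0 0 - c.M 2 2) = 0 ∧
    c.V 1 (c.M 1 2) - (c.M 0 1) = 0 ∧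
    c.V 1 (c.M 2 2) - (c.M 0 2 + c.M 0 2) = 0 := by
  refine (c.ind3 (f0 := 0) (f1 := 0) (f2 := 0) fun x => ?_).2
  have h1 := (congrArg (c.V 1) (c.D01 x)).symm.trans (c.VD10 (c.D 1 x))
  simp only [map_add, map_sub, der_mul, VD00, VD01, VD02, VD10, VD11, VD12, VD20, VD21, VD22,
    D01, D02, D12, VV01, VV02, VV12, M10, M20, M21] at h1
  linear_combination h1

lemma jacV11 : c.V 1 (c.M 0 1) - (-c.M 1 2) = 0 ∧
    c.V 1 (c.M 1 1) - (0) = 0 ∧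
    c.V 1 (c.M 1 2) - (c.M 0 1) = 0 := by
  refine (c.ind3 (f0 := 0) (f1 := 0) (f2 := 0) fun x => ?_).2
  have h1 := (congrArg (c.V 1) (c.D02 x)).symm.trans (c.VD10 (c.D 2 x))
  simp only [map_add, map_sub, der_mul, VD00, VD01, VD02, VD10, VD11, VD12, VD20, VD21, VD22,
    D01, D02, D12, VV01, VV02, VV12, M10, M20, M21] at h1
  linear_combination -h1

lemma jacV10 : c.V 1 (c.M 0 0) - (-c.M 0 2 - c.M 0 2) = 0 ∧
    c.V 1 (c.M 0 1) - (-c.M 1 2) = 0 ∧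
    c.V 1 (c.M 0 2) - (c.M 0 0 - c.M 2 2) = 0 := by
  refine (c.ind3 (f0 := 0) (f1 := 0) (f2 := 0) fun x => ?_).2
  have h1 := (congrArg (c.V 1) (c.D12 x)).symm.trans (c.VD11 (c.D 2 x))
  simp only [map_add, map_sub, der_mul, VD00, VD01, VD02, VD10, VD11, VD12, VD20, VD21, VD22,
    D01, D02, D12, VV01, VV02, VV12, M10, M20, M21] at h1
  linear_combination h1

lemma jacV22 : c.V 2 (c.M 0 2) - (c.M 1 2) = 0 ∧
    c.V 2 (c.M 1 2) - (-c.M 0 2) = 0 ∧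
    c.V 2 (c.M 2 2) - (0) = 0 := by
  refine (c.ind3 (f0 := 0) (f1 := 0) (f2 := 0) fun x => ?_).2
  have h1 := (congrArg (c.V 2) (c.D01 x)).symm.trans (c.VD20 (c.D 1 x))
  simp only [map_add, map_sub, der_mul, VD00, VD01, VD02, VD10, VD11, VD12, VD20, VD21, VD22,
    D01, D02, D12, VV01, VV02, VV12, M10, M20, M21] at h1
  linear_combination h1

lemma jacV21 : c.V 2 (c.M 0 1) - (-c.M 0 0 + c.M 1 1) = 0 ∧
    c.V 2 (c.M 1 1) - (-c.M 0 1 - c.M 0 1) = 0 ∧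
    c.V 2 (c.M 1 2) - (-c.M 0 2) = 0 := by
  refine (c.ind3 (f0 := 0) (f1 := 0) (f2 := 0) fun x => ?_).2
  have h1 := (congrArg (c.V 2) (c.D02 x)).symm.trans (c.VD20 (c.D 2 x))
  simp only [map_add, map_sub, der_mul, VD00, VD01, VD02, VD10, VD11, VD12, VD20, VD21, VD22,
    D01, D02, D12, VV01, VV02, VV12, M10, M20, M21] at h1
  linear_combination -h1

lemma jacV20 : c.V 2 (c.M 0 0) - (c.M 0 1 + c.M 0 1) = 0 ∧
    c.V 2 (c.M 0 1) - (-c.M 0 0 + c.M 1 1) = 0 ∧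
    c.V 2 (c.M 0 2) - (c.M 1 2) = 0 := by
  refine (c.ind3 (f0 := 0) (f1 := 0) (f2 := 0) fun x => ?_).2
  have h1 := (congrArg (c.V 2) (c.D12 x)).symm.trans (c.VD21 (c.D 2 x))
  simp only [map_add, map_sub, der_mul, VD00, VD01, VD02, VD10, VD11, VD12, VD20, VD21, VD22,
    D01, D02, D12, VV01, VV02, VV12, M10, M20, M21] at h1
  linear_combination h1

lemma VM000 : c.V 0 (c.M 0 0) = 0 := sub_eq_zero.1 c.jacV00.1
lemma VM001 : c.V 0 (c.M 0 1) = c.M 0 2 := sub_eq_zero.1 c.jacV00.2.1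
lemma VM002 : c.V 0 (c.M 0 2) = -c.M 0 1 := sub_eq_zero.1 c.jacV00.2.2
lemma VM011 : c.V 0 (c.M 1 1) = c.M 1 2 + c.M 1 2 := sub_eq_zero.1 c.jacV01.2.1
lemma VM012 : c.V 0 (c.M 1 2) = -c.M 1 1 + c.M 2 2 := sub_eq_zero.1 c.jacV01.2.2
lemma VM022 : c.V 0 (c.M 2 2) = -c.M 1 2 - c.M 1 2 := sub_eq_zero.1 c.jacV02.2.2
lemma VM100 : c.V 1 (c.M 0 0) = -c.M 0 2 - c.M 0 2 := sub_eq_zero.1 c.jacV10.1
lemma VM101 : c.V 1 (c.M 0 1) = -c.M 1 2 := sub_eq_zero.1 c.jacV10.2.1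
lemma VM102 : c.V 1 (c.M 0 2) = c.M 0 0 - c.M 2 2 := sub_eq_zero.1 c.jacV10.2.2
lemma VM111 : c.V 1 (c.M 1 1) = 0 := sub_eq_zero.1 c.jacV11.2.1
lemma VM112 : c.V 1 (c.M 1 2) = c.M 0 1 := sub_eq_zero.1 c.jacV11.2.2
lemma VM122 : c.V 1 (c.M 2 2) = c.M 0 2 + c.M 0 2 := sub_eq_zero.1 c.jacV12.2.2
lemma VM200 : c.V 2 (c.M 0 0) = c.M 0 1 + c.M 0 1 := sub_eq_zero.1 c.jacV20.1
lemma VM201 : c.V 2 (c.M 0 1) = -c.M 0 0 + c.M 1 1 := sub_eq_zero.1 c.jacV20.2.1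
lemma VM202 : c.V 2 (c.M 0 2) = c.M 1 2 := sub_eq_zero.1 c.jacV20.2.2
lemma VM211 : c.V 2 (c.M 1 1) = -c.M 0 1 - c.M 0 1 := sub_eq_zero.1 c.jacV21.2.1
lemma VM212 : c.V 2 (c.M 1 2) = -c.M 0 2 := sub_eq_zero.1 c.jacV21.2.2
lemma VM222 : c.V 2 (c.M 2 2) = 0 := sub_eq_zero.1 c.jacV22.2.2

/-- `M` is a tensor -/
lemma VM (a b d : Fin 3) :
    c.V a (c.M b d) = ∑ e, eps a b e • c.M e d + ∑ e, eps a d e • c.M b e := by
  revert a b d
  refine all3 (all3 (all3 ?_ ?_ ?_) (all3 ?_ ?_ ?_) (all3 ?_ ?_ ?_))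
    (all3 (all3 ?_ ?_ ?_) (all3 ?_ ?_ ?_) (all3 ?_ ?_ ?_))
    (all3 (all3 ?_ ?_ ?_) (all3 ?_ ?_ ?_) (all3 ?_ ?_ ?_)) <;>
  simp [Fin.sum_univ_three, M10, M20, M21, VM000, VM001, VM002, VM011, VM012, VM022, VM100, VM101, VM102, VM111, VM112, VM122, VM200, VM201, VM202, VM211, VM212, VM222, sub_eq_add_neg, add_comm]

lemma VS (a : Fin 3) : c.V a c.S = 0 := by
  revert a
  refine all3 ?_ ?_ ?_ <;>
  simp [S, VM000, VM011, VM022, VM100, VM111, VM122, VM200, VM211, VM222]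

end Fr

end Vale.Agent.P216D
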