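import Mathlib.Analysis.InnerProductSpace.PiL2
import Mathlib.Analysis.SpecialFunctions.Sqrt
import Mathlib.LinearAlgebra.Trace
import Vale.Agent.P216R.Defs
import Vale.Agent.P216D.Alg

/-! # Orthonormal frames and the orthonormalisation of three vectors -/

open Set Filter Topology
open scoped ContDiff

set_option linter.unusedSimpArgs false
set_option linter.unnecessarySeqFocus false
set_option linter.unreachableTactic false
set_option linter.unusedTactic false

namespace Vale.Agent.P216D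

open Vale.Agent.P216R (E3 Bil)

/-- bilinear forms -/
abbrev Bi : Type := Bil E3

/-- orthonormal frames of a bilinear form -/
def ON (B : Bi) (e : Fin 3 → E3) : Prop := ∀ a b, B (e a) (e b) = (dl a b : ℝ)

lemma ON.sum_left {B : Bi} {e : Fin 3 → E3} (h : ON B e) (c : Fin 3 → ℝ) (b : Fin 3) :
    B (∑ a, c a • e a) (e b) = c b := by
  simp only [map_sum, map_smul, _root_.sum_apply, _root_.smul_apply, h _ b, smul_eq_mul]
  revert b
  refine all3 ?_ ?_ ?_ <;> simp [Fin.sum_univ_three]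

lemma ON.li {B : Bi} {e : Fin 3 → E3} (h : ON B e) : LinearIndependent ℝ e :=
  Fintype.linearIndependent_iff.2 fun c hc b => by rw [← h.sum_left c b, hc]; simp

/-- an orthonormal frame as a basis -/
noncomputable def ON.basis {B : Bi} {e : Fin 3 → E3} (h : ON B e) : Module.Basis (Fin 3) ℝ E3 :=
  basisOfLinearIndependentOfCardEqFinrank h.li (by simp)

@[simp] lemma ON.basis_apply {B : Bi} {e : Fin 3 → E3} (h : ON B e) (a : Fin 3) :
    h.basis a = e a := by simp [ON.basis]

/-- expansion in an orthonormal frame -/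
lemma ON.expand {B : Bi} {e : Fin 3 → E3} (h : ON B e) (v : E3) : v = ∑ a, B v (e a) • e a := by
  have h1 : v = ∑ a, h.basis.repr v a • e a := by
    conv_lhs => rw [← h.basis.sum_repr v]
    simp
  conv_lhs => rw [h1]
  refine Finset.sum_congr rfl fun a _ => ?_
  conv_rhs => rw [h1, h.sum_left]

lemma ON.repr {B : Bi} {e : Fin 3 → E3} (h : ON B e) (v : E3) (a : Fin 3) :
    h.basis.repr v a = B v (e a) := by
  conv_rhs => rw [← h.basis.sum_repr v]
  simp only [h.basis_apply, h.sum_left]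

lemma ON.ext {B : Bi} {e : Fin 3 → E3} (h : ON B e) {v w : E3}
    (k : ∀ a, B v (e a) = B w (e a)) : v = w := by
  rw [h.expand v, h.expand w]; simp only [k]

/-- the trace in an orthonormal frame -/
lemma ON.trace {B : Bi} {e : Fin 3 → E3} (h : ON B e) (T : E3 →L[ℝ] E3) :
    LinearMap.trace ℝ E3 (T : E3 →ₗ[ℝ] E3) = ∑ a, B (T (e a)) (e a) := by
  rw [LinearMap.trace_eq_matrix_trace ℝ h.basis, Matrix.trace]
  simp [LinearMap.toMatrix_apply, h.repr]

/-- Parseval -/
lemma ON.pars {B : Bi} {e : Fin 3 → E3} (h : ON B e) (l : E3 →L[ℝ] ℝ) (v : E3) :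
    l v = ∑ a, B v (e a) * l (e a) := by
  conv_lhs => rw [h.expand v]
  simp

/-- three by three arrays -/
abbrev Ar := Fin 3 → Fin 3 → ℝ

/-- the second leading minor -/
def m2 (g : Ar) : ℝ := g 0 0 * g 1 1 - g 0 1 ^ 2

/-- coefficients of the orthogonalised vectors -/
noncomputable def ort (g : Ar) : Ar :=
  ![![1, 0, 0], ![-(g 0 1 / g 0 0), 1, 0],
    ![-((g 0 2 * g 1 1 - g 1 2 * g 0 1) / m2 g), -((g 1 2 * g 0 0 - g 0 2 * g 0 1) / m2 g), 1]]

/-- squared lengths of the orthogonalised vectors -/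
noncomputable def nn (g : Ar) (a : Fin 3) : ℝ := ∑ b, ort g a b * g b a

/-- coefficients of the orthonormalised vectors -/
noncomputable def gsl (g : Ar) : Ar := fun a b => (√(nn g a))⁻¹ * ort g a b

/-- the orthonormalisation works -/
def Ps (g : Ar) : Prop := 0 < g 0 0 ∧ 0 < m2 g ∧ ∀ a, 0 < nn g a

lemma sm_ort {g : Ar} (h0 : g 0 0 ≠ 0) (h1 : m2 g ≠ 0) (a b : Fin 3) :
    ContDiffAt ℝ ∞ (fun g => ort g a b) g := by
  have : ContDiffAt ℝ ∞ m2 g := by unfold m2; fun_prop
  revert a b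
  refine all3 ?_ ?_ ?_ <;> refine all3 ?_ ?_ ?_ <;> simp [ort] <;> fun_prop (disch := assumption)

lemma sm_nn {g : Ar} (h0 : g 0 0 ≠ 0) (h1 : m2 g ≠ 0) (a : Fin 3) :
    ContDiffAt ℝ ∞ (fun g => nn g a) g :=
  ContDiffAt.sum fun b _ => (sm_ort h0 h1 a b).mul (by fun_prop)

lemma Ps.sm {g : Ar} (h : Ps g) : ContDiffAt ℝ ∞ gsl g :=
  contDiffAt_pi.2 fun a => contDiffAt_pi.2 fun b =>
    (((sm_nn h.1.ne' h.2.1.ne' a).sqrt (h.2.2 a).ne').inv
      (Real.sqrt_pos.2 (h.2.2 a)).ne').mul (sm_ort h.1.ne' h.2.1.ne' a b)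

lemma Ps.near {g : Ar} (h : Ps g) : ∀ᶠ k in 𝓝 g, Ps k := by
  have h1 : ContinuousAt (fun g : Ar => g 0 0) g :=
    (by fun_prop : Continuous fun g : Ar => g 0 0).continuousAt
  have h2 : ContinuousAt m2 g := (by unfold m2; fun_prop : Continuous m2).continuousAt
  exact (h1.eventually (lt_mem_nhds h.1)).and ((h2.eventually (lt_mem_nhds h.2.1)).and
    (eventually_all.2 fun a =>
      (sm_nn h.1.ne' h.2.1.ne' a).continuousAt.eventually (lt_mem_nhds (h.2.2 a))))

/-- the unit array -/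
def un : Ar := fun a b => (dl a b : ℝ)

lemma ort_un : ort un = un := by
  funext a b
  revert a b
  refine all3 ?_ ?_ ?_ <;> refine all3 ?_ ?_ ?_ <;> simp [ort, un]

lemma nn_un (a : Fin 3) : nn un a = 1 := by
  rw [nn, ort_un]
  revert a
  refine all3 ?_ ?_ ?_ <;> simp [un, Fin.sum_univ_three]

lemma gsl_un : gsl un = un := by
  funext a b
  simp [gsl, nn_un, ort_un]

lemma ps_un : Ps un := ⟨by simp [un], by simp [m2, un], fun a => by simp [nn_un]⟩

lemma sum_un (e : Fin 3 → E3) (a : Fin 3) : ∑ b, un a b • e b = e a := by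
  revert a
  refine all3 ?_ ?_ ?_ <;> simp [un, Fin.sum_univ_three]

/-- the Gram array -/
noncomputable def gram (B : Bi) (e : Fin 3 → E3) : Ar := fun a b => B (e a) (e b)

lemma ON.gram {B : Bi} {e : Fin 3 → E3} (h : ON B e) : gram B e = un := by
  funext a b; exact h a b

lemma ort_gram {B : Bi} (hs : ∀ u v, B u v = B v u) {e : Fin 3 → E3} (h0 : gram B e 0 0 ≠ 0)
    (h1 : m2 (gram B e) ≠ 0) (a b : Fin 3) :
    B (∑ c, ort (gram B e) a c • e c) (∑ c, ort (gram B e) b c • e c) =
      dl a b * nn (gram B e) a := by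
  have s : ∀ a b, B (e a) (e b) = gram B e a b := fun _ _ => rfl
  have s10 : gram B e 1 0 = gram B e 0 1 := hs _ _
  have s20 : gram B e 2 0 = gram B e 0 2 := hs _ _
  have s21 : gram B e 2 1 = gram B e 1 2 := hs _ _
  simp only [map_sum, map_smul, _root_.sum_apply, _root_.smul_apply, smul_eq_mul, s]
  generalize gram B e = g at *
  revert a b
  refine all3 ?_ ?_ ?_ <;> refine all3 ?_ ?_ ?_ <;>
    simp only [ort, nn, Fin.sum_univ_three, s10, s20, s21, Matrix.cons_val_zero,
      Matrix.cons_val_one, Matrix.cons_val, dl_self, dl01, dl02, dl10, dl12, dl20, dl21,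
      Int.cast_one, Int.cast_zero] <;> field_simp <;> (try simp only [m2]) <;> ring

/-- the orthonormalised frame -/
noncomputable def gs (B : Bi) (e : Fin 3 → E3) (a : Fin 3) : E3 := ∑ b, gsl (gram B e) a b • e b

lemma gs_on {B : Bi} (hs : ∀ u v, B u v = B v u) {e : Fin 3 → E3} (h : Ps (gram B e)) :
    ON B (gs B e) := by
  intro a b
  have e1 : ∀ a, gs B e a = (√(nn (gram B e) a))⁻¹ • ∑ c, ort (gram B e) a c • e c := fun a => by
    simp only [gs, gsl, Finset.smul_sum, mul_smul]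
  rw [e1, e1, map_smul, map_smul, _root_.smul_apply, ort_gram hs h.1.ne' h.2.1.ne']
  by_cases hab : a = b
  · subst hab
    have := Real.mul_self_sqrt (h.2.2 a).le
    have h2 := (Real.sqrt_pos.2 (h.2.2 a)).ne'
    simp only [dl_self, smul_eq_mul, Int.cast_one, one_mul]
    field_simp
    linarith
  · simp [dl, hab]

lemma ON.gs {B : Bi} {e : Fin 3 → E3} (h : ON B e) : gs B e = e := by
  funext a
  rw [P216D.gs, h.gram, gsl_un, sum_un]

/-- the orthonormalisation works for independent vectors and a positive form -/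
lemma ps_gram {B : Bi} (hs : ∀ u v, B u v = B v u) (hp : ∀ v, v ≠ 0 → 0 < B v v)
    {e : Fin 3 → E3} (he : LinearIndependent ℝ e) : Ps (gram B e) := by
  have ne : ∀ (c : Fin 3 → ℝ) a, c a ≠ 0 → 0 < B (∑ i, c i • e i) (∑ i, c i • e i) :=
    fun c a h => hp _ fun h0 => h (Fintype.linearIndependent_iff.1 he c h0 a)
  have h0 : 0 < gram B e 0 0 := by simpa [Fin.sum_univ_three, gram] using ne ![1, 0, 0] 0 (by simp)
  have h1 : 0 < m2 (gram B e) := by
    have := ne ![-gram B e 0 1, gram B e 0 0, 0] 1 (by simpa using h0.ne')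
    have s10 : B (e 1) (e 0) = gram B e 0 1 := hs _ _
    have s : ∀ a b, B (e a) (e b) = gram B e a b := fun _ _ => rfl
    simp only [Fin.sum_univ_three, map_add, map_smul, _root_.add_apply, _root_.smul_apply, s10,
      smul_eq_mul, Matrix.cons_val_zero, Matrix.cons_val_one, Matrix.cons_val, zero_mul, add_zero,
      mul_zero] at this
    simp only [s] at this
    refine pos_of_mul_pos_left (b := gram B e 0 0) ?_ h0.le
    unfold m2
    nlinarith
  refine ⟨h0, h1, fun a => ?_⟩
  have := ne (ort (gram B e) a) a (by revert a; refine all3 ?_ ?_ ?_ <;> simp [ort])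
  rwa [ort_gram hs h0.ne' h1.ne', dl_self, Int.cast_one, one_mul] at this

/-- the standard basis -/
noncomputable def std (a : Fin 3) : E3 := EuclideanSpace.basisFun (Fin 3) ℝ a

lemma std_li : LinearIndependent ℝ std :=
  (EuclideanSpace.basisFun (Fin 3) ℝ).toBasis.linearIndependent

/-- the preferred orthonormal frame of a positive form -/
noncomputable def fr0 (B : Bi) : Fin 3 → E3 := gs B std

lemma fr0_on {B : Bi} (hs : ∀ u v, B u v = B v u) (hp : ∀ v, v ≠ 0 → 0 < B v v) :
    ON B (fr0 B) := gs_on hs (ps_gram hs hp std_li)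

lemma sm_gs {B : Bi} {e : Fin 3 → E3} (h : Ps (gram B e)) :
    ContDiffAt ℝ ∞ (fun q : Bi × (Fin 3 → E3) => gs q.1 q.2) (B, e) := by
  have h1 : ContDiffAt ℝ ∞ (fun q : Bi × (Fin 3 → E3) => gram q.1 q.2) (B, e) := by
    unfold gram; fun_prop
  have h2 := ContDiffAt.comp (B, e) (g := gsl) h.sm h1
  exact contDiffAt_pi.2 fun a => ContDiffAt.sum fun b _ =>
    (contDiffAt_pi.1 (contDiffAt_pi.1 h2 a) b).smul (by fun_prop)

lemma sm_fr0 {B : Bi} (hs : ∀ u v, B u v = B v u) (hp : ∀ v, v ≠ 0 → 0 < B v v) :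
    ContDiffAt ℝ ∞ fr0 B :=
  ContDiffAt.comp B (g := fun q : Bi × (Fin 3 → E3) => gs q.1 q.2) (f := fun B => (B, std))
    (sm_gs (ps_gram hs hp std_li)) (by fun_prop)

end Vale.Agent.P216D
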