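import Mathlib.Algebra.BigOperators.Fin
import Mathlib.Algebra.Order.BigOperators.Ring.Finset
import Mathlib.Analysis.Real.Sqrt
import Vale.Agent.P216D.Heat

/-! # Iterated covariant derivatives and their squared norms -/

set_option linter.unusedSimpArgs false

namespace Vale.Agent.P216D

lemma sum_cons {B : Type*} [AddCommMonoid B] (k : ℕ) (F : List (Fin 3) → B) :
    ∑ w : Fin (k + 1) → Fin 3, F (List.ofFn w) =
      ∑ a, ∑ w : Fin k → Fin 3, F (a :: List.ofFn w) := by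
  rw [← Fintype.sum_prod_type', ← (Fin.consEquiv fun _ : Fin (k + 1) => Fin 3).sum_comp]
  refine Finset.sum_congr rfl fun p _ => ?_
  simp [Fin.consEquiv, List.ofFn_succ]

lemma sum_concat {B : Type*} [AddCommMonoid B] (k : ℕ) (F : List (Fin 3) → B) :
    ∑ w : Fin (k + 1) → Fin 3, F (List.ofFn w) =
      ∑ a, ∑ w : Fin k → Fin 3, F (List.ofFn w ++ [a]) := by
  rw [← Fintype.sum_prod_type', ← (Fin.snocEquiv fun _ : Fin (k + 1) => Fin 3).sum_comp]
  refine Finset.sum_congr rfl fun p _ => ?_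
  rw [List.ofFn_succ_last]
  simp [Fin.snocEquiv]

lemma exists_ofFn (w : List (Fin 3)) {k : ℕ} (h : w.length = k) :
    ∃ v : Fin k → Fin 3, List.ofFn v = w := by
  subst h
  exact ⟨w.get, List.ofFn_get w⟩

variable {A : Type*} [CommRing A] [Algebra ℝ A]

namespace Fr

variable (c : Fr A)

/-- the iterated horizontal derivative; the head of the list is applied last -/
def DwL : List (Fin 3) → A →ₗ[ℝ] A
  | [] => LinearMap.id
  | a :: w => (c.D a).toLinearMap ∘ₗ DwL w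

/-- the iterated horizontal derivative; the head of the list is applied last -/
def Dw (w : List (Fin 3)) (x : A) : A := c.DwL w x

@[simp] lemma Dw_nil (x : A) : c.Dw [] x = x := rfl
@[simp] lemma Dw_cons (a : Fin 3) (w : List (Fin 3)) (x : A) :
    c.Dw (a :: w) x = c.D a (c.Dw w x) := rfl

lemma Dw_append (w w' : List (Fin 3)) (x : A) : c.Dw (w ++ w') x = c.Dw w (c.Dw w' x) := by
  induction w with
  | nil => rfl
  | cons a w ih => rw [List.cons_append, Dw_cons, Dw_cons, ih]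

lemma Dw_add (w : List (Fin 3)) (x y : A) : c.Dw w (x + y) = c.Dw w x + c.Dw w y :=
  map_add (c.DwL w) x y

lemma Dw_sub (w : List (Fin 3)) (x y : A) : c.Dw w (x - y) = c.Dw w x - c.Dw w y :=
  map_sub (c.DwL w) x y

lemma Dw_neg (w : List (Fin 3)) (x : A) : c.Dw w (-x) = -c.Dw w x := map_neg (c.DwL w) x

lemma Dw_zero (w : List (Fin 3)) : c.Dw w 0 = 0 := map_zero (c.DwL w)

lemma Dw_smul (w : List (Fin 3)) (r : ℝ) (x : A) : c.Dw w (r • x) = r • c.Dw w x :=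
  map_smul (c.DwL w) r x

lemma Dw_zsmul (w : List (Fin 3)) (n : ℤ) (x : A) : c.Dw w (n • x) = n • c.Dw w x :=
  map_zsmul (c.DwL w) n x

lemma Dw_sum (w : List (Fin 3)) {ι : Type*} (s : Finset ι) (x : ι → A) :
    c.Dw w (∑ i ∈ s, x i) = ∑ i ∈ s, c.Dw w (x i) := map_sum (c.DwL w) x s

lemma Dw_const_mul (w : List (Fin 3)) {u : A} (hu : ∀ a, c.D a u = 0) (x : A) :
    c.Dw w (u * x) = u * c.Dw w x := by
  induction w with
  | nil => rfl
  | cons a w ih => rw [Dw_cons, Dw_cons, ih, der_mul, hu, mul_zero, add_zero]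

/-- the inner product of the `k`-th derivatives -/
def Qf (k : ℕ) (x y : A) : A :=
  ∑ w : Fin k → Fin 3, c.Dw (List.ofFn w) x * c.Dw (List.ofFn w) y

lemma Qf_zero (x y : A) : c.Qf 0 x y = x * y := by simp [Qf]

lemma Qf_succ (k : ℕ) (x y : A) : c.Qf (k + 1) x y = ∑ a, c.Qf k (c.D a x) (c.D a y) := by
  rw [Qf, sum_concat k fun w => c.Dw w x * c.Dw w y]
  simp only [Qf, Dw_append, Dw_cons, Dw_nil]

lemma Qf_succ' (k : ℕ) (x y : A) : c.Qf (k + 1) x y =
    ∑ w : Fin k → Fin 3, c.ip (c.Dw (List.ofFn w) x) (c.Dw (List.ofFn w) y) := by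
  rw [Qf, sum_cons k fun w => c.Dw w x * c.Dw w y, Finset.sum_comm]
  rfl

lemma Qf_one (x y : A) : c.Qf 1 x y = c.ip x y := by simp only [Qf_succ, Qf_zero, ip]

lemma Qf_two (x : A) : c.Qf 2 x x = c.hsq x := by
  simp only [Qf_succ, Qf_zero, hsq, sq]
  exact Finset.sum_comm

lemma Qf_comm (k : ℕ) (x y : A) : c.Qf k x y = c.Qf k y x := by simp only [Qf, mul_comm]

/-- `Qf` as a bilinear map -/
def QfL (k : ℕ) : A →ₗ[ℝ] A →ₗ[ℝ] A :=
  LinearMap.mk₂ ℝ (c.Qf k)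
    (fun x y z => by simp only [Qf, Dw_add, add_mul, Finset.sum_add_distrib])
    (fun r x y => by simp only [Qf, Dw_smul, smul_mul_assoc, Finset.smul_sum])
    (fun x y z => by simp only [Qf, Dw_add, mul_add, Finset.sum_add_distrib])
    (fun r x y => by simp only [Qf, Dw_smul, mul_smul_comm, Finset.smul_sum])

lemma QfL_apply (k : ℕ) (x y : A) : c.QfL k x y = c.Qf k x y := rfl

lemma V_Qf (d : Fin 3) (k : ℕ) (x y : A) :
    c.V d (c.Qf k x y) = c.Qf k (c.V d x) y + c.Qf k x (c.V d y) := by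
  induction k generalizing x y with
  | zero => simp only [Qf_zero, der_mul]; ring
  | succ k ih =>
    simp only [Qf_succ, map_sum, ih, c.VD]
    simp only [← QfL_apply, Fin.sum_univ_three, map_add, LinearMap.add_apply]
    clear ih
    revert d
    refine all3 ?_ ?_ ?_ <;>
    · simp only [eps_nf, zs_nf, map_neg, map_zero, LinearMap.neg_apply, LinearMap.zero_apply]
      ring

lemma Inv.Qf {c : Fr A} {f h : A} (hf : c.Inv f) (hh : c.Inv h) (k : ℕ) : c.Inv (c.Qf k f h) :=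
  fun d => by rw [V_Qf, hf d, hh d, ← QfL_apply, ← QfL_apply]; simp

/-- the squared norm of the `k`-th derivative of a family -/
def Nf {ι : Type*} [Fintype ι] (x : ι → A) (k : ℕ) : A := ∑ i, c.Qf k (x i) (x i)

/-- the components of the curvature operator -/
def Mf (p : Fin 3 × Fin 3) : A := c.M p.1 p.2

/-- `|∇^k M|²` -/
def N (k : ℕ) : A := c.Nf c.Mf k

lemma N_eq (k : ℕ) : c.N k = ∑ b, ∑ d, c.Qf k (c.M b d) (c.M b d) := by
  rw [N, Nf, Fintype.sum_prod_type]; rfl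

lemma N_zero : c.N 0 = c.N0 := by simp only [N_eq, Qf_zero, N0, sq]

lemma inv_N (k : ℕ) : c.Inv (c.N k) := by
  intro d
  simp only [N_eq, map_sum, V_Qf]
  simp only [← QfL_apply, Fin.sum_univ_three]
  revert d
  refine all3 ?_ ?_ ?_ <;>
  · simp only [c.nfM, map_neg, map_zero, map_add, map_sub, LinearMap.neg_apply,
      LinearMap.zero_apply, LinearMap.add_apply, LinearMap.sub_apply]
    ring

section Hom

variable {c} {A' : Type*} [CommRing A'] [Algebra ℝ A'] {c' : Fr A'} (φ : A →ₐ[ℝ] A')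
  {h : Fin 3 → Fin 3 → ℝ} {σ : ℝ}

lemma orth_sum {B : A' →ₗ[ℝ] A' →ₗ[ℝ] A'} (ho : ∀ b e, ∑ a, h a b * h a e = σ * dl b e)
    (x y : Fin 3 → A') :
    ∑ a, B (∑ b, h a b • x b) (∑ b, h a b • y b) = σ • ∑ b, B (x b) (y b) := by
  have : ∑ a, B (∑ b, h a b • x b) (∑ b, h a b • y b) =
      ∑ b, ∑ e, (∑ a, h a b * h a e) • B (x b) (y e) := by
    simp only [Fin.sum_univ_three, map_add, map_smul, LinearMap.add_apply, LinearMap.smul_apply,
      add_smul, mul_smul, smul_add, smul_comm (h _ 1) (h _ 0), smul_comm (h _ 2) (h _ 0),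
      smul_comm (h _ 2) (h _ 1)]
    abel
  rw [this]
  simp [ho, Fin.sum_univ_three]

/-- invariance under rotations of the frame, isometries and homotheties -/
lemma hom_Qf (hD : ∀ a x, φ (c.D a x) = ∑ b, h a b • c'.D b (φ x))
    (ho : ∀ b e, ∑ a, h a b * h a e = σ * dl b e) (k : ℕ) (x y : A) :
    φ (c.Qf k x y) = σ ^ k • c'.Qf k (φ x) (φ y) := by
  induction k generalizing x y with
  | zero => simp [Qf_zero]
  | succ k ih =>
    simp only [Qf_succ, map_sum, ih, hD, ← Finset.smul_sum]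
    simp only [← QfL_apply]
    rw [orth_sum ho, smul_smul, pow_succ]

lemma hom_N {g : Fin 3 → Fin 3 → ℝ} {ρ : ℝ}
    (hD : ∀ a x, φ (c.D a x) = ∑ b, h a b • c'.D b (φ x))
    (ho : ∀ b e, ∑ a, h a b * h a e = σ * dl b e)
    (hM : ∀ a b, φ (c.M a b) = ∑ e, g a e • ∑ f, g b f • c'.M e f)
    (hg : ∀ b e, ∑ a, g a b * g a e = ρ * dl b e) (k : ℕ) :
    φ (c.N k) = (σ ^ k * ρ ^ 2) • c'.N k := by
  simp only [N_eq, map_sum, hom_Qf φ hD ho, hM, ← Finset.smul_sum]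
  simp only [← QfL_apply]
  rw [Finset.sum_comm]
  simp only [orth_sum hg, ← Finset.smul_sum]
  rw [Finset.sum_comm]
  simp only [orth_sum hg, ← Finset.smul_sum, smul_smul]
  rw [sq]

end Hom

lemma Nf_eq {ι : Type*} [Fintype ι] (x : ι → A) (k : ℕ) :
    c.Nf x k = ∑ p : ι × (Fin k → Fin 3), c.Dw (List.ofFn p.2) (x p.1) ^ 2 := by
  simp only [Nf, Qf, Fintype.sum_prod_type, sq]

lemma Nf_succ {ι : Type*} [Fintype ι] (x : ι → A) (k : ℕ) : c.Nf x (k + 1) =
    ∑ p : ι × (Fin k → Fin 3), ∑ a, c.D a (c.Dw (List.ofFn p.2) (x p.1)) ^ 2 := by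
  simp only [Nf, Qf_succ', Fintype.sum_prod_type, ip_self]

variable (ev : A →ₐ[ℝ] ℝ) {ι : Type*} [Fintype ι]

lemma ev_Nf_nonneg (x : ι → A) (k : ℕ) : 0 ≤ ev (c.Nf x k) := by
  simp only [Nf_eq, map_sum, map_pow]
  exact Finset.sum_nonneg fun _ _ => sq_nonneg _

lemma ev_N_nonneg (k : ℕ) : 0 ≤ ev (c.N k) := c.ev_Nf_nonneg ev _ k

/-- every component is bounded by the norm -/
lemma ev_Dw_le (x : ι → A) {k : ℕ} {w : List (Fin 3)} (hw : w.length = k) (i : ι) :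
    |ev (c.Dw w (x i))| ≤ √(ev (c.Nf x k)) := by
  obtain ⟨v, rfl⟩ := exists_ofFn w hw
  refine Real.abs_le_sqrt ?_
  simp only [Nf_eq, map_sum, map_pow]
  exact Finset.single_le_sum (f := fun p : ι × (Fin k → Fin 3) =>
    ev (c.Dw (List.ofFn p.2) (x p.1)) ^ 2) (fun _ _ => sq_nonneg _) (Finset.mem_univ (i, v))

/-- the norm is bounded by the components -/
lemma ev_Nf_le (x : ι → A) {k : ℕ} {r : ℝ}
    (h : ∀ w : List (Fin 3), w.length = k → ∀ i, |ev (c.Dw w (x i))| ≤ r) :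
    ev (c.Nf x k) ≤ Fintype.card ι * 3 ^ k * r ^ 2 := by
  simp only [Nf_eq, map_sum, map_pow]
  refine (Finset.sum_le_card_nsmul _ _ (r ^ 2) fun p _ => ?_).trans_eq (by simp)
  rw [← sq_abs]
  exact pow_le_pow_left₀ (abs_nonneg _) (h _ List.length_ofFn _) 2

lemma ev_ip_nonneg (x : A) : 0 ≤ ev (c.ip x x) := by
  simp only [ip_self, map_sum, map_pow]
  exact Finset.sum_nonneg fun _ _ => sq_nonneg _

lemma ev_ip_sq_le (x y : A) : ev (c.ip x y) ^ 2 ≤ ev (c.ip x x) * ev (c.ip y y) := by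
  simp only [ip_self]
  simp only [ip, map_sum, map_pow, map_mul]
  exact Finset.sum_mul_sq_le_sq_mul_sq _ _ _

lemma ev_ip_le (x y : A) : |ev (c.ip x y)| ≤ √(ev (c.ip x x)) * √(ev (c.ip y y)) := by
  rw [← Real.sqrt_mul (c.ev_ip_nonneg ev x)]
  exact Real.abs_le_sqrt (c.ev_ip_sq_le ev x y)

/-- **Kato inequality** -/
lemma ev_ip_Nf (x : ι → A) (k : ℕ) :
    ev (c.ip (c.Nf x k) (c.Nf x k)) ≤ 4 * ev (c.Nf x k) * ev (c.Nf x (k + 1)) := by
  rw [ip_self, Nf_succ, Finset.sum_comm, map_sum, map_sum, Finset.mul_sum]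
  refine Finset.sum_le_sum fun a _ => ?_
  simp only [Nf_eq, map_sum, der_sq, map_pow, map_mul, map_ofNat, mul_assoc, ← Finset.mul_sum,
    mul_pow]
  have := Finset.sum_mul_sq_le_sq_mul_sq Finset.univ
    (fun p : ι × (Fin k → Fin 3) => ev (c.Dw (List.ofFn p.2) (x p.1)))
    (fun p => ev (c.D a (c.Dw (List.ofFn p.2) (x p.1))))
  linarith

lemma ev_ip_N (k : ℕ) : ev (c.ip (c.N k) (c.N k)) ≤ 4 * ev (c.N k) * ev (c.N (k + 1)) :=
  c.ev_ip_Nf ev _ k

end Fr

lemma Fl.H_Nf (c : Fl A) {ι : Type*} [Fintype ι] (x : ι → A) (k : ℕ) : c.H (c.Nf x k) =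
    2 * ∑ p : ι × (Fin k → Fin 3),
      c.Dw (List.ofFn p.2) (x p.1) * c.H (c.Dw (List.ofFn p.2) (x p.1)) - 2 * c.Nf x (k + 1) := by
  simp only [Fr.Nf_succ, c.Nf_eq x k, c.H_sum, c.H_sq, Finset.sum_sub_distrib, Fr.ip_self,
    Finset.mul_sum, mul_assoc]

end Vale.Agent.P216D
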