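import Vale.Agent.P216R.Flow
import Vale.Agent.P216D.ModGS
import Vale.Agent.P216D.Words

/-! # The squared norm of the derivatives of the curvature tensor on a manifold -/

open scoped Manifold ContDiff Topology
open Set

set_option maxSynthPendingDepth 3

noncomputable section

namespace Vale.Agent.P216D

open Vale.Agent.P216R

section Alg

variable {m : ℕ} (T : MultilinearMap ℝ (fun _ : Fin m => E3) ℝ) {B : Bi} {e e' : Fin 3 → E3}

lemma ml_expand (he : ON B e) (v : Fin m → E3) :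
    T v = ∑ j : Fin m → Fin 3, (∏ i, B (v i) (e (j i))) * T fun i => e (j i) := by
  conv_lhs => rw [show v = fun i => ∑ a, B (v i) (e a) • e a from funext fun i => he.expand _]
  rw [T.map_sum]
  exact Finset.sum_congr rfl fun j _ => by rw [T.map_smul_univ, smul_eq_mul]

lemma sum_prod_pi (F : Fin m → Fin 3 → ℝ) :
    ∑ j : Fin m → Fin 3, ∏ i, F i (j i) = ∏ i, ∑ a, F i a := by
  rw [Finset.prod_univ_sum, Fintype.piFinset_univ]

lemma ml_le (he : ON B e) (v : Fin m → E3) :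
    T v ^ 2 ≤ (∏ i, B (v i) (v i)) * ∑ j : Fin m → Fin 3, (T fun i => e (j i)) ^ 2 := by
  rw [ml_expand T he v]
  refine (Finset.sum_mul_sq_le_sq_mul_sq _ _ _).trans_eq ?_
  congr 1
  simp only [← Finset.prod_pow]
  rw [sum_prod_pi fun i a => B (v i) (e a) ^ 2]
  refine Finset.prod_congr rfl fun i _ => ?_
  rw [he.pars (B (v i)) (v i)]
  simp only [sq]

lemma ml_inv (hs : ∀ u v, B u v = B v u) (he : ON B e) (he' : ON B e') :
    ∑ j : Fin m → Fin 3, (T fun i => e' (j i)) ^ 2 =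
      ∑ j : Fin m → Fin 3, (T fun i => e (j i)) ^ 2 := by
  have h1 : ∀ j : Fin m → Fin 3, (T fun i => e' (j i)) ^ 2 =
      ∑ l : Fin m → Fin 3, (T fun i => e (l i)) *
        ((∏ i, B (e (l i)) (e' (j i))) * T fun i => e' (j i)) := fun j => by
    rw [sq]
    conv_lhs => enter [1]; rw [ml_expand T he]
    rw [Finset.sum_mul]
    exact Finset.sum_congr rfl fun l _ => by simp only [hs (e' _)]; ring
  simp only [h1]
  rw [Finset.sum_comm]
  refine Finset.sum_congr rfl fun l _ => ?_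
  rw [← Finset.mul_sum, ← ml_expand T he', sq]

end Alg

section Ring

variable {A : Type*} [CommRing A] [Algebra ℝ A] (c : Fr A)

/-- iterated derivatives of a four-tensor -/
def Fr.Rw (r : (Fin 4 → Fin 3) → A) : (k : ℕ) → (Fin (k + 4) → Fin 3) → A
  | 0 => r
  | k + 1 => fun i => c.D (i 0) (Fr.Rw r k (Fin.tail i))

lemma Fr.sum_Rw (r : (Fin 4 → Fin 3) → A) (k : ℕ) (F : A → A) :
    ∑ i, F (c.Rw r k i) = ∑ j, ∑ w : Fin k → Fin 3, F (c.Dw (List.ofFn w) (r j)) := by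
  induction k generalizing F with
  | zero => simp [Fr.Rw]
  | succ k ih =>
    simp only [fun j => sum_cons k fun w => F (c.Dw w (r j)), Fr.Dw_cons]
    rw [← (Fin.consEquiv fun _ : Fin (k + 4 + 1) => Fin 3).sum_comp, Fintype.sum_prod_type,
      Finset.sum_comm (f := fun j a => ∑ w : Fin k → Fin 3, F (c.D a (c.Dw (List.ofFn w) (r j))))]
    refine Finset.sum_congr rfl fun a _ => ?_
    rw [← ih fun y => F (c.D a y)]
    simp [Fr.Rw, Fin.consEquiv]

lemma sum_four {B : Type*} [AddCommMonoid B] (F : (Fin 4 → Fin 3) → B) :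
    ∑ j, F j = ∑ a, ∑ b, ∑ c, ∑ d, F ![a, b, c, d] := by
  have h : ∀ n (G : (Fin (n + 1) → Fin 3) → B), ∑ j, G j = ∑ a, ∑ j, G (Matrix.vecCons a j) :=
    fun n G => by
      rw [← (Fin.consEquiv fun _ : Fin (n + 1) => Fin 3).sum_comp, Fintype.sum_prod_type]
      rfl
  simp only [h, Finset.univ_unique, Finset.sum_singleton]
  rfl

lemma Fr.sum_Rw_sq {r : (Fin 4 → Fin 3) → A}
    (hr : ∀ j, r j = -∑ a, ∑ b, (eps (j 0) (j 1) a * eps (j 2) (j 3) b) • c.M a b) (k : ℕ) :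
    ∑ i, c.Rw r k i ^ 2 = 4 * c.N k := by
  rw [c.sum_Rw r k fun y => y ^ 2, Finset.sum_comm, Fr.N, Fr.Nf_eq, Fintype.sum_prod_type,
    Finset.sum_comm (f := fun p (w : Fin k → Fin 3) => c.Dw (List.ofFn w) (c.Mf p) ^ 2),
    Finset.mul_sum]
  refine Finset.sum_congr rfl fun w _ => ?_
  simp only [hr, Fr.Dw_neg, Fr.Dw_sum, Fr.Dw_zsmul, sum_four, Fintype.sum_prod_type, Fr.Mf]
  simp [Fin.sum_univ_three]
  ring

end Ring

variable {M : Type} [TopologicalSpace M] [ChartedSpace E3 M] {N : Type} [TopologicalSpace N]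
  [ChartedSpace E3 N]

/-- `|∇^k Rm|²` -/
def NN (g : Ten E3 M) (k : ℕ) (x : M) : ℝ :=
  ∑ j : Fin (k + 4) → Fin 3, (Rm g k x fun i => fr0 (g x) (j i)) ^ 2

lemma NN_nonneg (g : Ten E3 M) (k : ℕ) (x : M) : 0 ≤ NN g k x :=
  Finset.sum_nonneg fun _ _ => sq_nonneg _

lemma NN_congr {g h : Ten E3 M} {x : M} (H : g =ᶠ[𝓝 x] h) (k : ℕ) : NN g k x = NN h k x := by
  simp only [NN, Rm_congr H, H.self_of_nhds]

variable [IsManifold 𝓘(ℝ, E3) ∞ M] [IsManifold 𝓘(ℝ, E3) ∞ N] {g : Ten E3 M} {U : Set M} {x : M}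
  {k : ℕ} {C : ℝ}

lemma NN_eq (hg : Met g U) (hx : x ∈ U) {e : Fin 3 → E3} (he : ON (g x) e) (k : ℕ) :
    NN g k x = ∑ j : Fin (k + 4) → Fin 3, (Rm g k x fun i => e (j i)) ^ 2 := by
  simp only [NN, ← hg.rmML_apply hx]
  exact ml_inv _ (hg.symm x hx) he (fr0_on (hg.symm x hx) (hg.pos x hx))

omit [IsManifold 𝓘(ℝ, E3) ∞ M] in
lemma NN_le (hg : Met g U) (hx : x ∈ U) (h : RmB g k x C) : NN g k x ≤ 3 ^ (k + 4) * C ^ 2 := by
  refine (Finset.sum_le_card_nsmul _ _ (C ^ 2) fun j _ => ?_).trans_eq (by simp)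
  rw [← sq_abs]
  exact pow_le_pow_left₀ (abs_nonneg _) (h _ fun i => by
    rw [fr0_on (hg.symm x hx) (hg.pos x hx)]; simp) 2

lemma rmB_sqrt (hg : Met g U) (hx : x ∈ U) (k : ℕ) : RmB g k x √(NN g k x) := fun v hv => by
  refine Real.abs_le_sqrt ?_
  have h := ml_le (hg.rmML hx k) (fr0_on (hg.symm x hx) (hg.pos x hx)) v
  simp only [hg.rmML_apply hx] at h
  exact h.trans (mul_le_of_le_one_left (NN_nonneg g k x)
    (Finset.prod_le_one (fun i _ => hg.nonneg hx _) fun i _ => hv i))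

lemma rmB_of_NN (hg : Met g U) (hx : x ∈ U) (h : NN g k x ≤ C) : RmB g k x √C :=
  fun v hv => (rmB_sqrt hg hx k v hv).trans (Real.sqrt_le_sqrt h)

lemma NN_li {h : Ten E3 N} {f : N → M} {y : N} (H : LI h g f y) (k : ℕ) :
    NN h k y = NN g k (f y) := by
  obtain ⟨U, h1, h2⟩ := H.met
  obtain ⟨V, h3, h4⟩ := H.met'
  have o := fr0_on (h3.symm y h4) (h3.pos y h4)
  rw [NN_eq h1 h2 (e := fun a => md E3 f y (fr0 (h y) a)) fun a b => by rw [← H.apply, o]]
  simp only [NN, H.Rm]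

lemma NN_chart (hg : Met g U) {a : M} {u : E3} (hu : u ∈ dom E3 a U) {e : Fin 3 → E3}
    (he : ON (co g a u) e) (k : ℕ) : NN g k ((chartAt E3 a).symm u) =
      ∑ j : Fin (k + 4) → Fin 3, rmG (co g a) k (u, fun i => e (j i)) ^ 2 := by
  rw [← NN_li (li_comap hg (ld_symm a) hu.1 hu.2)]
  exact (NN_eq (g := co g a) (met_model.2 (hg.isMetricOn a)) hu he k).trans (by simp only [Rm_model])

end Vale.Agent.P216D
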