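import Mathlib.Analysis.Normed.Module.Basic
import Mathlib.Analysis.Seminorm
import Vale.Agent.P216D.Words

/-! # The evolution inequalities for the derivatives of the curvature, with universal constants -/

set_option linter.unusedSimpArgs false

namespace Vale.Agent.P216D

section Gauge

variable {A B : Type*} [AddCommGroup A] [Module ℝ A] [AddCommGroup B] [Module ℝ B]

/-- in every seminorm `x` is at most `C` times as big as the elements of `G` -/
def Gb (G : Set A) (C : ℝ) (x : A) : Prop :=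
  ∀ (p : Seminorm ℝ A) (r : ℝ), 0 ≤ r → (∀ g ∈ G, p g ≤ r) → p x ≤ C * r

variable {G G' : Set A} {C C' : ℝ} {x y : A}

lemma Gb.mem (h : x ∈ G) : Gb G 1 x := fun _ _ _ hp => by simpa using hp x h

lemma Gb.zero : Gb G 0 0 := fun p _ _ _ => by simp

lemma Gb.mono (h : Gb G C x) (hC : C ≤ C') : Gb G C' x := fun p r hr hp =>
  (h p r hr hp).trans (mul_le_mul_of_nonneg_right hC hr)

lemma Gb.subset (h : Gb G C x) (hG : G ⊆ G') : Gb G' C x := fun p r hr hp =>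
  h p r hr fun g hg => hp g (hG hg)

lemma Gb.add (h : Gb G C x) (k : Gb G C' y) : Gb G (C + C') (x + y) := fun p r hr hp => by
  have := map_add_le_add p x y
  linarith [h p r hr hp, k p r hr hp]

lemma Gb.neg (h : Gb G C x) : Gb G C (-x) := fun p r hr hp => by
  rw [map_neg_eq_map]; exact h p r hr hp

lemma Gb.sub (h : Gb G C x) (k : Gb G C' y) : Gb G (C + C') (x - y) := by
  rw [sub_eq_add_neg]; exact h.add k.neg

lemma Gb.smul (h : Gb G C x) (s : ℝ) : Gb G (|s| * C) (s • x) := fun p r hr hp => by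
  rw [map_smul_eq_mul, mul_assoc]
  exact mul_le_mul_of_nonneg_left (h p r hr hp) (abs_nonneg s)

lemma Gb.unit (h : Gb G C x) {n : ℤ} (hn : n = 0 ∨ n = 1 ∨ n = -1) : Gb G C (n • x) := by
  rcases hn with rfl | rfl | rfl
  · intro p r hr hp
    rw [zero_smul, map_zero]
    exact (apply_nonneg p x).trans (h p r hr hp)
  · rwa [one_smul]
  · simpa using h.neg

lemma Gb.eps (h : Gb G C x) (a b c : Fin 3) : Gb G C (eps a b c • x) :=
  h.unit (by revert a b c; decide)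

lemma Gb.dl (h : Gb G C x) (a b : Fin 3) : Gb G C (dl a b • x) :=
  h.unit (by revert a b; decide)

lemma Gb.sum {ι : Type*} {s : Finset ι} {x : ι → A} (h : ∀ i ∈ s, Gb G C (x i)) :
    Gb G (s.card * C) (∑ i ∈ s, x i) := by
  classical
  induction s using Finset.induction_on with
  | empty => simpa using Gb.zero
  | insert a s ha ih =>
    rw [Finset.sum_insert ha, Finset.card_insert_of_notMem ha]
    refine ((h a (by simp)).add (ih fun i hi => h i (by simp [hi]))).mono (le_of_eq ?_)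
    push_cast; ring

lemma Gb.sum3 {x : Fin 3 → A} (h : ∀ i, Gb G C (x i)) : Gb G (3 * C) (∑ i, x i) := by
  simpa using Gb.sum (s := Finset.univ) fun i _ => h i

lemma Gb.map {G' : Set B} (h : Gb G C x) (φ : A →ₗ[ℝ] B) (hC : 0 ≤ C')
    (hφ : ∀ g ∈ G, Gb G' C' (φ g)) : Gb G' (C * C') (φ x) := fun p r hr hp => by
  rw [mul_assoc]
  exact h (p.comp φ) (C' * r) (mul_nonneg hC hr) fun g hg => hφ g hg p r hr hp

end Gauge

variable {A : Type*} [CommRing A] [Algebra ℝ A]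

lemma Gb.mul {G G' G'' : Set A} {C C' : ℝ} {x y : A} (h : Gb G C x) (k : Gb G' C' y)
    (hC : 0 ≤ C') (hG : ∀ g ∈ G, ∀ g' ∈ G', g * g' ∈ G'') : Gb G'' (C * C') (x * y) :=
  h.map (LinearMap.mulRight ℝ y) hC fun g hg => by
    simpa using k.map (LinearMap.mulLeft ℝ g) zero_le_one fun g' hg' => Gb.mem (hG g hg g' hg')

lemma Gb.ofNat {G : Set A} {C : ℝ} {x : A} (h : Gb G C x) (n : ℕ) [n.AtLeastTwo] :
    Gb G (ofNat(n) * C) (ofNat(n) * x) := by
  have := h.smul (ofNat(n) : ℝ)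
  rwa [abs_of_nonneg (Nat.ofNat_nonneg n), Algebra.smul_def, map_ofNat] at this

lemma Gb.ev {G : Set A} {C r : ℝ} {x : A} (h : Gb G C x) (ev : A →ₐ[ℝ] ℝ) (hr : 0 ≤ r)
    (hG : ∀ g ∈ G, |ev g| ≤ r) : |ev x| ≤ C * r :=
  h ((normSeminorm ℝ ℝ).comp ev.toLinearMap) r hr hG

namespace Fr

variable (c : Fr A)

/-- the components of the `k`-th derivatives of the elements of `G` -/
def Wd (G : Set A) (k : ℕ) : Set A := {y | ∃ w : List (Fin 3), w.length = k ∧ ∃ g ∈ G, y = c.Dw w g}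

/-- products of components of derivatives, of total order `k` -/
def St (G G' : Set A) (k : ℕ) : Set A :=
  {z | ∃ i j, i + j = k ∧ ∃ x ∈ c.Wd G i, ∃ y ∈ c.Wd G' j, z = x * y}

/-- `G` is stable under the vertical fields -/
def Vst (G : Set A) (v : ℝ) : Prop := ∀ g ∈ G, ∀ d, Gb G v (c.V d g)

variable {c} {G G' : Set A} {v C : ℝ} {k : ℕ} {x : A}

lemma Wd_zero : c.Wd G 0 = G := by
  ext y
  simp [Wd]

lemma D_mem_Wd (h : x ∈ c.Wd G k) (a : Fin 3) : c.D a x ∈ c.Wd G (k + 1) := by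
  obtain ⟨w, rfl, g, hg, rfl⟩ := h
  exact ⟨a :: w, rfl, g, hg, rfl⟩

lemma gb_D_Wd (h : Gb (c.Wd G k) C x) (a : Fin 3) : Gb (c.Wd G (k + 1)) C (c.D a x) := by
  simpa using h.map (c.D a).toLinearMap zero_le_one fun g hg => Gb.mem (D_mem_Wd hg a)

lemma Vst.Wd (h : c.Vst G v) (k : ℕ) : c.Vst (c.Wd G k) (v + 3 * k) := by
  induction k with
  | zero => simpa [Wd_zero] using h
  | succ k ih =>
    rintro _ ⟨w, hw, g, hg, rfl⟩ d
    obtain _ | ⟨a, w⟩ := w
    · simp at hw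
    have hm : c.Dw w g ∈ c.Wd G k := ⟨w, by simpa using hw, g, hg, rfl⟩
    rw [Dw_cons, c.VD]
    refine ((gb_D_Wd (ih _ hm d) a).add
      (Gb.sum3 fun e => (Gb.mem (D_mem_Wd hm e)).eps d a e)).mono (le_of_eq ?_)
    push_cast; ring

lemma gb_D_St (h : Gb (c.St G G' k) C x) (a : Fin 3) :
    Gb (c.St G G' (k + 1)) (C * 2) (c.D a x) := by
  refine h.map (c.D a).toLinearMap zero_le_two ?_
  rintro _ ⟨i, j, rfl, x, hx, y, hy, rfl⟩
  change Gb _ _ (c.D a (x * y))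
  rw [der_mul, mul_comm y, ← one_add_one_eq_two]
  refine (Gb.mem ?_).add (Gb.mem ?_)
  · exact ⟨i, j + 1, rfl, x, hx, _, D_mem_Wd hy a, rfl⟩
  · exact ⟨i + 1, j, by ring, _, D_mem_Wd hx a, y, hy, rfl⟩

lemma gb_Dw_St (h : Gb (c.St G G' k) C x) (w : List (Fin 3)) :
    Gb (c.St G G' (k + w.length)) (C * 2 ^ w.length) (c.Dw w x) := by
  induction w with
  | nil => simpa using h
  | cons a w ih => simpa [pow_succ, mul_assoc, add_assoc] using gb_D_St ih a

variable (c)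

lemma M_mem (a b : Fin 3) : c.M a b ∈ Set.range c.Mf := ⟨(a, b), rfl⟩

lemma vst_M : c.Vst (Set.range c.Mf) 6 := by
  rintro _ ⟨⟨a, b⟩, rfl⟩ d
  change Gb _ _ (c.V d (c.M a b))
  rw [VM]
  exact ((Gb.sum3 fun e => (Gb.mem (c.M_mem e b)).eps d a e).add
    (Gb.sum3 fun e => (Gb.mem (c.M_mem a e)).eps d b e)).mono (by norm_num)

lemma vst_inv {f : A} (hf : c.Inv f) : c.Vst {f} 0 := by
  rintro _ rfl d
  rw [hf d]
  exact Gb.zero

lemma gb_S : Gb (Set.range c.Mf) 3 c.S :=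
  (((Gb.mem (c.M_mem 0 0)).add (Gb.mem (c.M_mem 1 1))).add (Gb.mem (c.M_mem 2 2))).mono
    (by norm_num)

lemma gb_Ric (a b : Fin 3) : Gb (Set.range c.Mf) 4 (c.Ric a b) :=
  ((c.gb_S.dl a b).sub (Gb.mem (c.M_mem a b))).mono (by norm_num)

lemma gb_Q (a b : Fin 3) : Gb (c.St (Set.range c.Mf) (Set.range c.Mf) 0) 36 (c.Q a b) := by
  have h : ∀ g ∈ Set.range c.Mf, ∀ g' ∈ Set.range c.Mf,
      g * g' ∈ c.St (Set.range c.Mf) (Set.range c.Mf) 0 := fun g hg g' hg' =>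
    ⟨0, 0, rfl, g, by rwa [Wd_zero], g', by rwa [Wd_zero], rfl⟩
  rw [Q, N0, mul_assoc, sq]
  simp only [sq]
  refine ((((Gb.sum3 fun k => Gb.mem (h _ (c.M_mem a k) _ (c.M_mem k b))).ofNat 4).sub
    ((c.gb_S.mul (Gb.mem (c.M_mem a b)) zero_le_one h).ofNat 2)).add
    (((c.gb_S.mul c.gb_S (by norm_num) h).sub (Gb.sum3 fun e => Gb.sum3 fun f =>
      Gb.mem (h _ (c.M_mem e f) _ (c.M_mem e f)))).dl a b)).mono (by norm_num)

end Fr

/-- the constant in the commutator estimate -/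
def cE (v : ℝ) : ℕ → ℝ
  | 0 => 0
  | k + 1 => cE v k * 2 + 54 * (v + 3 * k)

lemma cE_nonneg {v : ℝ} (hv : 0 ≤ v) : ∀ k, 0 ≤ cE v k
  | 0 => le_rfl
  | k + 1 => by have := cE_nonneg hv k; rw [cE]; positivity

/-- the constant in the evolution inequality for `|∇^k M|²` -/
def cS (k : ℕ) : ℝ := 18 * 3 ^ k * (cE 6 k + 36 * 2 ^ k)

lemma cS_pos (k : ℕ) : 0 < cS k := by
  have := cE_nonneg (v := 6) (by norm_num) k
  rw [cS]; positivity

namespace RF

open Fr Fl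

variable (c : RF A)

/-- the commutator of the heat operator with iterated derivatives -/
theorem gb_H_Dw {G : Set A} {v : ℝ} (hv : 0 ≤ v) (hG : c.Vst G v) {g : A} (hg : g ∈ G)
    (w : List (Fin 3)) : Gb (c.St (Set.range c.Mf) G w.length) (cE v w.length)
      (c.H (c.Dw w g) - c.Dw w (c.H g)) := by
  induction w with
  | nil => simpa [cE] using Gb.zero
  | cons a w ih =>
    have e : c.H (c.Dw (a :: w) g) - c.Dw (a :: w) (c.H g) =
        c.D a (c.H (c.Dw w g) - c.Dw w (c.H g)) +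
        2 * ∑ b, ∑ e, eps a b e • ∑ d, c.M e d * c.D b (c.V d (c.Dw w g)) := by
      rw [Dw_cons, Dw_cons, H_D, map_sub]; ring
    rw [e, List.length_cons, cE]
    refine ((gb_D_St ih a).add ((Gb.sum3 fun b => Gb.sum3 fun e => (Gb.sum3 fun d =>
      (Gb.mem (c.M_mem e d)).mul (gb_D_Wd (hG.Wd w.length _ ⟨w, rfl, g, hg, rfl⟩ d) b)
        (by positivity) ?_).eps a b e).ofNat 2)).mono (le_of_eq (by ring))
    exact fun x hx y hy => ⟨0, _, zero_add _, x, by rwa [Wd_zero], y, hy, rfl⟩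

theorem gb_H_Dw_M (w : List (Fin 3)) (a b : Fin 3) :
    Gb (c.St (Set.range c.Mf) (Set.range c.Mf) w.length) (cE 6 w.length + 36 * 2 ^ w.length)
      (c.H (c.Dw w (c.M a b))) := by
  have h1 := c.gb_H_Dw (by norm_num) c.vst_M (c.M_mem a b) w
  have h2 := gb_Dw_St (c.gb_Q a b) w
  rw [zero_add, ← c.H_M] at h2
  simpa using h1.add h2

variable (ev : A →ₐ[ℝ] ℝ) {ι : Type*} [Fintype ι]

lemma ev_St (x : ι → A) {k : ℕ} {r : ℝ}
    (hr : ∀ i j, i + j = k → √(ev (c.N i)) * √(ev (c.Nf x j)) ≤ r) :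
    ∀ z ∈ c.St (Set.range c.Mf) (Set.range x) k, |ev z| ≤ r := by
  rintro _ ⟨i, j, hij, _, ⟨w, hw, _, ⟨p, rfl⟩, rfl⟩, _, ⟨w', hw', _, ⟨q, rfl⟩, rfl⟩, rfl⟩
  rw [map_mul, abs_mul]
  exact (mul_le_mul (c.ev_Dw_le ev c.Mf hw p) (c.ev_Dw_le ev x hw' q) (abs_nonneg _)
    (Real.sqrt_nonneg _)).trans (hr i j hij)

lemma ev_H_Nf_of (x : ι → A) {k : ℕ} {s : ℝ}
    (hs : ∀ w : List (Fin 3), w.length = k → ∀ i, |ev (c.H (c.Dw w (x i)))| ≤ s) :
    |ev (c.H (c.Nf x k)) + 2 * ev (c.Nf x (k + 1))| ≤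
      2 * Fintype.card ι * 3 ^ k * s * √(ev (c.Nf x k)) := by
  rw [H_Nf]
  simp only [map_sub, map_mul, map_ofNat, map_sum, sub_add_cancel, abs_mul, abs_two, mul_assoc]
  refine mul_le_mul_of_nonneg_left ((Finset.abs_sum_le_sum_abs _ _).trans ?_) zero_le_two
  refine (Finset.sum_le_card_nsmul _ _ (√(ev (c.Nf x k)) * s) fun p _ => ?_).trans_eq
    (by simp; ring)
  rw [abs_mul]
  exact mul_le_mul (c.ev_Dw_le ev x List.length_ofFn _) (hs _ List.length_ofFn _) (abs_nonneg _)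
    (Real.sqrt_nonneg _)

/-- **The evolution inequality for the derivatives of a tensor** `x` (a family which is stable
under the vertical fields); `s` bounds the derivatives of `H x`. -/
theorem ev_H_Nf (x : ι → A) {v : ℝ} (hv : 0 ≤ v) (hx : c.Vst (Set.range x) v) {k : ℕ} {r s : ℝ}
    (hr : ∀ i j, i + j = k → √(ev (c.N i)) * √(ev (c.Nf x j)) ≤ r)
    (hs : ∀ w : List (Fin 3), w.length = k → ∀ i, |ev (c.Dw w (c.H (x i)))| ≤ s) :
    |ev (c.H (c.Nf x k)) + 2 * ev (c.Nf x (k + 1))| ≤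
      2 * Fintype.card ι * 3 ^ k * (cE v k * r + s) * √(ev (c.Nf x k)) := by
  have h0 : 0 ≤ r := le_trans (by positivity) (hr 0 k (zero_add k))
  refine c.ev_H_Nf_of ev x fun w hw i => ?_
  subst hw
  have h1 := (c.gb_H_Dw hv hx ⟨i, rfl⟩ w).ev ev h0 (c.ev_St ev x hr)
  have h2 := hs w rfl i
  rw [map_sub] at h1
  rw [abs_le] at *
  constructor <;> linarith [h1.1, h1.2, h2.1, h2.2]

/-- **The evolution inequality for `|∇^k M|²`.** -/
theorem ev_H_N {k : ℕ} {r : ℝ} (hr : ∀ i j, i + j = k → √(ev (c.N i)) * √(ev (c.N j)) ≤ r) :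
    |ev (c.H (c.N k)) + 2 * ev (c.N (k + 1))| ≤ cS k * r * √(ev (c.N k)) := by
  have h0 : 0 ≤ r := le_trans (by positivity) (hr 0 k (zero_add k))
  refine (c.ev_H_Nf_of ev c.Mf (s := (cE 6 k + 36 * 2 ^ k) * r) fun w hw i => ?_).trans_eq ?_
  · subst hw
    exact (c.gb_H_Dw_M w i.1 i.2).ev ev h0 (c.ev_St ev c.Mf hr)
  · simp only [cS, N, Fintype.card_prod, Fintype.card_fin]
    push_cast; ring

/-- the time derivative of the components of `∇^k M` -/
theorem ev_Dt_Dw_M {w : List (Fin 3)} {r : ℝ}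
    (hr : ∀ i j, i + j = w.length → √(ev (c.N i)) * √(ev (c.N j)) ≤ r) (a b : Fin 3) :
    |ev (c.Dt (c.Dw w (c.M a b)))| ≤
      3 * √(ev (c.N (w.length + 2))) + (cE 6 w.length + 36 * 2 ^ w.length) * r := by
  have h0 : 0 ≤ r := le_trans (by positivity) (hr 0 _ (zero_add _))
  have h1 := (c.gb_H_Dw_M w a b).ev ev h0 (c.ev_St ev c.Mf hr)
  have h2 := fun e : Fin 3 => c.ev_Dw_le ev c.Mf (w := e :: e :: w) (k := w.length + 2) rfl (a, b)
  simp only [H, Lap, Fin.sum_univ_three, map_sub, map_add] at h1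
  simp only [Dw_cons, Mf, abs_le] at h2
  rw [N, abs_le] at *
  constructor <;> linarith [h1.1, h1.2, h2 0, h2 1, h2 2]

end RF

end Vale.Agent.P216D
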