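import Vale.Agent.P216D.ModRG
import Vale.Agent.P216D.NN
import Vale.Agent.P216D.Shi
import Vale.Agent.P216ST.Stmt

/-! # The frame calculus at a point of a manifold; smooth functions on space-time -/

open scoped Manifold ContDiff Topology
open Set Filter

set_option linter.unusedSimpArgs false
set_option maxSynthPendingDepth 3

noncomputable section

namespace Vale.Agent.P216D

open Vale.Agent.P216R hiding RF
open Vale.Agent.P216ST (SmF Sm0)
open Vale.Agent.P210.R2.H53 (gradG gamG hessG lapG)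

namespace Loc

variable {L : Loc}

lemma Rw_rm (k : ℕ) (i : Fin (k + 4) → Fin 3) :
    L.fr.Rw (fun j => L.rm (j 0) (j 1) (j 2) (j 3)) k i = L.lt _ (L.st_rmG k) i := by
  induction k with
  | zero => exact rm_lt i
  | succ k ih =>
    refine (congrArg (L.fr.D (i 0)) (ih (Fin.tail i))).trans ((D_lt _ _ _).trans ?_)
    rw [Fin.cons_self_tail]
    rfl

lemma ev_N (p : L.O) (k : ℕ) : 4 * ev p (L.fr.N k) = NN (L.g (t p)) k (x p) := by
  have := congrArg (ev p) (L.fr.sum_Rw_sq (r := fun j => L.rm (j 0) (j 1) (j 2) (j 3))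
    (fun j => rm_eq _ _ _ _) k)
  rw [map_mul, map_ofNat] at this
  rw [← this, NN_eq (met_model.2 (met (t_mem p))) (x_mem p) (on_g p)]
  simp only [map_sum, map_pow, Rw_rm, ev_lt, Rm_model]

lemma sm_NN (k : ℕ) : ContDiffOn ℝ ∞ (fun b : ℝ × E3 => NN (L.g b.1) k b.2) L.W :=
  (sm_desc (4 * L.fr.N k)).congr fun b hb => by
    rw [desc_eq _ hb, map_mul, map_ofNat, ev_N]; rfl

lemma N_sc (k : ℕ) : 4 * L.fr.N k = L.sc _ (sm_NN k) := Sm.ext fun p => by
  rw [map_mul, map_ofNat, ev_N]; rfl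

end Loc

open Loc

variable {M : Type} [TopologicalSpace M] [ChartedSpace E3 M] [IsManifold 𝓘(ℝ, E3) ∞ M]
  {g : ℝ → Ten E3 M} {I : Set ℝ} {U : Set M} {u v : ℝ → M → ℝ} {s : ℝ} {y : M} {f : Fin 3 → E3}

/-! ### smooth functions on space-time -/

omit [IsManifold 𝓘(ℝ, E3) ∞ M] in
lemma smF_ps (hU : IsOpen U) (hu : SmF E3 u I U) (hs : s ∈ I) {a : M} {z : E3}
    (hz : z ∈ dom E3 a U) : PS (fun s => rd E3 (u s) a) I s z :=
  contDiffWithinAt_univ_of (hu a) (isOpen_dom a hU) hs hz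

lemma rd_lap {g : Ten E3 M} (hg : Met g U) {φ : M → ℝ} {a : M} {z : E3} (hz : z ∈ dom E3 a U)
    (hφ : ContDiffAt ℝ 2 (rd E3 φ a) z) : rd E3 (lap g φ) a z = lapG (co g a) (rd E3 φ a) z := by
  have hx := (chartAt E3 a).map_target hz.1
  have e : φ =ᶠ[𝓝 ((chartAt E3 a).symm z)] rd E3 φ a ∘ chartAt E3 a :=
    eventually_of_mem ((chartAt E3 a).open_source.mem_nhds hx) fun w hw => by
      simp [rd, (chartAt E3 a).left_inv hw]
  have := (li_chart hg hz.2 hx).lap (φ := rd E3 φ a)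
    (by rwa [rd_model, pt_model, (chartAt E3 a).right_inv hz.1])
  rw [← lap_congr EventuallyEq.rfl e, (chartAt E3 a).right_inv hz.1, lap_model] at this
  exact this

lemma rd_gam {g : Ten E3 M} (hg : Met g U) {φ ψ : M → ℝ} {a : M} {z : E3} (hz : z ∈ dom E3 a U)
    (hφ : DifferentiableAt ℝ (rd E3 φ a) z) (hψ : DifferentiableAt ℝ (rd E3 ψ a) z) :
    rd E3 (gam g φ ψ) a z = gamG (co g a) (rd E3 φ a) (rd E3 ψ a) z := by
  have hx := (chartAt E3 a).map_target hz.1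
  have e : ∀ φ : M → ℝ, φ =ᶠ[𝓝 ((chartAt E3 a).symm z)] rd E3 φ a ∘ chartAt E3 a := fun φ =>
    eventually_of_mem ((chartAt E3 a).open_source.mem_nhds hx) fun w hw => by
      simp [rd, (chartAt E3 a).left_inv hw]
  have := (li_chart hg hz.2 hx).gam (φ := rd E3 φ a) (ψ := rd E3 ψ a)
    (by rwa [rd_model, pt_model, (chartAt E3 a).right_inv hz.1])
    (by rwa [rd_model, pt_model, (chartAt E3 a).right_inv hz.1])
  rw [← gam_congr rfl (e φ) (e ψ), (chartAt E3 a).right_inv hz.1, gam_model] at this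
  exact this

lemma rd_NN {g : Ten E3 M} (hg : Met g U) (k : ℕ) {a : M} {z : E3} (hz : z ∈ dom E3 a U) :
    rd E3 (NN g k) a z = NN (co g a) k z := (NN_li (li_comap hg (ld_symm a) hz.1 hz.2) k).symm

lemma smF_lap (h : Fam g I U) (hu : SmF E3 u I U) : SmF E3 (fun s => lap (g s) (u s)) I U :=
  fun a => (contDiffOn_of_ps (f := fun s => lapG (co (g s) a) (rd E3 (u s) a)) fun _ hs _ hz =>
    (h.ps hs hz).lapG hs (h.co_pos hs hz) (smF_ps h.isOpen hu hs hz)).congr fun _ hb =>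
    rd_lap (h.met hb.1) hb.2 (((smF_ps h.isOpen hu hb.1 hb.2).contDiffAt hb.1).of_le
      (WithTop.coe_le_coe.2 le_top))

lemma smF_gam (h : Fam g I U) (hu : SmF E3 u I U) (hv : SmF E3 v I U) :
    SmF E3 (fun s => gam (g s) (u s) (v s)) I U :=
  fun a => (contDiffOn_of_ps (f := fun s => gamG (co (g s) a) (rd E3 (u s) a) (rd E3 (v s) a))
    fun _ hs _ hz => (h.ps hs hz).gamG hs (h.co_pos hs hz) (smF_ps h.isOpen hu hs hz)
      (smF_ps h.isOpen hv hs hz)).congr fun _ hb => rd_gam (h.met hb.1) hb.2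
    (((smF_ps h.isOpen hu hb.1 hb.2).contDiffAt hb.1).differentiableAt (by simp))
    (((smF_ps h.isOpen hv hb.1 hb.2).contDiffAt hb.1).differentiableAt (by simp))

lemma smF_Sc (h : Fam g I U) : SmF E3 (fun s => Sc (g s)) I U := h.smooth_Sc

omit [IsManifold 𝓘(ℝ, E3) ∞ M] in
lemma smF_dt (hI : Iv I) (hU : IsOpen U) (hu : SmF E3 u I U) :
    SmF E3 (fun s y => derivWithin (fun r => u r y) I s) I U := fun a b hb =>
  (((hu a b hb).fderivWithin_right (m := ∞) (UniqueDiffOn.prod hI.ud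
    (isOpen_dom a hU).uniqueDiffOn) (by simp) hb).clm_apply
    (contDiffWithinAt_const (c := ((1 : ℝ), (0 : E3))))).congr_of_mem
    (fun c hc => (has_time hc (dw (hu a c hc))).derivWithin (hI.ud _ hc.1)) hb

omit [IsManifold 𝓘(ℝ, E3) ∞ M] in
lemma smF_const {φ : M → ℝ} (hφ : Sm0 E3 φ U) (I : Set ℝ) : SmF E3 (fun _ => φ) I U :=
  fun a => (hφ a).comp contDiffOn_snd fun _ hb => hb.2

omit [IsManifold 𝓘(ℝ, E3) ∞ M] in
lemma smF_slice (hu : SmF E3 u I U) (hs : s ∈ I) : Sm0 E3 (u s) U :=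
  fun a => (hu a).comp (f := fun z => (s, z)) (by fun_prop) fun _ hz => ⟨hs, hz⟩

omit [IsManifold 𝓘(ℝ, E3) ∞ M] in
lemma smF_has (hu : SmF E3 u I U) (hs : s ∈ I) (hy : y ∈ U) :
    DifferentiableWithinAt ℝ (fun r => u r y) I s := by
  have := (has_time (b := (s, pt E3 y)) ⟨hs, pt_mem_dom hy⟩
    (dw (hu y _ ⟨hs, pt_mem_dom hy⟩))).differentiableWithinAt
  simpa only [rd_pt] using this

lemma smF_cont (hU : IsOpen U) (hu : SmF E3 u I U) :
    ContinuousOn (fun p : ℝ × M => u p.1 p.2) (I ×ˢ U) := fun _ hp =>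
  (PS.continuousWithinAt_rd (smF_ps hU hu hp.1 (pt_mem_dom hp.2))).mono
    (prod_mono Subset.rfl (subset_univ _))

/-! ### the model in a chart -/

/-- the local data in the chart at `a` -/
@[reducible] def cl (h : Fam g I U) (hI : Iv I) (a : M) : Loc := loc (h.co a) hI

lemma smF_NN (h : Fam g I U) (hI : Iv I) (k : ℕ) : SmF E3 (fun s => NN (g s) k) I U :=
  fun a => (sm_NN (L := cl h hI a) k).congr fun _ hb => rd_NN (h.met hb.1) k hb.2

/-- the Ricci flow calculus in the chart at `a` -/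
def crf (h : P216R.RF g I U) (hI : Iv I) (a : M) : RF (cl h.toFam hI a).A :=
  Loc.rf (L := cl h.toFam hI a) (h.co a)

@[simp] lemma crf_toFl (h : P216R.RF g I U) (hI : Iv I) (a : M) :
    (crf h hI a).toFl = (cl h.toFam hI a).fl := rfl

variable (h : Fam g I U) (hI : Iv I)

/-- a smooth function as an element of the ring of the chart at `a` -/
def sm (a : M) (u : ℝ → M → ℝ) (hu : SmF E3 u I U) : (cl h hI a).A :=
  (cl h hI a).sc (fun b => rd E3 (u b.1) a b.2) (hu a)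

lemma inv_sm (a : M) (hu : SmF E3 u I U) : (cl h hI a).fr.Inv (sm h hI a u hu) := inv_sc _

lemma sm_ext {a : M} {z : (cl h hI a).A} (hu : SmF E3 u I U)
    (H : ∀ p, ev p z = rd E3 (u (t p)) a (x p)) : z = sm h hI a u hu := Sm.ext H

lemma Lap_sm (a : M) (hu : SmF E3 u I U) :
    (cl h hI a).fr.Lap (sm h hI a u hu) = sm h hI a _ (smF_lap h hu) :=
  Sm.ext fun p => (ev_Lap_sc p _).trans (rd_lap (h.met (t_mem p)) (x_mem p)
    (((smF_ps h.isOpen hu (t_mem p) (x_mem p)).contDiffAt (t_mem p)).of_le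
      (WithTop.coe_le_coe.2 le_top))).symm

lemma ip_sm (a : M) (hu : SmF E3 u I U) (hv : SmF E3 v I U) :
    (cl h hI a).fr.ip (sm h hI a u hu) (sm h hI a v hv) = sm h hI a _ (smF_gam h hu hv) :=
  Sm.ext fun p => (ev_ip_sc p _ _).trans (rd_gam (h.met (t_mem p)) (x_mem p)
    (((smF_ps h.isOpen hu (t_mem p) (x_mem p)).contDiffAt (t_mem p)).differentiableAt (by simp))
    (((smF_ps h.isOpen hv (t_mem p) (x_mem p)).contDiffAt (t_mem p)).differentiableAt
      (by simp))).symm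

lemma Dt_sm (a : M) (hu : SmF E3 u I U) :
    (cl h hI a).fl.Dt (sm h hI a u hu) = sm h hI a _ (smF_dt hI h.isOpen hu) :=
  Sm.ext fun p => ev_Dt_sc _ p

lemma S_sm (a : M) : 2 * (cl h hI a).fr.S = sm h hI a _ (smF_Sc h) :=
  Sm.ext fun p => (congrArg (ev p) S_sc).trans ((h.met (t_mem p)).rd_Sc (x_mem p)).symm

lemma N_sm (a : M) (k : ℕ) : 4 * (cl h hI a).fr.N k = sm h hI a _ (smF_NN h hI k) :=
  Sm.ext fun p => (congrArg (ev p) (N_sc k)).trans (rd_NN (h.met (t_mem p)) k (x_mem p)).symm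

/-- the frame `f` at the point `y` and the time `s`, in the chart at `y` -/
def fp (hs : s ∈ I) (hy : y ∈ U) (hf : ON (g s y) f) : (cl h hI y).O :=
  mkF (L := cl h hI y) hs (pt_mem_dom hy) (f := f) (by rwa [← co_pt (g s) y] at hf)

variable {h hI} {hs : s ∈ I} {hy : y ∈ U} {hf : ON (g s y) f}

@[simp] lemma t_fp : t (fp h hI hs hy hf) = s := rfl
@[simp] lemma x_fp : x (fp h hI hs hy hf) = pt E3 y := rfl
@[simp] lemma e_fp : e (fp h hI hs hy hf) = f := rfl

lemma fp_sm (hu : SmF E3 u I U) : ev (fp h hI hs hy hf) (sm h hI y u hu) = u s y := rd_pt _ _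

lemma fp_Dt (hu : SmF E3 u I U) : HasDerivWithinAt (fun r => u r y)
    (ev (fp h hI hs hy hf) ((cl h hI y).fl.Dt (sm h hI y u hu))) I s := by
  rw [Dt_sm, fp_sm]
  exact (smF_has hu hs hy).hasDerivWithinAt

lemma fp_D (hu : SmF E3 u I U) (a : Fin 3) :
    ev (fp h hI hs hy hf) ((cl h hI y).fr.D a (sm h hI y u hu)) =
      fderiv ℝ (rd E3 (u s) y) (pt E3 y) (f a) := ev_D_sc _ _ a

lemma fp_D' (hu : SmF E3 u I U) (a : Fin 3) :
    ev (fp h hI hs hy hf) ((cl h hI y).fr.D a (sm h hI y u hu)) =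
      g s y (grad (g s) (u s) y) (f a) := by
  rw [fp_D, grad, gradG, co_pt, app_inverse (h.pos s hs y hy)]

lemma fp_hess (hu : SmF E3 u I U) (a b : Fin 3) :
    ev (fp h hI hs hy hf) ((cl h hI y).fr.D a ((cl h hI y).fr.D b (sm h hI y u hu))) =
      hess (g s) (u s) y (f a) (f b) := ev_hess_sc _ _ a b

lemma fp_Lap (hu : SmF E3 u I U) :
    ev (fp h hI hs hy hf) ((cl h hI y).fr.Lap (sm h hI y u hu)) = lap (g s) (u s) y :=
  ev_Lap_sc _ _

lemma fp_ip (hu : SmF E3 u I U) (hv : SmF E3 v I U) :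
    ev (fp h hI hs hy hf) ((cl h hI y).fr.ip (sm h hI y u hu) (sm h hI y v hv)) =
      gam (g s) (u s) (v s) y := ev_ip_sc _ _ _

lemma fp_H (hu : SmF E3 u I U) :
    ev (fp h hI hs hy hf) ((cl h hI y).fl.H (sm h hI y u hu)) =
      derivWithin (fun r => u r y) I s - lap (g s) (u s) y := by
  rw [Fl.H, map_sub, fl_toFr, fp_Lap, (fp_Dt hu).derivWithin (hI.ud s hs)]

lemma fp_Ric (a b : Fin 3) :
    ev (fp h hI hs hy hf) ((cl h hI y).fr.Ric a b) = Ric (g s) y (f a) (f b) := ev_Ric _ a b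

lemma fp_S : 2 * ev (fp h hI hs hy hf) (cl h hI y).fr.S = Sc (g s) y := ev_S _

lemma fp_N (k : ℕ) : 4 * ev (fp h hI hs hy hf) ((cl h hI y).fr.N k) = NN (g s) k y := by
  have := congrArg (ev (fp h hI hs hy hf)) (N_sm h hI y k)
  rwa [map_mul, map_ofNat, fp_sm] at this

lemma fp_Rw (k : ℕ) (i : Fin (k + 4) → Fin 3) : ev (fp h hI hs hy hf)
    ((cl h hI y).fr.Rw (fun j => (cl h hI y).rm (j 0) (j 1) (j 2) (j 3)) k i) =
      Rm (g s) k y fun a => f (i a) := by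
  rw [Rw_rm]; rfl

lemma fp_Dw_M (k : ℕ) (w : Fin k → Fin 3) (c d : Fin 3) :
    ev (fp h hI hs hy hf) ((cl h hI y).fr.Dw (List.ofFn w) ((cl h hI y).fr.M c d)) =
      Rm (g s) k y fun a => f (ix k w ![c + 1, c + 2, d + 2, d + 1] a) := ev_Dw_M _ k w c d

lemma fp_M (c d : Fin 3) : ev (fp h hI hs hy hf) ((cl h hI y).fr.M c d) =
    Rm (g s) 0 y ![f (c + 1), f (c + 2), f (d + 2), f (d + 1)] := by
  rw [ev_M, P216R.Rm, rmG_zero]; rfl

lemma fp_K (a b : Fin 3) : HasDerivWithinAt (fun r => g r y (f a) (f b))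
    (-2 * ev (fp h hI hs hy hf) ((cl h hI y).fl.K a b)) I s := by
  refine (has_K (fp h hI hs hy hf) (f a) (f b)).congr_of_mem (fun r _ => ?_) hs
  rw [← co_pt (g r) y]; rfl

end Vale.Agent.P216D
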