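import Vale.Agent.P216D.ShiT
import Vale.Agent.P216L.Bar
import Vale.Agent.P216BF.Ball
import Vale.Agent.P216DC.LimS

/-! # Shi's local derivative estimates -/

open scoped Manifold ContDiff Topology
open Set Filter

set_option maxSynthPendingDepth 3

noncomputable section

namespace Vale.Agent.P216D

open Vale.Agent.P216R hiding RF
open Vale.Agent.P216BF

lemma isCompact_sub {Y : Type} [TopologicalSpace Y] {S Q : Set Y} {φ : Y → ℝ} {r : ℝ}
    (hφ : ContinuousOn φ S) (hQ : IsCompact Q) (hS : Q ⊆ S) (h : ∀ p ∈ S, φ p ≤ r → p ∈ Q) :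
    IsCompact {p ∈ S | φ p ≤ r} := by
  obtain ⟨u, h1, h2⟩ := continuousOn_iff'.1 hφ (Ioi r) isOpen_Ioi
  convert hQ.diff h1 using 1
  ext p
  exact ⟨fun a => ⟨h p a.1 a.2, fun b => (h2.ge ⟨b, a.1⟩).1.not_ge a.2⟩,
    fun a => ⟨hS a.1, not_lt.1 fun b => a.2 (h2.le ⟨b, hS a.1⟩).1⟩⟩

section

variable {M : Type} [TopologicalSpace M] [ChartedSpace E3 M] [IsManifold 𝓘(ℝ, E3) ∞ M]
  {g : ℝ → Ten E3 M} {V : Set M} {a b s t r K T : ℝ} {y z : M}

omit [IsManifold 𝓘(ℝ, E3) ∞ M] in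
lemma rf_ed_ne (h : P216R.RF g (Icc a b) V) (hK : RicB g (Icc a b) V K) (hs : s ∈ Icc a b)
    (ht : t ∈ Icc a b) (hz : ed (g t) V y z ≠ ⊤) : ed (g s) V y z ≠ ⊤ :=
  ne_top_of_le_ne_top (ENNReal.mul_ne_top ENNReal.ofReal_ne_top hz) (rf_ed_le h hK hs ht y z)

omit [IsManifold 𝓘(ℝ, E3) ∞ M] in
lemma rf_dd_le (h : P216R.RF g (Icc a b) V) (hK : RicB g (Icc a b) V K) (hs : s ∈ Icc a b)
    (ht : t ∈ Icc a b) (hz : ed (g t) V y z ≠ ⊤) :
    dd (g s) V y z ≤ Real.exp (K * |s - t|) * dd (g t) V y z :=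
  dd_le_of_ed (Real.exp_pos _).le hz (rf_ed_le h hK hs ht y z)

/-- the distance is jointly continuous in time and space -/
lemma cont_dd (h : P216R.RF g (Icc a b) V) (hK : RicB g (Icc a b) V K) (ht : t ∈ Icc a b) :
    ContinuousOn (fun q : ℝ × M => dd (g q.1) V y q.2)
      (Icc a b ×ˢ {z | ed (g t) V y z ≠ ⊤}) := fun p hp => by
  have h0 : ContinuousAt (fun q : ℝ × M => dd (g p.1) V y q.2) p :=
    ((h.met hp.1).continuousAt_dd_right (rf_ed_ne h hK hp.1 ht hp.2)).comp continuousAt_snd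
  have h1 : ∀ c : ℝ, Tendsto (fun q : ℝ × M => Real.exp (c * |q.1 - p.1|) * dd (g p.1) V y q.2)
      (𝓝[Icc a b ×ˢ {z | ed (g t) V y z ≠ ⊤}] p) (𝓝 (dd (g p.1) V y p.2)) := fun c => by
    have : ContinuousAt (fun q : ℝ × M => Real.exp (c * |q.1 - p.1|) * dd (g p.1) V y q.2) p :=
      ContinuousAt.mul (by fun_prop) h0
    simpa using this.tendsto.mono_left nhdsWithin_le_nhds
  refine tendsto_of_tendsto_of_tendsto_of_le_of_le' (h1 (-K)) (h1 K)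
    (eventually_nhdsWithin_of_forall fun q hq => ?_)
    (eventually_nhdsWithin_of_forall fun q hq => rf_dd_le h hK hq.1 hp.1 (rf_ed_ne h hK hp.1 ht hq.2))
  rw [neg_mul, Real.exp_neg, inv_mul_le_iff₀ (Real.exp_pos _), abs_sub_comm]
  exact rf_dd_le h hK hp.1 hq.1 (rf_ed_ne h hK hq.1 ht hq.2)

lemma exp_le (K0 : 0 ≤ K) (hT : b - a ≤ T) (hs : s ∈ Icc a b) (ht : t ∈ Icc a b) :
    Real.exp (K * |s - t|) ≤ Real.exp (K * T) :=
  Real.exp_le_exp.2 (mul_le_mul_of_nonneg_left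
    (abs_le.2 ⟨by linarith [hs.1, ht.2], by linarith [hs.2, ht.1]⟩) K0)

lemma dat_ball (h : P216R.RF g (Icc a b) V) (hab : a < b) (hK : RicB g (Icc a b) V K)
    (K0 : 0 ≤ K) (hT : b - a ≤ T) (ht : t ∈ Icc a b) (hc : Cpt (g t) V y r) (hr : 0 < r) :
    Dat (Icc a b ×ˢ bl (g t) V y r) Prod.fst (fun q => dd (g q.1) V y q.2 ^ 2)
      (fun k q => NN (g q.1) k q.2 / 4) ((r / Real.exp (K * T)) ^ 2) := by
  have h1 : ContinuousOn (fun q : ℝ × M => dd (g q.1) V y q.2 ^ 2) (Icc a b ×ˢ bl (g t) V y r) :=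
    ((cont_dd h hK ht).mono (prod_mono Subset.rfl fun _ hz => ne_top_of_lt hz)).pow 2
  refine ⟨continuousOn_fst, h1, fun i => ((cont_NN h.toFam (iv_Icc hab) i).mono
    (prod_mono Subset.rfl bl_subset)).div_const _, fun _ _ => sq_nonneg _,
    fun i p _ => div_nonneg (NN_nonneg _ _ _) zero_le_four, fun c hc' => ?_⟩
  have h2 : Real.exp (K * T) * √c < r := by
    rw [← lt_div_iff₀' (Real.exp_pos _)]
    exact (Real.sqrt_lt' (by positivity)).2 hc'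
  refine isCompact_sub h1 (isCompact_Icc.prod (hc _ h2))
    (prod_mono Subset.rfl (cbl_subset_bl hr h2)) fun p hp h3 => ⟨hp.1, ?_⟩
  have h4 := (mem_bl_iff.1 hp.2).1
  refine (mem_cbl_iff (by positivity)).2 ⟨h4, (rf_dd_le h hK ht hp.1
    (rf_ed_ne h hK hp.1 ht h4)).trans ?_⟩
  exact mul_le_mul (exp_le K0 hT ht hp.1) (Real.le_sqrt_of_sq_le h3) dd_nonneg (Real.exp_pos _).le

lemma tst_ball (h : P216R.RF g (Icc a b) V) (hH : Hs V) (hK : RicB g (Icc a b) V K)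
    (K0 : 0 ≤ K) (hT : b - a ≤ T) (ht : t ∈ Icc a b) (hy : y ∈ V) (hc : Cpt (g t) V y r)
    (hr : 0 < r) (p : ℝ × M) (hp : p ∈ Icc a b ×ˢ bl (g t) V y r) (ha : a < p.1)
    (hρ : dd (g p.1) V y p.2 ^ 2 < (r / Real.exp (K * T)) ^ 2) :
    Tst (Icc a b ×ˢ bl (g t) V y r) Prod.fst (fun q => dd (g q.1) V y q.2 ^ 2)
      (fun k q => NN (g q.1) k q.2 / 4) (6 + (4 + 2 * K) * (r / Real.exp (K * T)) ^ 2 + 4) p := by
  have hab := ha.trans_le hp.1.2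
  have h0 : 0 < r / Real.exp (K * T) := by positivity
  have ho := (h.met ht).isOpen_bl y r
  have hl := Icc_mem_nhdsLT_of_mem (⟨ha, hp.1.2⟩ : p.1 ∈ Ioc a b)
  have h1 := rf_cpt h hK hp.1 ht ho bl_subset bl_subset hH hc hy (h.met hp.1) h0
    ((mul_le_mul_of_nonneg_right (exp_le K0 hT ht hp.1) h0.le).trans_eq
      (mul_div_cancel₀ _ (Real.exp_pos _).ne'))
  obtain ⟨f, d, f1, -, -, f2⟩ := P216L.energy_barrier h (convex_Icc a b) (uniqueDiffOn_Icc hab)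
    hp.1 hH h1 (mem_bl_iff.2 ⟨rf_ed_ne h hK hp.1 ht (ne_top_of_lt hp.2),
      lt_of_pow_lt_pow_left₀ 2 h0.le hρ⟩) fun w hw => hK _ hp.1 w (bl_subset hw)
  rw [finrank_E3] at f2
  refine tst_bar (φ := fun s w => dd (g s) V y w ^ 2) h (iv_Icc hab) hp.1 hl (bl_subset hp.2)
    (mem_of_superset hl fun s hs => ⟨hs, hp.2⟩) (mem_of_superset (ho.mem_nhds hp.2)
      fun w hw => ⟨hp.1, hw⟩) (sq_nonneg _) ⟨d, _, f1.up hp.1 hl, ?_, ?_⟩
  · rw [f1.gam]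
    nlinarith [sq_nonneg (dd (g p.1) V y p.2)]
  · push_cast at f2
    nlinarith [sq_nonneg (dd (g p.1) V y p.2)]

end

/-- **Shi's local estimate** at the centre of a ball -/
theorem shi0 (k : ℕ) {K r δ : ℝ} (T : ℝ) (K0 : 0 ≤ K) (hr : 0 < r) (hδ : 0 < δ) : ∃ D,
    ∀ (M : Type) [TopologicalSpace M] [ChartedSpace E3 M] [IsManifold 𝓘(ℝ, E3) ∞ M]
      (g : ℝ → Ten E3 M) (V : Set M) (a b t : ℝ) (y : M), P216R.RF g (Icc a b) V → Hs V →
      b - a ≤ T → t ∈ Icc a b → y ∈ V → Cpt (g t) V y r →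
      (∀ s ∈ Icc a b, ∀ z ∈ V, RmB (g s) 0 z K) → ∀ s ∈ Icc (a + δ) b, RmB (g s) k y D := by
  obtain ⟨D, hD⟩ := shi_abs k (3 ^ 4 * K ^ 2 / 4)
    (6 + (4 + 2 * (2 * K)) * (r / Real.exp (2 * K * T)) ^ 2 + 4) ((r / Real.exp (2 * K * T)) ^ 2)
    0 δ (by positivity) hδ
  refine ⟨√(4 * D), fun M _ _ _ g V a b t y h hH hT ht hy hc hK s hs => ?_⟩
  have h1 := ricB_of_rmB finrank_E3 h.toFam hK
  have h2 : s ∈ Icc a b := ⟨by linarith [hs.1], hs.2⟩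
  have := hD _ _ _ _ _ a (dat_ball h (by linarith [hs.1, hs.2]) h1 (by positivity) hT ht hc hr)
    (fun p hp _ => div_le_div_of_nonneg_right (NN_le (h.met hp.1) (bl_subset hp.2)
      (hK _ hp.1 _ (bl_subset hp.2))) zero_le_four)
    (tst_ball h hH h1 (by positivity) hT ht hy hc hr) (s, y) ⟨h2, mem_bl_self hy hr⟩ hs.1
    (by simp [dd_self]) k le_rfl
  exact rmB_of_NN (h.met h2) hy (by linarith)

/-- **Shi's local estimate** up to the initial time -/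
theorem shi0_init (k : ℕ) {K r : ℝ} (T : ℝ) (K0 : 0 ≤ K) (hr : 0 < r) : ∃ D,
    ∀ (M : Type) [TopologicalSpace M] [ChartedSpace E3 M] [IsManifold 𝓘(ℝ, E3) ∞ M]
      (g : ℝ → Ten E3 M) (V : Set M) (a b t : ℝ) (y : M), P216R.RF g (Icc a b) V → Hs V → a < b →
      b - a ≤ T → t ∈ Icc a b → y ∈ V → Cpt (g t) V y r →
      (∀ s ∈ Icc a b, ∀ z ∈ V, RmB (g s) 0 z K) → (∀ z ∈ V, ∀ j ≤ k, RmB (g a) j z K) →
      ∀ s ∈ Icc a b, RmB (g s) k y D := by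
  obtain ⟨D, hD⟩ := shi_abs_init k (3 ^ (k + 4) * K ^ 2 / 4)
    (6 + (4 + 2 * (2 * K)) * (r / Real.exp (2 * K * T)) ^ 2 + 4) k le_rfl
    ((r / Real.exp (2 * K * T)) ^ 2) 0 (by positivity)
  refine ⟨√(4 * D), fun M _ _ _ g V a b t y h hH hab hT ht hy hc hK hI s hs => ?_⟩
  have h1 := ricB_of_rmB finrank_E3 h.toFam hK
  have h3 : ∀ j ≤ k, ∀ s ∈ Icc a b, ∀ z ∈ V, RmB (g s) j z K →
      NN (g s) j z / 4 ≤ 3 ^ (k + 4) * K ^ 2 / 4 := fun j hj s hs z hz H =>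
    div_le_div_of_nonneg_right ((NN_le (h.met hs) hz H).trans (by gcongr; norm_num)) zero_le_four
  have := hD _ _ _ _ _ a b (dat_ball h hab h1 (by positivity) hT ht hc hr) (fun p hp => hp.1)
    (fun p hp _ => h3 0 k.zero_le _ hp.1 _ (bl_subset hp.2) (hK _ hp.1 _ (bl_subset hp.2)))
    (fun p hp e _ j hj => h3 j hj _ hp.1 _ (bl_subset hp.2) (e ▸ hI _ (bl_subset hp.2) j hj))
    (tst_ball h hH h1 (by positivity) hT ht hy hc hr) (s, y) ⟨hs, mem_bl_self hy hr⟩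
    (by simp [dd_self]) k le_rfl
  exact rmB_of_NN (h.met hs) hy (by linarith)

/-- **Shi's local derivative estimates** -/
theorem shi : P216DC.SHI := fun k K r T δ hr hδ => by
  obtain ⟨D, hD⟩ := shi0 k T (abs_nonneg K) (by linarith : 0 < r - r / 2) hδ
  refine ⟨D, fun M _ _ _ g U x t hg hH hc hp s hs y hy => hD M g _ (t - T) t t y hp.1
    (hH.mono bl_subset) (by linarith) ⟨by linarith [hs.1, hs.2], le_rfl⟩
    (bl_mono (by linarith) hy) ?_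
    (fun s hs z hz v hv => (hp.2 s hs z hz v hv).trans (le_abs_self K)) s hs⟩
  exact (hc.shift hg (by linarith) (by linarith) (bl_subset_cbl hy)).restrict
    (bl_sub_bl' hy (by linarith)) bl_subset (by linarith)

/-- the local estimates up to the initial time -/
theorem shi_init (k : ℕ) (K r T : ℝ) (hr : 0 < r) (hT : 0 < T) : ∃ D,
    ∀ (M : Type) [TopologicalSpace M] [ChartedSpace E3 M] [IsManifold 𝓘(ℝ, E3) ∞ M]
      (g : ℝ → Ten E3 M) (U : Set M) (x : M) (t : ℝ), Met (g t) U → Hs U → Cpt (g t) U x r →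
      ParB g U x t r T K → (∀ z ∈ bl (g t) U x r, ∀ j ≤ k, RmB (g (t - T)) j z K) →
      ∀ s ∈ Icc (t - T) t, ∀ y ∈ bl (g t) U x (r / 2), RmB (g s) k y D := by
  obtain ⟨D, hD⟩ := shi0_init k T (abs_nonneg K) (by linarith : 0 < r - r / 2)
  refine ⟨D, fun M _ _ _ g U x t hg hH hc hp hI s hs y hy => hD M g _ (t - T) t t y hp.1
    (hH.mono bl_subset) (by linarith) (by linarith) ⟨by linarith, le_rfl⟩
    (bl_mono (by linarith) hy) ?_
    (fun s hs z hz v hv => (hp.2 s hs z hz v hv).trans (le_abs_self K))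
    (fun z hz j hj v hv => (hI z hz j hj v hv).trans (le_abs_self K)) s hs⟩
  exact (hc.shift hg (by linarith) (by linarith) (bl_subset_cbl hy)).restrict
    (bl_sub_bl' hy (by linarith)) bl_subset (by linarith)

/-- the global estimates on a complete flow with bounded curvature -/
theorem shi_cpl (k : ℕ) (K : ℝ) {δ : ℝ} (hδ : 0 < δ) : ∃ D,
    ∀ (M : Type) [TopologicalSpace M] [ChartedSpace E3 M] [IsManifold 𝓘(ℝ, E3) ∞ M]
      (g : ℝ → Ten E3 M) (I : Set ℝ) (U : Set M) (s : ℝ), P216R.RF g I U → Hs U →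
      Icc (s - δ) s ⊆ I → Cpl (g s) U → (∀ t ∈ Icc (s - δ) s, ∀ z ∈ U, RmB (g t) 0 z K) →
      ∀ y ∈ U, RmB (g s) k y D := by
  obtain ⟨D, hD⟩ := shi0 k δ (abs_nonneg K) one_pos hδ
  exact ⟨D, fun M _ _ _ g I U s h hH hI hc hK y hy => hD M g U (s - δ) s s y (h.mono_time hI) hH
    (by linarith) ⟨by linarith, le_rfl⟩ hy (hc.cpt hy 1)
    (fun s hs z hz v hv => (hK s hs z hz v hv).trans (le_abs_self K)) s ⟨by linarith, le_rfl⟩⟩

end Vale.Agent.P216D
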