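import Vale.Agent.P216D.ModM
import Vale.Agent.P216D.Heat

/-! # Evolution equations and Bochner formulas on manifolds -/

open scoped Manifold ContDiff Topology
open Set Filter

set_option linter.unusedSimpArgs false
set_option maxSynthPendingDepth 3

noncomputable section

namespace Vale.Agent.P216D

open Vale.Agent.P216R hiding RF
open Vale.Agent.P216ST (SmF Sm0)
open Loc

lemma ON.bil {B : Bi} {e : Fin 3 → E3} (h : ON B e) (T : Bi) (v w : E3) :
    T v w = ∑ a, ∑ b, T (e a) (e b) * (B v (e a) * B w (e b)) := by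
  rw [h.pars (T.flip w) v |> (show T v w = T.flip w v from rfl).trans]
  refine Finset.sum_congr rfl fun a _ => ?_
  rw [ContinuousLinearMap.flip_apply, h.pars (T (e a)) w, Finset.mul_sum]
  exact Finset.sum_congr rfl fun b _ => by ring

variable {M : Type} [TopologicalSpace M] [ChartedSpace E3 M] [IsManifold 𝓘(ℝ, E3) ∞ M]
  {g : ℝ → Ten E3 M} {I : Set ℝ} {U : Set M} {u v : ℝ → M → ℝ} {s : ℝ} {y : M} {f : Fin 3 → E3}

section Fam

variable {h : Fam g I U} {hI : Iv I} {hs : s ∈ I} {hy : y ∈ U} {hf : ON (g s y) f}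

lemma fp_rip (hu : SmF E3 u I U) (hv : SmF E3 v I U) :
    ev (fp h hI hs hy hf) ((cl h hI y).fr.rip (sm h hI y u hu) (sm h hI y v hv)) =
      Ric (g s) y (grad (g s) (u s) y) (grad (g s) (v s) y) := by
  rw [hf.bil (Ric (g s) y)]
  simp only [Fr.rip, map_sum, map_mul, fp_Ric, fp_D']

lemma fp_hsq (hu : SmF E3 u I U) :
    ev (fp h hI hs hy hf) ((cl h hI y).fr.hsq (sm h hI y u hu)) =
      ∑ a, ∑ b, hess (g s) (u s) y (f a) (f b) ^ 2 := by
  simp only [Fr.hsq, map_sum, map_pow, fp_hess]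

lemma fp_rhs (hu : SmF E3 u I U) :
    ev (fp h hI hs hy hf) ((cl h hI y).fr.rhs (sm h hI y u hu)) =
      ∑ a, ∑ b, Ric (g s) y (f a) (f b) * hess (g s) (u s) y (f a) (f b) := by
  simp only [Fr.rhs, map_sum, map_mul, fp_hess, fp_Ric]

lemma fp_rsq : ev (fp h hI hs hy hf) (cl h hI y).fr.rsq =
    ∑ a, ∑ b, Ric (g s) y (f a) (f b) ^ 2 := by
  simp only [Fr.rsq, map_sum, map_pow, fp_Ric]

lemma fp_N' (k : ℕ) : ev (fp h hI hs hy hf) ((cl h hI y).fr.N k) = NN (g s) k y / 4 := by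
  rw [← fp_N (h := h) (hI := hI) (hs := hs) (hy := hy) (hf := hf)]; ring

lemma fp_sqrt_N (k : ℕ) :
    √(ev (fp h hI hs hy hf) ((cl h hI y).fr.N k)) = √(NN (g s) k y) / 2 := by
  rw [fp_N', Real.sqrt_div' _ (by norm_num), show (4 : ℝ) = 2 ^ 2 by norm_num,
    Real.sqrt_sq (by norm_num)]

lemma fp_H_N (k : ℕ) : 4 * ev (fp h hI hs hy hf) ((cl h hI y).fl.H ((cl h hI y).fr.N k)) =
    derivWithin (fun r => NN (g r) k y) I s - lap (g s) (NN (g s) k) y := by
  rw [← fp_H (h := h) (hI := hI) (hs := hs) (hy := hy) (hf := hf) (smF_NN h hI k), ← N_sm,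
    show (4 : (cl h hI y).A) = algebraMap ℝ _ 4 from (map_ofNat _ 4).symm, ← Algebra.smul_def,
    Fl.H_smul, map_smul, smul_eq_mul]

end Fam

omit [IsManifold 𝓘(ℝ, E3) ∞ M] in
/-- the frame chosen at a point -/
lemma on_fr0 (h : Fam g I U) (hs : s ∈ I) (hy : y ∈ U) : ON (g s y) (fr0 (g s y)) :=
  fr0_on ((h.met hs).symm y hy) (h.pos s hs y hy)

/-- Kato type inequality for the norms of the derivatives of the curvature -/
theorem gam_NN_le {G : Ten E3 M} (hG : Met G U) (hy : y ∈ U) (k : ℕ) :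
    gam G (NN G k) (NN G k) y ≤ 4 * NN G k y * NN G (k + 1) y := by
  have h := hG.fam univ
  have hs := mem_univ (0 : ℝ)
  have h1 := (cl h iv_univ y).fr.ev_ip_N (ev (fp h iv_univ hs hy (on_fr0 h hs hy))) k
  have h2 := fp_ip (h := h) (hI := iv_univ) (hs := hs) (hy := hy) (hf := on_fr0 h hs hy)
    (smF_NN h iv_univ k) (smF_NN h iv_univ k)
  rw [← N_sm, Fr.ip_mul_left, Fr.ip_mul_right, Fr.ip_const _ (fun a => der_ofNat _ 4),
    Fr.ip_comm _ _ 4, Fr.ip_const _ (fun a => der_ofNat _ 4)] at h2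
  simp only [map_add, map_mul, map_ofNat, map_zero, mul_zero, add_zero] at h2
  rw [fp_N', fp_N'] at h1
  linarith

/-- the Bochner formula -/
theorem bochner {G : Ten E3 M} (hG : Met G U) (hy : y ∈ U) (hf : ON (G y) f) {φ ψ : M → ℝ}
    (hφ : Sm0 E3 φ U) (hψ : Sm0 E3 ψ U) : lap G (gam G φ ψ) y =
      2 * ∑ a, ∑ b, hess G φ y (f a) (f b) * hess G ψ y (f a) (f b) + gam G φ (lap G ψ) y +
        gam G ψ (lap G φ) y + 2 * Ric G y (grad G φ y) (grad G ψ y) := by
  have h := hG.fam univ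
  have hu := smF_const hφ univ
  have hv := smF_const hψ univ
  have h1 := congrArg (ev (fp h iv_univ (mem_univ 0) hy hf))
    ((inv_sm h iv_univ y hu).bochner (inv_sm h iv_univ y hv))
  rw [ip_sm, Lap_sm h iv_univ y hu, Lap_sm h iv_univ y hv] at h1
  simpa only [map_add, map_mul, map_sum, map_ofNat, fp_Lap, fp_ip, fp_hess, fp_rip] using h1

theorem bochner_self {G : Ten E3 M} (hG : Met G U) (hy : y ∈ U) (hf : ON (G y) f) {φ : M → ℝ}
    (hφ : Sm0 E3 φ U) : lap G (gam G φ φ) y = 2 * ∑ a, ∑ b, hess G φ y (f a) (f b) ^ 2 +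
      2 * gam G φ (lap G φ) y + 2 * Ric G y (grad G φ y) (grad G φ y) := by
  rw [bochner hG hy hf hφ hφ]
  simp only [sq]
  ring

variable (h : P216R.RF g I U) (hI : Iv I) (hs : s ∈ I) (hy : y ∈ U)
include h hI hs hy

/-- the evolution of the scalar curvature -/
theorem evol_Sc (hf : ON (g s y) f) : HasDerivWithinAt (fun r => Sc (g r) y)
    (lap (g s) (Sc (g s)) y + 2 * ∑ a, ∑ b, Ric (g s) y (f a) (f b) ^ 2) I s := by
  refine (fp_Dt (h := h.toFam) (hI := hI) (hs := hs) (hy := hy) (hf := hf)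
    (smF_Sc h.toFam)).congr_deriv ?_
  have h2 : (cl h.toFam hI y).fl.Dt (cl h.toFam hI y).fr.S =
    (cl h.toFam hI y).fr.Lap (cl h.toFam hI y).fr.S + (cl h.toFam hI y).fr.rsq :=
    (crf h hI y).Dt_S
  rw [← fp_Lap (h := h.toFam) (hI := hI) (hs := hs) (hy := hy) (hf := hf) (smF_Sc h.toFam),
    ← S_sm, two_mul, Fr.Lap_add, map_add, h2]
  simp only [map_add, fp_rsq]
  ring

/-- the differential inequality for `|∇^k Rm|²` -/
theorem evol_NN {k : ℕ} {r : ℝ}
    (hr : ∀ i j, i + j = k → √(NN (g s) i y) * √(NN (g s) j y) ≤ r) :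
    |derivWithin (fun r => NN (g r) k y) I s - lap (g s) (NN (g s) k) y +
      2 * NN (g s) (k + 1) y| ≤ cS k * r * √(NN (g s) k y) / 2 := by
  have hf := on_fr0 h.toFam hs hy
  have h1 := (crf h hI y).ev_H_N (ev (fp h.toFam hI hs hy hf)) (k := k) (r := r / 4)
    fun i j hij => by
      have := hr i j hij
      erw [fp_sqrt_N, fp_sqrt_N]
      linarith
  erw [fp_sqrt_N, fp_N'] at h1
  rw [← fp_H_N (h := h.toFam) (hI := hI) (hs := hs) (hy := hy) (hf := hf)]
  rw [abs_le] at h1 ⊢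
  constructor <;> [have := h1.1; have := h1.2] <;> · simp only [crf_toFl, fl_toFr] at this; linarith

theorem has_NN (k : ℕ) : HasDerivWithinAt (fun r => NN (g r) k y)
    (derivWithin (fun r => NN (g r) k y) I s) I s :=
  (smF_has (smF_NN h.toFam hI k) hs hy).hasDerivWithinAt

/-- the time derivative of the pairing of gradients -/
theorem evol_gam (hu : SmF E3 u I U) (hv : SmF E3 v I U) :
    HasDerivWithinAt (fun r => gam (g r) (u r) (v r) y)
      (gam (g s) (fun z => derivWithin (fun r => u r z) I s) (v s) y +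
        gam (g s) (u s) (fun z => derivWithin (fun r => v r z) I s) y +
        2 * Ric (g s) y (grad (g s) (u s) y) (grad (g s) (v s) y)) I s := by
  have hf := on_fr0 h.toFam hs hy
  refine (fp_Dt (h := h.toFam) (hI := hI) (hs := hs) (hy := hy) (hf := hf)
    (smF_gam h.toFam hu hv)).congr_deriv ?_
  have h2 := RF.Dt_ip (c := crf h hI y) (inv_sm h.toFam hI y hu) (inv_sm h.toFam hI y hv)
  simp only [crf_toFl, fl_toFr] at h2
  rw [← ip_sm h.toFam hI y hu hv, h2, Dt_sm, Dt_sm]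
  simp only [map_add, map_mul, map_ofNat, fp_ip, fp_rip]

/-- the time derivative of the Laplacian -/
theorem evol_lap (hf : ON (g s y) f) (hu : SmF E3 u I U) :
    HasDerivWithinAt (fun r => lap (g r) (u r) y)
      (lap (g s) (fun z => derivWithin (fun r => u r z) I s) y +
        2 * ∑ a, ∑ b, Ric (g s) y (f a) (f b) * hess (g s) (u s) y (f a) (f b)) I s := by
  refine (fp_Dt (h := h.toFam) (hI := hI) (hs := hs) (hy := hy) (hf := hf)
    (smF_lap h.toFam hu)).congr_deriv ?_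
  have h2 := RF.Dt_Lap (c := crf h hI y) (inv_sm h.toFam hI y hu)
  simp only [crf_toFl, fl_toFr] at h2
  rw [← Lap_sm h.toFam hI y hu, h2, Dt_sm]
  simp only [map_add, map_mul, map_ofNat, fp_Lap, fp_rhs]

/-- the heat operator applied to the squared gradient -/
theorem heat_gam (hf : ON (g s y) f) (hu : SmF E3 u I U) :
    derivWithin (fun r => gam (g r) (u r) (u r) y) I s - lap (g s) (gam (g s) (u s) (u s)) y =
      2 * gam (g s) (u s) (fun z => derivWithin (fun r => u r z) I s) y -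
        2 * gam (g s) (u s) (lap (g s) (u s)) y -
        2 * ∑ a, ∑ b, hess (g s) (u s) y (f a) (f b) ^ 2 := by
  rw [(evol_gam h hI hs hy hu hu).derivWithin (hI.ud s hs),
    bochner_self (h.met hs) hy hf (smF_slice hu hs)]
  have h1 := congrArg (ev (fp h.toFam hI hs hy hf)) ((cl h.toFam hI y).fr.ip_comm
    (sm h.toFam hI y _ (smF_dt hI h.isOpen hu)) (sm h.toFam hI y u hu))
  rw [fp_ip, fp_ip] at h1
  rw [h1]
  ring

end Vale.Agent.P216D
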