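import Vale.Agent.P216D.ModM
import Vale.Agent.P216KV.RT
import Vale.Agent.P216BF.Curv
import Vale.Agent.P216FA.Plan

/-! # The time derivative of the Ricci tensor -/

open scoped Manifold ContDiff Topology
open Set Filter

set_option maxSynthPendingDepth 3

noncomputable section

namespace Vale.Agent.P216D

open Vale.Agent.P216R hiding RF
open Vale.Agent.P216BF Loc

lemma ric_dt_loc {L : Loc} (h : P216R.RF L.g L.I L.U) (p : L.O) {K K' : ℝ}
    (h0 : RmB (L.g (t p)) 0 (x p) K) (h2 : RmB (L.g (t p)) 2 (x p) K') :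
    |derivWithin (fun s => ricG (L.g s) (x p)) L.I (t p) (e p 0) (e p 0)| ≤
      81 * |K'| + 1554 * K ^ 2 := by
  have hm := met_model.2 (met (t_mem p))
  have n0 := NN_le hm (x_mem p) h0
  have n2 := NN_le hm (x_mem p) h2
  rw [← ev_N] at n0 n2
  norm_num at n0 n2
  have m0 := (rf h).ev_N_nonneg (ev p) 0
  have a1 : √(ev p (L.fr.N 2)) ≤ 27 / 2 * |K'| :=
    Real.sqrt_le_iff.2 ⟨by positivity, by rw [mul_pow, sq_abs]; linarith⟩
  have a2 := fun a => abs_le.1 ((rf h).ev_Dt_Dw_M (ev p) (w := []) (r := 81 / 4 * K ^ 2)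
    (fun i j hij => by
      obtain ⟨rfl, rfl⟩ := Nat.add_eq_zero_iff.1 hij
      exact (Real.mul_self_sqrt m0).trans_le (by change ev p (L.fr.N 0) ≤ _; linarith)) a a)
  have a3 := ev_Dt_l2 sm_ricG p 0 0
  have a4 : L.fr.Ric 0 0 = L.fr.M 1 1 + L.fr.M 2 2 := by simp [Fr.Ric, Fr.S]; ring
  have a5 : ∀ c, L.g (t p) (x p) (L.Ks (t p, x p) (e p 0)) (e p c) =
      ricG (L.g (t p)) (x p) (e p 0) (e p c) := fun c => by
    rw [← ev_K', ← ev_Ric]; exact congrArg (ev p) ((rf h).ric 0 c)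
  have a6 := (on_g p).pars (ricG (L.g (t p)) (x p) (e p 0)) (L.Ks (t p, x p) (e p 0))
  have a7 := ric_symm hm (x_mem p) (L.Ks (t p, x p) (e p 0)) (e p 0)
  have a8 : ∀ c, ricG (L.g (t p)) (x p) (e p 0) (e p c) ^ 2 ≤ 16 * K ^ 2 := fun c => by
    have := abs_le.1 (P216KV.ric_loc p h0 0 c)
    nlinarith [this.1, this.2]
  rw [Ric_model] at a7
  rw [← Ric_l2, a4, map_add, map_add, a7, a6] at a3
  simp only [a5, ← sq, Fin.sum_univ_three] at a3
  have b1 := a2 1
  have b2 := a2 2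
  change -(3 * √(ev p (L.fr.N 2)) + (0 + 36 * 2 ^ 0) * _) ≤ ev p (L.fl.Dt (L.fr.M _ _)) ∧
    ev p (L.fl.Dt (L.fr.M _ _)) ≤ 3 * √(ev p (L.fr.N 2)) + (0 + 36 * 2 ^ 0) * _ at b1 b2
  rw [abs_le]
  constructor <;> nlinarith [a8 0, a8 1, a8 2, b1.1, b1.2, b2.1, b2.2,
    sq_nonneg (ricG (L.g (t p)) (x p) (e p 0) (e p 0)),
    sq_nonneg (ricG (L.g (t p)) (x p) (e p 0) (e p 1)),
    sq_nonneg (ricG (L.g (t p)) (x p) (e p 0) (e p 2))]

variable {M : Type} [TopologicalSpace M] [ChartedSpace E3 M] [IsManifold 𝓘(ℝ, E3) ∞ M]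
  {g : ℝ → Ten E3 M} {I : Set ℝ} {U : Set M} {s K K' : ℝ} {y : M}

/-- the time derivative of the Ricci tensor is bounded by the curvature and its Hessian -/
theorem ric_dt (h : P216R.RF g I U) (hI : Iv I) (hs : s ∈ I) (hy : y ∈ U)
    (h0 : RmB (g s) 0 y K) (h2 : RmB (g s) 2 y K') (v : E3) :
    ∃ D, HasDerivWithinAt (fun r => Ric (g r) y v v) D I s ∧
      |D| ≤ (81 * |K'| + 1554 * K ^ 2) * g s y v v := by
  have hp := met_pd (h.met hs) hy
  have h1 := (((h.toFam.contDiffOn_time_Ric hy).differentiableOn (by simp)) s hs).hasDerivWithinAt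
  have h3 : ∀ u, g s y u u = 1 → |derivWithin (fun r => Ric (g r) y) I s u u| ≤
      81 * |K'| + 1554 * K ^ 2 := fun u hu => by
    obtain ⟨f, f1, rfl⟩ := hp.onb_unit (ι := Fin 3) (by simp) hu 0
    have o : ON (g s y) f := fun i j => (f1.on i j).trans (by simp [dl])
    have a0 := P216KV.rmB_pt h0
    have a2 := P216KV.rmB_pt h2
    have := ric_dt_loc (L := cl h.toFam hI y) (h.co y) (fp h.toFam hI hs hy o) a0 a2
    exact this
  refine ⟨derivWithin (fun r => Ric (g r) y) I s v v, by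
    simpa using (h1.clm_apply (hasDerivWithinAt_const _ _ v)).clm_apply
      (hasDerivWithinAt_const _ _ v), abs_le.2 ⟨?_, hp.of_unit (fun u hu => (abs_le.1 (h3 u hu)).2) v⟩⟩
  have := hp.of_unit (B := -derivWithin (fun r => Ric (g r) y) I s)
    (fun u hu => (neg_le_abs _).trans (h3 u hu)) v
  simpa [neg_le] using this

theorem rtr : P216FA.RTR := fun K k hk => by
  obtain ⟨C, hC⟩ : ∃ C, C = 81 * |K| + 1554 * K ^ 2 + 4 * k * |K| + 1 := ⟨_, rfl⟩
  have C0 : 0 < C := by rw [hC]; positivity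
  refine ⟨k / (2 * C), by positivity, fun X g U x a b hab hθ h hx hK hk' v => ?_⟩
  rw [le_div_iff₀ (by positivity)] at hθ
  have hn := fun t ht => (h.met (t := t) ht).nonneg hx v
  have hb : b ∈ Icc a b := right_mem_Icc.2 hab
  rcases hab.eq_or_lt with rfl | hlt
  · linarith [hk' v, mul_nonneg hk.le (hn a hb)]
  have key : ∀ t ∈ Icc a b, ∃ D, HasDerivWithinAt
      (fun r => Ric (g r) x v v - (k - C * (r - a)) * g r x v v) D (Icc a b) t ∧ 0 ≤ D :=
    fun t ht => by
      obtain ⟨D, d1, d2⟩ := ric_dt h (iv_Icc hlt) ht hx (hK t ht).1 (hK t ht).2 v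
      have d3 := ((h.eqn t ht x hx).clm_apply (hasDerivWithinAt_const _ _ v)).clm_apply
        (hasDerivWithinAt_const _ _ v)
      refine ⟨_, d1.sub (((((hasDerivWithinAt_id t _).sub_const a).const_mul C).const_sub k).mul
        d3), ?_⟩
      have d4 := (ric_of_rmB3 finrank_E3 (h.met ht) hx (hK t ht).1).1 v
      have d5 := mul_le_mul_of_nonneg_right (le_abs_self K) (hn t ht)
      have d6 : 0 ≤ k - C * (t - a) := by nlinarith [ht.2]
      have d7 := mul_le_mul_of_nonneg_left (show -(2 * |K|) * g t x v v ≤ Ric (g t) x v v by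
        linarith) d6
      have d8 := mul_nonneg (mul_nonneg C0.le (sub_nonneg.2 ht.1))
        (mul_nonneg (abs_nonneg K) (hn t ht))
      simp only [id, map_zero, add_zero, smul_apply, smul_eq_mul]
      rw [hC] at *
      nlinarith [(abs_le.1 d2).1, hn t ht]
  choose! D d1 d2 using key
  have := monotoneOn_of_hasDerivWithinAt_nonneg (convex_Icc a b)
    (fun t ht => (d1 t ht).continuousWithinAt)
    (fun t ht => (d1 t (interior_subset ht)).mono interior_subset)
    (fun t ht => d2 t (interior_subset ht)) (left_mem_Icc.2 hab) hb hab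
  simp only [sub_self, mul_zero, sub_zero] at this
  nlinarith [hk' v, hn b hb]

end Vale.Agent.P216D
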