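import Vale.Agent.P216D.ModLift
import Vale.Agent.P216D.Words
import Vale.Agent.P216R.Nat

/-! # The frame calculus of a family of metrics and of a Ricci flow in a chart -/

open Set Filter Topology
open scoped ContDiff

set_option linter.unusedSimpArgs false
set_option linter.unnecessarySeqFocus false
set_option maxSynthPendingDepth 3

namespace Vale.Agent.P216D

open Vale.Agent.P216R hiding RF
open Vale.Agent.P219.RG
open Vale.Agent.P210.R2.H53 (gradG gamG hessG lapG)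

lemma ON.trB {B : Bi} {e : Fin 3 → E3} (h : ON B e) (hp : ∀ v, v ≠ 0 → 0 < B v v) (T : Bi) :
    trB B T = ∑ a, T (e a) (e a) := by
  rw [P216R.trB, h.trace]
  simp [app_inverse hp]

lemma ON.inv {B : Bi} {e : Fin 3 → E3} (h : ON B e) (hp : ∀ v, v ≠ 0 → 0 < B v v)
    (l m : E3 →L[ℝ] ℝ) : l (B.inverse m) = ∑ a, l (e a) * m (e a) := by
  rw [h.pars l]
  simp [app_inverse hp, mul_comm]

variable {G : ℝ → E3 → Bi} {I : Set ℝ} {U : Set E3}

lemma fam_ps (h : Fam G I U) {b : ℝ × E3} (hb : b ∈ I ×ˢ U) : PS G I b.1 b.2 :=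
  contDiffWithinAt_univ_of h.contDiffOn_model h.isOpen hb.1 hb.2

lemma ps_on {H : Type} [NormedAddCommGroup H] [NormedSpace ℝ H] {f : ℝ → E3 → H}
    (h : ∀ b ∈ I ×ˢ U, PS f I b.1 b.2) : ContDiffOn ℝ ∞ (fun b : ℝ × E3 => f b.1 b.2) (I ×ˢ U) :=
  fun b hb => (h b hb).mono (prod_mono subset_rfl (subset_univ _))

lemma fam_met (h : Fam G I U) {s : ℝ} (hs : s ∈ I) : IsMetricOn (G s) U := met_model.1 (h.met hs)

lemma fam_time (h : Fam G I U) (hI : Iv I) {b : ℝ × E3} (hb : b ∈ I ×ˢ U) (u v : E3) :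
    fderivWithin ℝ (fun b : ℝ × E3 => G b.1 b.2) (I ×ˢ U) b (1, 0) u v =
      fderivWithin ℝ (fun b : ℝ × E3 => G b.1 b.2) (I ×ˢ U) b (1, 0) v u := by
  have h1 := has_time hb (dw (h.contDiffOn_model b hb))
  have h2 := fun u v : E3 => (h1.clm_apply (hasDerivWithinAt_const _ _ u)).clm_apply
    (hasDerivWithinAt_const _ _ v)
  simpa using (hI.ud _ hb.1).eq_deriv _ (h2 u v) ((h2 v u).congr_of_mem
    (fun s hs => h.symm s hs _ hb.2 u v) hb.1)

/-- the local data of a family of metrics -/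
@[reducible] noncomputable def loc (h : Fam G I U) (hI : Iv I) : Loc where
  I := I
  U := U
  G b := G b.1 b.2
  Ga b := chrisB (G b.1) b.2
  Ks b := (-1 / 2 : ℝ) • (G b.1 b.2).inverse ∘L
    fderivWithin ℝ (fun b : ℝ × E3 => G b.1 b.2) (I ×ˢ U) b (1, 0)
  iv := hI
  op := h.isOpen
  smG := h.contDiffOn_model
  smGa := ps_on (f := fun s => chrisB (G s)) fun b hb =>
    (fam_ps h hb).chrisB hb.1 (h.pos _ hb.1 _ hb.2)
  smK b hb := (ContDiffWithinAt.clm_comp (ps_on (f := fun s y => (G s y).inverse)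
    (fun b hb => (fam_ps h hb).inverse (h.pos _ hb.1 _ hb.2)) b hb)
    (((h.contDiffOn_model b hb).fderivWithin_right (m := ∞)
      (UniqueDiffOn.prod hI.ud h.isOpen.uniqueDiffOn) (by simp) hb).clm_apply
      contDiffWithinAt_const)).const_smul _
  symG b hb := h.symm _ hb.1 _ hb.2
  posG b hb := h.pos _ hb.1 _ hb.2
  symGa b hb u v := by simp only [chrisB_apply, (fam_met h hb.1).chris_symm hb.2 u v]
  symK b hb u v := by
    rw [h.symm _ hb.1 _ hb.2 u]
    simp [app_inverse (h.pos _ hb.1 _ hb.2), fam_time h hI hb u v]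
  compat b hb w u v := by
    rw [fd_space h.isOpen hb (dw (h.contDiffOn_model b hb)), chrisB_apply, chrisB_apply]
    exact (fam_met h hb.1).chris_compat hb.2 w u v
  time b hb u v := by
    simp [app_inverse (h.pos _ hb.1 _ hb.2)]
    ring

namespace Loc

variable (L : Loc)

/-- the metric at time `s` -/
def g (s : ℝ) (y : E3) : Bi := L.G (s, y)

lemma G_eq (b : ℝ × E3) : L.G b = L.g b.1 b.2 := rfl

lemma fam : Fam L.g L.I L.U :=
  fam_model L.op (fun s hs y hy => L.symG (s, y) ⟨hs, hy⟩) (fun s hs y hy => L.posG (s, y) ⟨hs, hy⟩)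
    L.smG

variable {L}

lemma met {s : ℝ} (hs : s ∈ L.I) : IsMetricOn (L.g s) L.U := fam_met L.fam hs

lemma GaB_eq {b : ℝ × E3} (hb : b ∈ L.W) : L.Ga b = chrisB (L.g b.1) b.2 := by
  ext1 u
  ext1 v
  refine ext_of_pos (L.posG b hb) fun z => ?_
  have h1 : ∀ w u v, fderiv ℝ (L.g b.1) b.2 w u v =
      L.G b (L.Ga b w u) v + L.G b (L.Ga b w v) u := fun w u v => by
    rw [L.symG b hb _ u, ← L.compat b hb, fd_space L.op hb (dw (L.smG b hb))]; rfl
  rw [chrisB_apply, G_eq, (met hb.1).chris_spec hb.2, h1, h1, h1, L.symGa b hb v u,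
    L.symGa b hb z u, L.symGa b hb z v, G_eq]
  ring

lemma Ga_eq {b : ℝ × E3} (hb : b ∈ L.W) (u v : E3) : L.Ga b u v = chris (L.g b.1) b.2 u v := by
  rw [GaB_eq hb, chrisB_apply]

lemma Rm_eq {b : ℝ × E3} (hb : b ∈ L.W) (u v w : E3) :
    L.Rm b u v w = curv (L.g b.1) b.2 u v w := by
  have h1 : (fun y => L.Ga (b.1, y)) =ᶠ[𝓝 b.2] chrisB (L.g b.1) :=
    eventually_of_mem (L.op.mem_nhds hb.2) fun y hy => GaB_eq (b := (b.1, y)) ⟨hb.1, hy⟩
  rw [(met hb.1).curv_eq hb.2, Loc.Rm, fd_space L.op hb (dw (L.smGa b hb)),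
    fd_space L.op hb (dw (L.smGa b hb)), h1.fderiv_eq, GaB_eq hb]

variable (p : L.O)

lemma on_g : ON (L.g (t p) (x p)) (e p) := e_on p

lemma pos_g : ∀ v, v ≠ 0 → 0 < L.g (t p) (x p) v v := L.posG _ (w_mem p)

lemma Ga_p (u v : E3) : L.Ga (t p, x p) u v = chris (L.g (t p)) (x p) u v := Ga_eq (w_mem p) u v

lemma ev_rm' (a b c d : Fin 3) : ev p (L.rm a b c d) =
    L.g (t p) (x p) (curv (L.g (t p)) (x p) (e p a) (e p b) (e p c)) (e p d) := by
  rw [ev_rm, Rm_eq (w_mem p)]; rfl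

lemma ev_M (c d : Fin 3) : ev p (L.fr.M c d) = L.g (t p) (x p)
    (curv (L.g (t p)) (x p) (e p (c + 1)) (e p (c + 2)) (e p (d + 2))) (e p (d + 1)) :=
  ev_rm' p _ _ _ _

lemma sum_rm (a b : Fin 3) : ∑ i, L.rm i a b i = L.fr.Ric a b := by
  simp only [rm_eq, Fr.Ric, Fr.S]
  revert a b
  refine all3 ?_ ?_ ?_ <;> refine all3 ?_ ?_ ?_ <;>
    simp [Fin.sum_univ_three, L.fr.M10, L.fr.M20, L.fr.M21] <;> ring

lemma ev_Ric (a b : Fin 3) : ev p (L.fr.Ric a b) = ricG (L.g (t p)) (x p) (e p a) (e p b) := by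
  rw [← sum_rm, ricG_apply, trL_apply, (on_g p).trace, map_sum]
  refine Finset.sum_congr rfl fun i _ => ?_
  rw [ev_rm', ← curvB_apply (met (t_mem p)) (x_mem p)]
  rfl

lemma ev_S : 2 * ev p L.fr.S = scG (L.g (t p)) (x p) := by
  rw [scG, (on_g p).trB (pos_g p)]
  simp only [← ev_Ric, ← map_sum, Fr.tr_Ric, map_mul, map_ofNat]

lemma has_K (u v : E3) : HasDerivWithinAt (fun s => L.g s (x p) u v)
    (-2 * L.g (t p) (x p) (L.Ks (t p, x p) u) v) L.I (t p) := by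
  have h1 := has_time (w_mem p) (dw (L.smG _ (w_mem p)))
  have h2 := (h1.clm_apply (hasDerivWithinAt_const _ _ u)).clm_apply (hasDerivWithinAt_const _ _ v)
  refine h2.congr_deriv ?_
  simp only [map_zero, add_zero]
  exact L.time _ (w_mem p) u v

lemma ev_K' (a b : Fin 3) :
    ev p (L.fl.K a b) = L.g (t p) (x p) (L.Ks (t p, x p) (e p a)) (e p b) := rfl

/-! ### functions -/

section sc

variable {u v : ℝ × E3 → ℝ} (hu : ContDiffOn ℝ ∞ u L.W) (hv : ContDiffOn ℝ ∞ v L.W)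

lemma ev_hess_sc (a b : Fin 3) : ev p (L.fr.D a (L.fr.D b (L.sc u hu))) =
    hessG (L.g (t p)) (fun y => u (t p, y)) (x p) (e p a) (e p b) := by
  rw [ev_DD_sc, hessG_apply, Ga_p]

lemma ev_Lap_sc :
    ev p (L.fr.Lap (L.sc u hu)) = lapG (L.g (t p)) (fun y => u (t p, y)) (x p) := by
  rw [lapG_eq, (on_g p).trB (pos_g p), Fr.Lap, map_sum]
  simp only [ev_hess_sc]

lemma ev_ip_sc : ev p (L.fr.ip (L.sc u hu) (L.sc v hv)) =
    gamG (L.g (t p)) (fun y => u (t p, y)) (fun y => v (t p, y)) (x p) := by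
  rw [gamG, gradG, (on_g p).inv (pos_g p), Fr.ip, map_sum]
  simp only [map_mul, ev_D_sc]

lemma ev_H_sc : ev p (L.fl.H (L.sc u hu)) = derivWithin (fun s => u (s, x p)) L.I (t p)
    - lapG (L.g (t p)) (fun y => u (t p, y)) (x p) := by
  rw [Fl.H, map_sub, ev_Dt_sc, fl_toFr, ev_Lap_sc]

end sc

lemma sm_scG : ContDiffOn ℝ ∞ (fun b : ℝ × E3 => scG (L.g b.1) b.2) L.W :=
  ps_on (f := fun s => scG (L.g s)) fun b hb => (fam_ps L.fam hb).scG hb.1 (L.posG b hb)

lemma sm_ricG : ContDiffOn ℝ ∞ (fun b : ℝ × E3 => ricG (L.g b.1) b.2) L.W :=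
  ps_on (f := fun s => ricG (L.g s)) fun b hb => (fam_ps L.fam hb).ricG hb.1 (L.posG b hb)

lemma S_sc : 2 * L.fr.S = L.sc _ sm_scG := Sm.ext fun p => by
  rw [map_mul, map_ofNat, ev_S]; rfl

lemma Ric_l2 (a b : Fin 3) : L.fr.Ric a b = L.l2 _ sm_ricG a b := Sm.ext fun p => ev_Ric p a b

/-! ### arbitrary tensors -/

section lift

variable {k : ℕ} {T : ℝ → E3 × (Fin k → E3) → ℝ}

/-- the arguments picked from a frame -/
noncomputable def pick (i : Fin k → Fin 3) : FF →L[ℝ] ℝ × (E3 × (Fin k → E3)) :=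
  tm.prod (((ContinuousLinearMap.snd ℝ ℝ E3).comp (ContinuousLinearMap.fst ℝ _ _)).prod
    (ContinuousLinearMap.pi fun s => eL (i s)))

lemma pick_apply (i : Fin k → Fin 3) (q : FF) : pick i q = (q.1.1, q.1.2, fun s => q.2 (i s)) := rfl

variable (L) in
/-- tensors that are smooth in space-time -/
def ST (T : ℝ → E3 × (Fin k → E3) → ℝ) : Prop := ∀ s ∈ L.I, ∀ y ∈ L.U, ∀ v, PS T L.I s (y, v)

lemma ST.nab (hT : L.ST T) : L.ST fun s => nab (L.g s) (T s) := fun s hs y hy _ =>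
  (fam_ps L.fam (b := (s, y)) ⟨hs, hy⟩).nab hs (L.fam.pos s hs y hy) (hT s hs y hy _)

variable (L) in
lemma st_rmG (k : ℕ) : L.ST fun s => rmG (L.g s) k := fun s hs y hy v => by
  refine (fam_ps L.fam (b := (s, y)) ⟨hs, hy⟩).rmG hs ?_ k v
  filter_upwards [self_mem_nhdsWithin, nhdsWithin_le_nhds
    (continuous_snd.continuousAt.eventually_mem (L.op.mem_nhds hy))] with q a b
  exact ⟨L.U, met a.1, b⟩

lemma sm_lt (hT : L.ST T) (i : Fin k → Fin 3) (q : FF) (hq : q ∈ L.R.O) :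
    ContDiffWithinAt ℝ ∞ (fun q : FF => T q.1.1 (q.1.2, fun s => q.2 (i s))) L.R.S q :=
  ContDiffWithinAt.comp q (g := fun z : ℝ × (E3 × (Fin k → E3)) => T z.1 z.2) (f := pick i)
    (hT _ hq.1.1 _ hq.1.2 _) (pick i).contDiff.contDiffWithinAt fun _ hz => ⟨hz.1.1, trivial⟩

variable (L) in
/-- the components of a tensor -/
noncomputable def lt (T : ℝ → E3 × (Fin k → E3) → ℝ) (hT : L.ST T) (i : Fin k → Fin 3) : L.A :=
  Sm.mk _ (sm_lt hT i)

lemma ev_lt (hT : L.ST T) (i : Fin k → Fin 3) :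
    ev p (L.lt T hT i) = T (t p) (x p, fun s => e p (i s)) := rfl

lemma rep_lt (hT : L.ST T) (i : Fin k → Fin 3) :
    Rep L.R (L.lt T hT i).1 p fun q : FF => T q.1.1 (q.1.2, fun s => q.2 (i s)) :=
  Sm.mk_rep _ (sm_lt hT i) p

lemma fd_lt (hT : L.ST T) (i : Fin k → Fin 3) (Z : FF) (hZ : Z.1.1 = 0) :
    fderivWithin ℝ (fun q : FF => T q.1.1 (q.1.2, fun s => q.2 (i s))) L.S p Z =
      fderiv ℝ (T (t p)) (x p, fun s => e p (i s)) (Z.1.2, fun s => Z.2 (i s)) := by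
  have h1 := (dw (hT _ (t_mem p) _ (x_mem p) fun s => e p (i s))).hasFDerivWithinAt
  have h2 := (HasFDerivWithinAt.comp p.1 (f := pick i) (s := L.S) h1
    (pick i).hasFDerivWithinAt fun _ hz => ⟨hz.1.1, trivial⟩).fderivWithin (uds (w_mem p))
  have h3 := (hasFDerivWithinAt_univ.1 (HasFDerivWithinAt.comp (x p, fun s => e p (i s))
    (f := fun z => (t p, z)) (s := univ) h1 (hasFDerivAt_prodMk_right _ _).hasFDerivWithinAt
    fun _ _ => ⟨t_mem p, trivial⟩)).fderiv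
  refine (congrArg (fun l => l Z) h2).trans (Eq.trans ?_
    (congrArg (fun l => l (Z.1.2, fun s => Z.2 (i s))) h3).symm)
  simp [pick_apply, hZ]

/-- the horizontal derivations are the covariant derivative -/
lemma D_lt (hT : L.ST T) (a : Fin 3) (i : Fin k → Fin 3) :
    L.fr.D a (L.lt T hT i) = L.lt _ hT.nab (Fin.cons a i) := by
  refine Sm.ext fun p => ?_
  rw [ev_D a (rep_lt p hT i), fd_lt p hT i _ rfl, ev_lt, nab]
  simp only [XD, Ga_eq (w_mem p), Fin.cons_zero, Fin.cons_succ]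
  rfl

lemma ev_V_lt (hT : L.ST T) (a : Fin 3) (i : Fin k → Fin 3) :
    ev p (L.fr.V a (L.lt T hT i)) = fderiv ℝ (T (t p)) (x p, fun s => e p (i s))
      (0, fun s => ∑ c, (eps a (i s) c : ℝ) • e p c) := by
  rw [ev_V a (rep_lt p hT i), fd_lt p hT i _ rfl]
  rfl

/-- the index tuple of a word followed by four indices -/
def ix : (k : ℕ) → (Fin k → Fin 3) → (Fin 4 → Fin 3) → Fin (k + 4) → Fin 3
  | 0, _, j => j
  | k + 1, w, j => Fin.cons (w 0) (ix k (Fin.tail w) j)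

lemma rm_lt (j : Fin 4 → Fin 3) : L.rm (j 0) (j 1) (j 2) (j 3) = L.lt _ (L.st_rmG 0) j :=
  Sm.ext fun p => ev_rm' p _ _ _ _

/-- words of horizontal derivations on the curvature are its covariant derivatives -/
lemma Dw_rm (k : ℕ) (w : Fin k → Fin 3) (j : Fin 4 → Fin 3) :
    L.fr.Dw (List.ofFn w) (L.rm (j 0) (j 1) (j 2) (j 3)) = L.lt _ (L.st_rmG k) (ix k w j) := by
  induction k with
  | zero => exact rm_lt j
  | succ k ih =>
    rw [List.ofFn_succ, Fr.Dw_cons]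
    exact (congrArg _ (ih (Fin.tail w))).trans (D_lt _ _ _)

lemma ev_Dw_M (k : ℕ) (w : Fin k → Fin 3) (c d : Fin 3) :
    ev p (L.fr.Dw (List.ofFn w) (L.fr.M c d)) =
      rmG (L.g (t p)) k (x p, fun s => e p (ix k w ![c + 1, c + 2, d + 2, d + 1] s)) :=
  congrArg (ev p) (Dw_rm k w ![c + 1, c + 2, d + 2, d + 1])

end lift

/-- the frame calculus of a Ricci flow -/
noncomputable def rf (h : P216R.RF L.g L.I L.U) : RF L.A where
  toFl := L.fl
  ric a b := Sm.ext fun p => by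
    have h1 := ((h.eqn _ (t_mem p) _ (x_mem p)).clm_apply
      (hasDerivWithinAt_const _ _ (e p a))).clm_apply (hasDerivWithinAt_const _ _ (e p b))
    have h2 := (L.iv.ud _ (t_mem p)).eq_deriv _ (has_K p (e p a) (e p b)) h1
    rw [fl_toFr, ev_Ric, ev_K', ← Ric_model]
    simp only [map_zero, add_zero, _root_.smul_apply, smul_eq_mul] at h2
    linarith

@[simp] lemma rf_toFl (h : P216R.RF L.g L.I L.U) : (rf h).toFl = L.fl := rfl

end Loc

@[simp] lemma loc_g (h : Fam G I U) (hI : Iv I) : (loc h hI).g = G := rfl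

/-- every family of metrics in a chart has a frame calculus -/
theorem exists_loc (h : Fam G I U) (hI : Iv I) : ∃ L : Loc, L.I = I ∧ L.U = U ∧ L.g = G :=
  ⟨loc h hI, rfl, rfl, rfl⟩

/-- the local data of one metric -/
@[reducible] noncomputable def loc0 {G : E3 → Bi} (h : IsMetricOn G U) : Loc :=
  loc ((met_model.2 h).fam univ) iv_univ

end Vale.Agent.P216D
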