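import Vale.Agent.P216D.Shi

/-! # The Bernstein-Shi argument at a maximum point -/

set_option linter.unusedSimpArgs false

namespace Vale.Agent.P216D

variable {A : Type*} [CommRing A] [Algebra ℝ A]

/-- the constant in the differential inequality for the Bernstein-Shi quantity -/
def cL (k : ℕ) (K : ℝ) : ℝ := 18 * K ^ 2 * cS (k + 1) + cS k * K ^ 2

/-- the bound for the Bernstein-Shi quantity -/
def cB (k : ℕ) (K B : ℝ) : ℝ := 9 * K * (cL k K * B + 27 * K * B + cL k K * B ^ 2 + 1)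

lemma cL_nonneg (k : ℕ) (K : ℝ) : 0 ≤ cL k K := by
  have := cS_pos k
  have := cS_pos (k + 1)
  rw [cL]; positivity

lemma cB_pos (k : ℕ) {K B : ℝ} (hK : 0 < K) (hB : 0 ≤ B) : 0 < cB k K B := by
  have := cL_nonneg k K
  rw [cB]; positivity

/-- the Bernstein-Shi quantity -/
def Fr.bsq (c : Fr A) (k : ℕ) (K : ℝ) : A := (algebraMap ℝ A (8 * K) + c.N k) * c.N (k + 1)

namespace RF

open Fr Fl

variable (c : RF A) (ev : A →ₐ[ℝ] ℝ)

lemma ev_bsq (k : ℕ) (K : ℝ) : ev (c.bsq k K) = (8 * K + ev (c.N k)) * ev (c.N (k + 1)) := by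
  simp [bsq]

theorem ev_H_bsq {k : ℕ} {K : ℝ} (hK : 1 ≤ K) (h : ∀ i ≤ k, ev (c.N i) ≤ K) :
    ev (c.H (c.bsq k K)) ≤ -ev (c.N (k + 1)) ^ 2 + cL k K * (1 + ev (c.N (k + 1))) := by
  have hs : ∀ i ≤ k, √(ev (c.N i)) ≤ √K := fun i hi => Real.sqrt_le_sqrt (h i hi)
  have hK0 : 0 ≤ K := by linarith
  have hKK : √K ≤ K := Real.sqrt_le_iff.2 ⟨hK0, by nlinarith⟩
  have h2 : ∀ i ≤ k, ∀ j ≤ k, √(ev (c.N i)) * √(ev (c.N j)) ≤ K := fun i hi j hj =>
    (mul_le_mul (hs i hi) (hs j hj) (Real.sqrt_nonneg _) (Real.sqrt_nonneg _)).trans_eq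
      (Real.mul_self_sqrt hK0)
  have h3 := c.ev_H_N ev (k := k) (r := K) fun i j hij => h2 i (by omega) j (by omega)
  have h4 := c.ev_H_N ev (k := k + 1) (r := K + K * √(ev (c.N (k + 1)))) fun i j hij => by
    have h0 : √(ev (c.N 0)) * √(ev (c.N (k + 1))) ≤ K * √(ev (c.N (k + 1))) :=
      mul_le_mul_of_nonneg_right ((hs 0 (by omega)).trans hKK) (Real.sqrt_nonneg _)
    rcases Nat.eq_zero_or_pos i with rfl | hi
    · obtain rfl : j = k + 1 := by omega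
      linarith
    rcases Nat.eq_zero_or_pos j with rfl | hj
    · obtain rfl : i = k + 1 := by omega
      linarith
    have := h2 i (by omega) j (by omega)
    have : 0 ≤ K * √(ev (c.N (k + 1))) := by positivity
    linarith
  have h5 := c.ev_ip_le ev (c.N k) (c.N (k + 1))
  have h6 := Real.sqrt_le_sqrt (c.ev_ip_N ev k)
  have h7 := Real.sqrt_le_sqrt (c.ev_ip_N ev (k + 1))
  have hz := c.ev_N_nonneg ev k
  have hx := c.ev_N_nonneg ev (k + 1)
  have hy := c.ev_N_nonneg ev (k + 1 + 1)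
  have hzK := h k le_rfl
  have hzs := (hs k le_rfl).trans hKK
  have e : ev (c.H (c.bsq k K)) = (8 * K + ev (c.N k)) * ev (c.H (c.N (k + 1))) +
      ev (c.N (k + 1)) * ev (c.H (c.N k)) - 2 * ev (c.ip (c.N k) (c.N (k + 1))) := by
    rw [bsq, H_mul, H_add, H_alg, ip_add_left, c.ip_const fun a => der_alg _ _]
    simp [map_ofNat]
  have s4 : √4 = 2 := by
    rw [show (4 : ℝ) = 2 ^ 2 by norm_num]; exact Real.sqrt_sq zero_le_two
  rw [Real.sqrt_mul (by positivity), Real.sqrt_mul (by positivity), s4] at h6 h7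
  have c0 := cS_pos k
  have c1 := cS_pos (k + 1)
  rw [e, cL]
  generalize ev (c.H (c.N (k + 1))) = H1 at *
  generalize ev (c.H (c.N k)) = H0 at *
  generalize ev (c.ip (c.N k) (c.N (k + 1))) = I at *
  generalize √(ev (c.ip (c.N k) (c.N k))) = I0 at *
  have hI1 := Real.sqrt_nonneg (ev (c.ip (c.N (k + 1)) (c.N (k + 1))))
  generalize √(ev (c.ip (c.N (k + 1)) (c.N (k + 1)))) = I1 at *
  have ez := Real.sq_sqrt hz
  have ex := Real.sq_sqrt hx
  have ey := Real.sq_sqrt hy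
  have pz := Real.sqrt_nonneg (ev (c.N k))
  have px := Real.sqrt_nonneg (ev (c.N (k + 1)))
  have py := Real.sqrt_nonneg (ev (c.N (k + 1 + 1)))
  generalize √(ev (c.N k)) = z at *
  generalize √(ev (c.N (k + 1))) = x at *
  generalize √(ev (c.N (k + 1 + 1))) = y at *
  rw [← ez] at hzK
  rw [← ex] at h3
  rw [← ey] at h4
  rw [← ez, ← ex]
  clear e h2 hs h
  have a1 : -I ≤ 2 * z * x * (2 * x * y) :=
    (neg_le_abs I).trans (h5.trans (mul_le_mul h6 h7 hI1 (by positivity)))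
  have a2 : H0 ≤ -2 * x ^ 2 + cS k * K ^ 2 := by
    have : cS k * K * z ≤ cS k * K * K := mul_le_mul_of_nonneg_left hzs (by positivity)
    have := (abs_le.1 h3).2
    nlinarith
  have a3 : H1 ≤ -2 * y ^ 2 + cS (k + 1) * K * (2 * (1 + x ^ 2)) := by
    have : cS (k + 1) * K * (x + x ^ 2) ≤ cS (k + 1) * K * (2 * (1 + x ^ 2)) :=
      mul_le_mul_of_nonneg_left (by nlinarith [sq_nonneg (x - 1)]) (by positivity)
    have := (abs_le.1 h4).2
    nlinarith
  have a4 := mul_le_mul_of_nonneg_left a3 (show 0 ≤ 8 * K + z ^ 2 by positivity)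
  have a5 := mul_le_mul_of_nonneg_left a2 (sq_nonneg x)
  have a6 : (8 * K + z ^ 2) * (cS (k + 1) * K * (2 * (1 + x ^ 2))) ≤
      9 * K * (cS (k + 1) * K * (2 * (1 + x ^ 2))) :=
    mul_le_mul_of_nonneg_right (by linarith) (by positivity)
  have a7 : z ^ 2 * y ^ 2 ≤ K * y ^ 2 := mul_le_mul_of_nonneg_right hzK (sq_nonneg y)
  have a8 : 0 ≤ cS k * K ^ 2 := by positivity
  nlinarith [sq_nonneg (x ^ 2 - 4 * z * y), mul_nonneg (sq_nonneg z) (sq_nonneg y)]

/-- **The Bernstein-Shi estimate** at a maximum point of `ψ * bsq`. -/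
theorem bern {k : ℕ} {K B : ℝ} (hK : 1 ≤ K) (h : ∀ i ≤ k, ev (c.N i) ≤ K) {ψ : A}
    (h0 : 0 < ev ψ) (h1 : ev ψ ≤ B) (h2 : ev (c.ip ψ ψ) ≤ B * ev ψ) (h3 : ev (c.H ψ) ≤ B)
    (hD : ∀ a, ev (c.D a (ψ * c.bsq k K)) = 0) (hH : 0 ≤ ev (c.H (ψ * c.bsq k K))) :
    ev (ψ * c.bsq k K) ≤ cB k K B := by
  have h4 := c.ev_H_bsq ev hK h
  have h5 : ev ψ * ev (c.ip ψ (c.bsq k K)) = -ev (c.bsq k K) * ev (c.ip ψ ψ) := by
    have h0 := hD 0
    have h1 := hD 1
    have h2 := hD 2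
    simp only [der_mul, map_add, map_mul, ip, Fin.sum_univ_three] at h0 h1 h2 ⊢
    linear_combination ev (c.D 0 ψ) * h0 + ev (c.D 1 ψ) * h1 + ev (c.D 2 ψ) * h2
  have h6 := c.ev_bsq ev k K
  have hz := c.ev_N_nonneg ev k
  have hx := c.ev_N_nonneg ev (k + 1)
  have hzK := h k le_rfl
  have hL := cL_nonneg k K
  rw [H_mul] at hH
  simp only [map_sub, map_add, map_mul, map_ofNat] at hH ⊢
  rw [cB]
  generalize ev (c.H (c.bsq k K)) = HF at *
  generalize ev (c.ip ψ (c.bsq k K)) = I at *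
  generalize ev (c.bsq k K) = F at *
  generalize ev (c.ip ψ ψ) = J at *
  generalize ev (c.H ψ) = Hp at *
  generalize ev ψ = p at *
  generalize ev (c.N (k + 1)) = x at *
  generalize ev (c.N k) = z at *
  generalize cL k K = L at *
  have hB : 0 ≤ B := by linarith
  have hF0 : 0 ≤ F := by rw [h6]; positivity
  have hF : F ≤ 9 * K * x := by rw [h6]; exact mul_le_mul_of_nonneg_right (by linarith) hx
  have hpx : 0 ≤ p * x := by positivity
  have a1 : 0 ≤ p * (p * HF + F * Hp - 2 * I) := mul_nonneg h0.le hH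
  have a2 : p ^ 2 * HF ≤ p ^ 2 * (-x ^ 2 + L * (1 + x)) := mul_le_mul_of_nonneg_left h4 (sq_nonneg p)
  have a3 : p * F * Hp ≤ p * F * B := mul_le_mul_of_nonneg_left h3 (by positivity)
  have a4 : F * J ≤ F * (B * p) := mul_le_mul_of_nonneg_left h2 hF0
  have a5 : p * B * F ≤ p * B * (9 * K * x) := mul_le_mul_of_nonneg_left hF (by positivity)
  have a6 : L * p ^ 2 ≤ L * B ^ 2 := mul_le_mul_of_nonneg_left (by nlinarith) hL
  have a7 : L * (p * x) * p ≤ L * (p * x) * B := mul_le_mul_of_nonneg_left h1 (by positivity)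
  have a8 : (p * x) ^ 2 ≤ L * B ^ 2 + (L * B + 27 * K * B) * (p * x) := by nlinarith
  have a9 : p * x ≤ L * B + 27 * K * B + L * B ^ 2 + 1 := by
    by_contra hc
    push Not at hc
    have b1 : 0 ≤ L * B ^ 2 := by positivity
    have b2 : 0 ≤ L * B + 27 * K * B := by positivity
    nlinarith
  calc p * F ≤ p * (9 * K * x) := mul_le_mul_of_nonneg_left hF h0.le
    _ = 9 * K * (p * x) := by ring
    _ ≤ _ := mul_le_mul_of_nonneg_left a9 (by positivity)

/-- the cutoff function `χ (ρ - E)²` -/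
theorem cutoff {χ E : A} {ρ T C : ℝ} (hχ : ∀ a, c.D a χ = 0) (hT : ev χ ≤ T) (hχ0 : 0 < ev χ)
    (hχt : ev (c.Dt χ) ≤ 1) (hE0 : 0 ≤ ev E) (hE : ev E < ρ) (hEi : ev (c.ip E E) ≤ C)
    (hEH : -C ≤ ev (c.H E)) :
    let ψ := χ * (algebraMap ℝ A ρ - E) ^ 2
    let B := T * ρ ^ 2 + 4 * T * C + 2 * T * ρ * C + ρ ^ 2
    0 < ev ψ ∧ ev ψ ≤ B ∧ ev (c.ip ψ ψ) ≤ B * ev ψ ∧ ev (c.H ψ) ≤ B := by
  intro ψ B
  have hJ := c.ev_ip_nonneg ev E
  have e0 : ev ψ = ev χ * (ρ - ev E) ^ 2 := by simp [ψ]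
  have e1 : ev (c.ip ψ ψ) = 4 * ev χ * ev (c.ip E E) * ev ψ := by
    simp only [ψ, ip, Fin.sum_univ_three, der_nf, hχ, map_add, map_mul, map_sub, map_pow,
      map_ofNat, map_zero, AlgHom.commutes]
    ring
  have e2 : ev (c.H ψ) = ev χ * (-2 * (ρ - ev E) * ev (c.H E) - 2 * ev (c.ip E E)) +
      (ρ - ev E) ^ 2 * ev (c.Dt χ) := by
    simp only [ψ]
    rw [c.H_time_mul hχ, H_sq, H_sub, H_alg, ip_sub_left, ip_sub_right, ip_sub_right,
      c.ip_comm E (algebraMap ℝ A ρ)]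
    simp [c.ip_const fun a => der_alg _ ρ, map_ofNat]
  rw [e1, e2, e0]
  simp only [B]
  generalize ev (c.ip E E) = J at *
  generalize ev (c.H E) = HE at *
  generalize ev (c.Dt χ) = s at *
  generalize ev χ = u at *
  generalize ev E = e at *
  have hC : 0 ≤ C := by linarith
  have hT0 : 0 ≤ T := by linarith
  have hρ : 0 ≤ ρ := by linarith
  have hd : 0 < ρ - e := by linarith
  have a1 : (ρ - e) ^ 2 ≤ ρ ^ 2 := by nlinarith
  have a2 : u * (ρ - e) ^ 2 ≤ T * ρ ^ 2 := mul_le_mul hT a1 (sq_nonneg _) hT0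
  have a3 : u * J ≤ T * C := mul_le_mul hT hEi hJ hT0
  have a4 : u * (ρ - e) ≤ T * ρ := mul_le_mul hT (by linarith) hd.le hT0
  have a5 : u * (ρ - e) * -HE ≤ u * (ρ - e) * C :=
    mul_le_mul_of_nonneg_left (by linarith) (by positivity)
  have a6 : u * (ρ - e) * C ≤ T * ρ * C := mul_le_mul_of_nonneg_right a4 hC
  have a7 : (ρ - e) ^ 2 * s ≤ (ρ - e) ^ 2 * 1 := mul_le_mul_of_nonneg_left hχt (sq_nonneg _)
  have b1 : 0 ≤ T * ρ ^ 2 := by positivity
  have b2 : 0 ≤ T * C := by positivity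
  have b3 : 0 ≤ T * ρ * C := by positivity
  have b4 : 0 ≤ u * J := by positivity
  refine ⟨by positivity, by nlinarith, mul_le_mul_of_nonneg_right (by nlinarith) (by positivity),
    by nlinarith⟩

end RF

end Vale.Agent.P216D
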