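import Vale.Agent.P216D.NF

/-! # Laplacian, gradient, commutators, Bochner formula -/

set_option linter.unusedSimpArgs false

namespace Vale.Agent.P216D

variable {A : Type*} [CommRing A] [Algebra ℝ A]

namespace Fr

variable (c : Fr A)

lemma Lap_add (x y : A) : c.Lap (x + y) = c.Lap x + c.Lap y := by
  simp only [Lap, map_add, Finset.sum_add_distrib]

lemma Lap_smul (r : ℝ) (x : A) : c.Lap (r • x) = r • c.Lap x := by
  simp only [Lap, Derivation.map_smul, Finset.smul_sum]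

/-- the Laplacian as a linear map -/
def LapL : A →ₗ[ℝ] A where
  toFun := c.Lap
  map_add' := c.Lap_add
  map_smul' := c.Lap_smul

lemma LapL_apply (x : A) : c.LapL x = c.Lap x := rfl

lemma Lap_sub (x y : A) : c.Lap (x - y) = c.Lap x - c.Lap y := map_sub c.LapL x y
lemma Lap_neg (x : A) : c.Lap (-x) = -c.Lap x := map_neg c.LapL x
lemma Lap_zero : c.Lap 0 = 0 := map_zero c.LapL
lemma Lap_zsmul (n : ℤ) (x : A) : c.Lap (n • x) = n • c.Lap x := map_zsmul c.LapL n x

lemma Lap_sum {ι : Type*} (s : Finset ι) (x : ι → A) :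
    c.Lap (∑ i ∈ s, x i) = ∑ i ∈ s, c.Lap (x i) := map_sum c.LapL x s

lemma Lap_const {x : A} (h : ∀ a, c.D a x = 0) : c.Lap x = 0 := by simp [Lap, h]

lemma Lap_mul (x y : A) : c.Lap (x * y) = x * c.Lap y + y * c.Lap x + 2 * c.ip x y := by
  simp only [Lap, ip, Fin.sum_univ_three, der_nf]
  ring

lemma Lap_sq (x : A) : c.Lap (x ^ 2) = 2 * x * c.Lap x + 2 * c.ip x x := by
  rw [sq, Lap_mul]; ring

lemma ip_comm (x y : A) : c.ip x y = c.ip y x := by simp only [ip, mul_comm]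

lemma ip_add_left (x y z : A) : c.ip (x + y) z = c.ip x z + c.ip y z := by
  simp only [ip, Fin.sum_univ_three, der_nf]; ring

lemma ip_add_right (x y z : A) : c.ip x (y + z) = c.ip x y + c.ip x z := by
  simp only [ip, Fin.sum_univ_three, der_nf]; ring

lemma ip_sub_left (x y z : A) : c.ip (x - y) z = c.ip x z - c.ip y z := by
  simp only [ip, Fin.sum_univ_three, der_nf]; ring

lemma ip_sub_right (x y z : A) : c.ip x (y - z) = c.ip x y - c.ip x z := by
  simp only [ip, Fin.sum_univ_three, der_nf]; ring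

lemma ip_neg_left (x y : A) : c.ip (-x) y = -c.ip x y := by
  simp only [ip, Fin.sum_univ_three, der_nf]; ring

lemma ip_neg_right (x y : A) : c.ip x (-y) = -c.ip x y := by
  simp only [ip, Fin.sum_univ_three, der_nf]; ring

lemma ip_mul_left (x y z : A) : c.ip (x * y) z = x * c.ip y z + y * c.ip x z := by
  simp only [ip, Fin.sum_univ_three, der_nf]; ring

lemma ip_mul_right (x y z : A) : c.ip x (y * z) = y * c.ip x z + z * c.ip x y := by
  simp only [ip, Fin.sum_univ_three, der_nf]; ring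

lemma ip_const {x : A} (h : ∀ a, c.D a x = 0) (y : A) : c.ip x y = 0 := by simp [ip, h]

lemma ip_self (x : A) : c.ip x x = ∑ a, c.D a x ^ 2 := by simp only [ip, sq]

/-- the vertical fields commute with the Laplacian -/
lemma V_Lap (a : Fin 3) (x : A) : c.V a (c.Lap x) = c.Lap (c.V a x) := by
  revert a
  refine all3 ?_ ?_ ?_ <;>
  · simp only [Lap, Fin.sum_univ_three, der_nf, VD00, VD01, VD02, VD10, VD11, VD12, VD20, VD21,
      VD22]
    ring

lemma V_ip (a : Fin 3) (x y : A) : c.V a (c.ip x y) = c.ip (c.V a x) y + c.ip x (c.V a y) := by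
  revert a
  refine all3 ?_ ?_ ?_ <;>
  · simp only [ip, Fin.sum_univ_three, der_nf, VD00, VD01, VD02, VD10, VD11, VD12, VD20, VD21,
      VD22]
    ring

/-- the Ricci tensor is a tensor -/
lemma VRic (a b d : Fin 3) :
    c.V a (c.Ric b d) = ∑ e, eps a b e • c.Ric e d + ∑ e, eps a d e • c.Ric b e := by
  revert a b d
  refine all3 (all3 (all3 ?_ ?_ ?_) (all3 ?_ ?_ ?_) (all3 ?_ ?_ ?_))
    (all3 (all3 ?_ ?_ ?_) (all3 ?_ ?_ ?_) (all3 ?_ ?_ ?_))
    (all3 (all3 ?_ ?_ ?_) (all3 ?_ ?_ ?_) (all3 ?_ ?_ ?_)) <;>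
  · simp only [Fin.sum_univ_three, eps_nf, zs_nf, der_nf, c.nfM]
    ring

/-- the contracted Bianchi identity -/
lemma div_Ric (b : Fin 3) : ∑ a, c.D a (c.Ric a b) = c.D b c.S := by
  revert b
  refine all3 ?_ ?_ ?_ <;>
  · simp only [Fin.sum_univ_three, der_nf, c.nfM]
    ring

lemma tr_Ric : ∑ a, c.Ric a a = 2 * c.S := by
  simp only [Fin.sum_univ_three, c.nfM]
  ring

lemma M_eq (a b : Fin 3) : c.M a b = dl a b • c.S - c.Ric a b := by
  rw [Ric]; ring

/-- the commutator of the Laplacian with a horizontal field -/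
lemma Lap_D (a : Fin 3) (x : A) : c.Lap (c.D a x) = c.D a (c.Lap x) +
    ∑ b, c.Ric a b * c.D b x - ∑ b, ∑ e, eps a b e • ∑ d, c.D b (c.M e d) * c.V d x -
    2 * ∑ b, ∑ e, eps a b e • ∑ d, c.M e d * c.D b (c.V d x) := by
  revert a
  refine all3 ?_ ?_ ?_ <;>
  · simp only [Lap, Fin.sum_univ_three, eps_nf, zs_nf, der_nf, c.nfD, c.nfM]
    ring

/-- functions on the base: elements killed by the vertical fields -/
def Inv (f : A) : Prop := ∀ a, c.V a f = 0

variable {c} {f h : A}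

lemma Inv.const {f : A} (hf : ∀ X : Derivation ℝ A A, X f = 0) : c.Inv f := fun _ => hf _
lemma inv_alg (r : ℝ) : c.Inv (algebraMap ℝ A r) := fun _ => der_alg _ r
lemma inv_zero : c.Inv 0 := fun _ => map_zero _
lemma inv_one : c.Inv 1 := fun _ => Derivation.map_one_eq_zero _
lemma inv_ofNat (n : ℕ) [n.AtLeastTwo] : c.Inv (ofNat(n) : A) := fun _ => der_ofNat _ n
lemma inv_S : c.Inv c.S := c.VS

lemma Inv.add (hf : c.Inv f) (hh : c.Inv h) : c.Inv (f + h) := fun a => by
  rw [map_add, hf a, hh a, add_zero]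

lemma Inv.sub (hf : c.Inv f) (hh : c.Inv h) : c.Inv (f - h) := fun a => by
  rw [map_sub, hf a, hh a, sub_zero]

lemma Inv.neg (hf : c.Inv f) : c.Inv (-f) := fun a => by rw [map_neg, hf a, neg_zero]

lemma Inv.mul (hf : c.Inv f) (hh : c.Inv h) : c.Inv (f * h) := fun a => by
  rw [der_mul, hf a, hh a]; ring

lemma Inv.smul (hf : c.Inv f) (r : ℝ) : c.Inv (r • f) := fun a => by
  rw [Derivation.map_smul, hf a, smul_zero]

lemma Inv.pow (hf : c.Inv f) (n : ℕ) : c.Inv (f ^ n) := fun a => by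
  rw [Derivation.leibniz_pow, hf a]; simp

lemma Inv.sum {ι : Type*} {s : Finset ι} {x : ι → A} (hx : ∀ i ∈ s, c.Inv (x i)) :
    c.Inv (∑ i ∈ s, x i) := fun a => by
  rw [map_sum]
  exact Finset.sum_eq_zero fun i hi => hx i hi a

lemma Inv.lap (hf : c.Inv f) : c.Inv (c.Lap f) := fun a => by rw [V_Lap, hf a, Lap_zero]

lemma Inv.ip (hf : c.Inv f) (hh : c.Inv h) : c.Inv (c.ip f h) := fun a => by
  rw [V_ip, hf a, hh a]; simp [Fr.ip]

/-- the Hessian of a function is symmetric -/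
lemma Inv.hess_symm (hf : c.Inv f) (a b : Fin 3) : c.D a (c.D b f) = c.D b (c.D a f) := by
  rw [c.DD]; simp [hf _]

/-- the gradient of a function is a tensor -/
lemma Inv.VD (hf : c.Inv f) (a b : Fin 3) : c.V a (c.D b f) = ∑ e, eps a b e • c.D e f := by
  rw [c.VD, hf a, map_zero, zero_add]

lemma Inv.Lap_D (hf : c.Inv f) (a : Fin 3) :
    c.Lap (c.D a f) = c.D a (c.Lap f) + ∑ b, c.Ric a b * c.D b f := by
  rw [c.Lap_D]; simp [hf _]

variable (c) in
/-- the squared norm of the Hessian -/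
def hsq (f : A) : A := ∑ a, ∑ b, c.D a (c.D b f) ^ 2

variable (c) in
/-- the Ricci tensor applied to two gradients -/
def rip (f h : A) : A := ∑ a, ∑ b, c.Ric a b * (c.D a f * c.D b h)

variable (c) in
/-- the contraction of the Ricci tensor with the Hessian -/
def rhs (f : A) : A := ∑ a, ∑ b, c.Ric a b * c.D a (c.D b f)

variable (c) in
/-- the squared norm of the Ricci tensor -/
def rsq : A := ∑ a, ∑ b, c.Ric a b ^ 2

lemma Inv.hsq (hf : c.Inv f) : c.Inv (c.hsq f) := by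
  refine all3 ?_ ?_ ?_ <;>
  · simp only [Fr.hsq, Fin.sum_univ_three, der_nf, hf _, c.nfD, mul_zero]
    ring

lemma Inv.rip (hf : c.Inv f) (hh : c.Inv h) : c.Inv (c.rip f h) := by
  refine all3 ?_ ?_ ?_ <;>
  · simp only [Fr.rip, Fin.sum_univ_three, der_nf, hf _, hh _, c.nfD, c.nfM]
    ring

lemma Inv.rhs (hf : c.Inv f) : c.Inv (c.rhs f) := by
  refine all3 ?_ ?_ ?_ <;>
  · simp only [Fr.rhs, Fin.sum_univ_three, der_nf, hf _, c.nfD, c.nfM]
    ring

lemma inv_rsq : c.Inv c.rsq := by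
  refine all3 ?_ ?_ ?_ <;>
  · simp only [Fr.rsq, Fin.sum_univ_three, der_nf, c.nfM]
    ring

lemma inv_N0 : c.Inv c.N0 := by
  refine all3 ?_ ?_ ?_ <;>
  · simp only [Fr.N0, Fin.sum_univ_three, der_nf, c.nfM]
    ring

variable (c) in
lemma rsq_eq : c.rsq = c.S ^ 2 + c.N0 := by
  simp only [Fr.rsq, N0, Fin.sum_univ_three, c.nfM]
  ring

/-- **The Bochner formula.** -/
theorem Inv.bochner (hf : c.Inv f) (hh : c.Inv h) : c.Lap (c.ip f h) =
    2 * ∑ a, ∑ b, c.D a (c.D b f) * c.D a (c.D b h) + c.ip f (c.Lap h) + c.ip h (c.Lap f) +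
    2 * c.rip f h := by
  simp only [Fr.rip, Fr.ip, Lap, Fin.sum_univ_three, der_nf, hf _, hh _, c.nfD, c.nfM]
  ring

theorem Inv.bochner_self (hf : c.Inv f) :
    c.Lap (c.ip f f) = 2 * c.hsq f + 2 * c.ip f (c.Lap f) + 2 * c.rip f f := by
  rw [hf.bochner hf]
  simp only [Fr.hsq, sq]
  ring

end Fr

end Vale.Agent.P216D
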