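import Vale.Agent.P216ST.Stmt2
import Vale.Agent.P216R.Flow
import Vale.Agent.P216BF.Curv

/-! # The Ricci-DeTurck operator: principal part, naturality -/

open scoped Manifold ContDiff Topology
open Set Filter

set_option maxSynthPendingDepth 3
set_option linter.unusedSectionVars false

noncomputable section

namespace Vale.Agent.P216D

open Vale.Agent.P216R Vale.Agent.P219.RG Vale.Agent.P216ST Vale.Agent.P216BF

variable {E : Type} [NormedAddCommGroup E] [NormedSpace ℝ E] [FiniteDimensional ℝ E]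

/-- vector valued bilinear maps -/
abbrev BV (E : Type) [NormedAddCommGroup E] [NormedSpace ℝ E] : Type := E →L[ℝ] E →L[ℝ] E

/-- the trace with respect to `A` as a linear form -/
def trA (A : Bil E) : Bil E →L[ℝ] ℝ :=
  trL E ∘L ContinuousLinearMap.compL ℝ E (E →L[ℝ] ℝ) E A.inverse

lemma trA_apply (A B : Bil E) : trA A B = trB A B := rfl

/-- a component of a vector valued bilinear map -/
def cmp (l : E →L[ℝ] ℝ) : BV E →L[ℝ] Bil E :=
  ContinuousLinearMap.compL ℝ E (E →L[ℝ] E) (E →L[ℝ] ℝ) (ContinuousLinearMap.compL ℝ E E ℝ l)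

/-- the trace of a vector valued bilinear map -/
def trV (A : Bil E) : BV E →L[ℝ] E :=
  ∑ i, (trA A ∘L cmp (LinearMap.toContinuousLinearMap ((Module.finBasis ℝ E).coord i))).smulRight
    (Module.finBasis ℝ E i)

lemma sm_trA {A : Bil E} (h : ∀ v, v ≠ 0 → 0 < A v v) : ContDiffAt ℝ ∞ trA A := by
  have : CompleteSpace E := FiniteDimensional.complete ℝ E
  exact contDiffAt_const.clm_comp ((ContinuousLinearMap.compL ℝ E (E →L[ℝ] ℝ) E
    ).contDiff.contDiffAt.comp A (isInv h).contDiffAt_map_inverse)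

lemma sm_trV {A : Bil E} (h : ∀ v, v ≠ 0 → 0 < A v v) : ContDiffAt ℝ ∞ trV A :=
  ContDiffAt.sum fun _ _ => ((sm_trA h).clm_comp contDiffAt_const).smulRight contDiffAt_const

lemma trV_onb {A : Bil E} {ι : Type} [Fintype ι] [DecidableEq ι] {e : ι → E} (h : ONB A e)
    (hA : PD A) (T : BV E) : trV A T = ∑ i, T (e i) (e i) := by
  rw [← (Module.finBasis ℝ E).sum_repr (∑ i, T (e i) (e i))]
  simp [trV, trA_apply, h.trB hA, cmp]

/-- the DeTurck vector field for the background connection `Γ` -/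
def dW' (Γ : E → BV E) (G : E → Bil E) (y : E) : E := trV (G y) (chrisB G y - Γ y)

/-- the Ricci-DeTurck operator for the background connection `Γ` -/
def rdt' (Γ : E → BV E) (G : E → Bil E) (y : E) : Bil E :=
  (-2 : ℝ) • ricG G y + lie G (dW' Γ G) y

/-- the DeTurck vector field -/
abbrev dW (G₀ G : E → Bil E) : E → E := dW' (chrisB G₀) G

/-- the Ricci-DeTurck operator -/
abbrev rdt (G₀ G : E → Bil E) : E → Bil E := rdt' (chrisB G₀) G

/-- the lower order part -/
def Phi (p : (BV E × (E →L[ℝ] BV E)) × (Bil E × (E →L[ℝ] Bil E))) : Bil E :=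
  rdt' (fun z => p.1.1 + p.1.2 z) (fun z => p.2.1 + p.2.2 z) 0

section PS

variable {F : Type} [NormedAddCommGroup F] [NormedSpace ℝ F] {Γ : F → E → BV E}
  {G : F → E → Bil E} {W : F → E → E} {s : Set F} {p : F} {y : E}

lemma ps_dW (hΓ : PS Γ s p y) (h : PS G s p y) (hp : p ∈ s) (hpos : ∀ v, v ≠ 0 → 0 < G p y v v) :
    PS (fun q => dW' (Γ q) (G q)) s p y :=
  ContDiffWithinAt.clm_apply (f := fun q : F × E => trV (G q.1 q.2))
    (ContDiffAt.comp_contDiffWithinAt (g := trV) (p, y) (sm_trV hpos) h)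
    ((h.chrisB hp hpos).sub hΓ)

lemma ps_lie (h : PS G s p y) (hW : PS W s p y) (hp : p ∈ s) :
    PS (fun q => lie (G q) (W q)) s p y :=
  (((h.fderiv hp).clm_apply hW).add (h.clm_comp (hW.fderiv hp))).add
    (cdw_flip ((cdw_flip h).clm_comp (hW.fderiv hp)))

lemma ps_rdt (hΓ : PS Γ s p y) (h : PS G s p y) (hp : p ∈ s) (hpos : ∀ v, v ≠ 0 → 0 < G p y v v) :
    PS (fun q => rdt' (Γ q) (G q)) s p y := by
  have h1 := (h.ricG hp hpos).const_smul (-2 : ℝ)
  have h2 := ps_lie (W := fun q => dW' (Γ q) (G q)) h (ps_dW hΓ h hp hpos) hp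
  exact h1.add h2

end PS

lemma sm_Phi {p : (BV E × (E →L[ℝ] BV E)) × (Bil E × (E →L[ℝ] Bil E))}
    (h : ∀ v, v ≠ 0 → 0 < p.2.1 v v) : ContDiffAt ℝ ∞ Phi p := by
  have h1 := ps_rdt (Γ := fun p : (BV E × (E →L[ℝ] BV E)) × (Bil E × (E →L[ℝ] Bil E)) =>
    fun z => p.1.1 + p.1.2 z) (G := fun p z => p.2.1 + p.2.2 z) (s := univ) (p := p) (y := 0)
    (ContDiff.contDiffWithinAt (by fun_prop)) (ContDiff.contDiffWithinAt (by fun_prop))
    (mem_univ _) (by simpa using h)
  rw [PS, univ_prod_univ, contDiffWithinAt_univ] at h1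
  exact ContDiffAt.comp p (f := fun q => (q, (0 : E))) h1 (by fun_prop)

/-- the Koszul combination -/
def kos (v w : E) : (E →L[ℝ] Bil E) →L[ℝ] E →L[ℝ] ℝ :=
  LinearMap.toContinuousLinearMap
    { toFun := fun B => (1 / 2 : ℝ) • (B v w + B w v - (B.flip v).flip w)
      map_add' := fun B C => by ext; simp; ring
      map_smul' := fun c B => by ext; simp; ring }

lemma kos_apply (v w x : E) (B : E →L[ℝ] Bil E) :
    kos v w B x = (B v w x + B w v x - B x v w) / 2 := by
  simp [kos]; ring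

variable {G H : E → Bil E} {Γ : E → BV E} {y : E}

lemma sm_chrisB (hG : ContDiffAt ℝ ∞ G y) (hp : ∀ v, v ≠ 0 → 0 < G y v v) :
    ContDiffAt ℝ ∞ (chrisB G) y :=
  ((ps_const hG (univ : Set ℝ) 0).chrisB (mem_univ _) hp).contDiffAt (mem_univ _)

lemma d_chris (hG : ContDiffAt ℝ ∞ G y) (hp : ∀ v, v ≠ 0 → 0 < G y v v) (u v w : E) :
    fderiv ℝ (chrisB G) y u v w =
      fderiv ℝ ContinuousLinearMap.inverse (G y) (fderiv ℝ G y u) (kos v w (fderiv ℝ G y)) +
        (G y).inverse (kos v w (fderiv ℝ (fderiv ℝ G) y u)) := by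
  have : CompleteSpace E := FiniteDimensional.complete ℝ E
  have h1 := (((sm_chrisB hG hp).differentiableAt (by simp)).hasFDerivAt.clm_apply
    (hasFDerivAt_const v y)).clm_apply (hasFDerivAt_const w y)
  have h2 := ((((isInv hp).contDiffAt_map_inverse (n := 1)).differentiableAt
    one_ne_zero).hasFDerivAt.comp y (hG.differentiableAt (by simp)).hasFDerivAt).clm_apply
    ((kos v w).hasFDerivAt.comp y
      ((hG.fderiv_right (m := ∞) (by simp)).differentiableAt (by simp)).hasFDerivAt)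
  have h3 := DFunLike.congr_fun (h1.unique h2) u
  simpa [add_comm] using h3

lemma d_dW (hG : ContDiffAt ℝ ∞ G y) (hp : ∀ v, v ≠ 0 → 0 < G y v v)
    (hΓ : DifferentiableAt ℝ Γ y) (u : E) : fderiv ℝ (dW' Γ G) y u =
      trV (G y) (fderiv ℝ (chrisB G) y u - fderiv ℝ Γ y u) +
        fderiv ℝ trV (G y) (fderiv ℝ G y u) (chrisB G y - Γ y) := by
  have h2 := (((sm_trV hp).differentiableAt (by simp)).hasFDerivAt.comp y
    (hG.differentiableAt (by simp)).hasFDerivAt).clm_apply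
    (((sm_chrisB hG hp).differentiableAt (by simp)).hasFDerivAt.sub hΓ.hasFDerivAt)
  exact (DFunLike.congr_fun h2.fderiv u).trans (by simp)

lemma d2_apply (hG : ContDiffAt ℝ ∞ G y) (v w a b : E) :
    fderiv ℝ (fderiv ℝ fun z => G z v w) y a b = fderiv ℝ (fderiv ℝ G) y a b v w := by
  let l : Bil E →L[ℝ] ℝ := ContinuousLinearMap.apply ℝ ℝ w ∘L ContinuousLinearMap.apply ℝ _ v
  have h1 : (fderiv ℝ fun z => G z v w) =ᶠ[𝓝 y] fun z => l ∘L fderiv ℝ G z :=
    ((hG.of_le (m := 1) (by simp)).eventually (by simp)).mono fun z hz =>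
      (l.hasFDerivAt.comp z (hz.differentiableAt one_ne_zero).hasFDerivAt).fderiv
  rw [h1.fderiv_eq, ((hasFDerivAt_const l y).clm_comp
    ((hG.fderiv_right (m := ∞) (by simp)).differentiableAt (by simp)).hasFDerivAt).fderiv]
  simp [l]

lemma curvB_def (G : E → Bil E) (y x v w : E) : curvB G y x v w =
    fderiv ℝ (chrisB G) y x v w - fderiv ℝ (chrisB G) y v x w +
      (chrisB G y x (chrisB G y v w) - chrisB G y v (chrisB G y x w)) := by
  simp [curvB]
  abel

/-- **The principal part of the Ricci-DeTurck operator** -/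
theorem rdt_eq (hG : ContDiffAt ℝ ∞ G y) (hp : ∀ v, v ≠ 0 → 0 < G y v v)
    (hs : ∀ᶠ z in 𝓝 y, ∀ v w, G z v w = G z w v) (hΓ : DifferentiableAt ℝ Γ y) (v w : E) :
    rdt' Γ G y v w = trB (G y) (fderiv ℝ (fderiv ℝ fun z => G z v w) y) +
      Phi ((Γ y, fderiv ℝ Γ y), (G y, fderiv ℝ G y)) v w := by
  have hA : PD (G y) := ⟨hs.self_of_nhds, hp⟩
  obtain ⟨e, he⟩ := hA.exists_onb
  set K : E → Bil E := fun z => G y + fderiv ℝ G y z with hK
  set Δ : E → BV E := fun z => Γ y + fderiv ℝ Γ y z with hΔ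
  have k0 : K 0 = G y := by simp [hK]
  have k1 : fderiv ℝ K = fun _ => fderiv ℝ G y :=
    funext fun z => ((fderiv ℝ G y).hasFDerivAt.const_add _).fderiv
  have k2 : ContDiffAt ℝ ∞ K 0 := by simp only [hK]; fun_prop
  have l0 : Δ 0 = Γ y := by simp [hΔ]
  have l1 : HasFDerivAt Δ (fderiv ℝ Γ y) 0 := (fderiv ℝ Γ y).hasFDerivAt.const_add _
  have h1 : chrisB K 0 = chrisB G y := by simp only [chrisB, k0, k1]
  obtain ⟨Λ, hΛ⟩ : ∃ Λ, fderiv ℝ (chrisB G) y = fderiv ℝ (chrisB K) 0 + Λ :=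
    ⟨_, (add_sub_cancel _ _).symm⟩
  have h2 : ∀ u v w x, G y (Λ u v w) x = (fderiv ℝ (fderiv ℝ G) y u v w x +
      fderiv ℝ (fderiv ℝ G) y u w v x - fderiv ℝ (fderiv ℝ G) y u x v w) / 2 := fun u v w x => by
    have a1 := d_chris hG hp u v w
    rw [hΛ, add_apply, add_apply, add_apply, d_chris k2 (k0 ▸ hp), k0, k1] at a1
    simp only [fderiv_fun_const, Pi.zero_apply, zero_apply, map_zero, add_zero,
      add_right_inj] at a1
    rw [a1, app_inverse hp, kos_apply]
  have h3 : dW' Δ K 0 = dW' Γ G y := by simp only [dW', k0, h1, l0]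
  have h4 : ∀ u, fderiv ℝ (dW' Γ G) y u = fderiv ℝ (dW' Δ K) 0 u + ∑ i, Λ u (e i) (e i) :=
    fun u => by
      rw [d_dW hG hp hΓ, d_dW k2 (k0 ▸ hp) l1.differentiableAt, k0, k1, h1, l0, l1.fderiv, hΛ,
        ← trV_onb he hA]
      simp only [add_apply, map_add, map_sub]
      abel
  have s1 : ∀ a b, fderiv ℝ (fderiv ℝ G) y a b = fderiv ℝ (fderiv ℝ G) y b a :=
    hG.isSymmSndFDerivAt (by simpa only [minSmoothness_of_isRCLikeNormedField] using two_le_infty)
  have s2 : ∀ a b v w, fderiv ℝ (fderiv ℝ G) y a b v w = fderiv ℝ (fderiv ℝ G) y a b w v :=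
    fun a b v w => by
      rw [← d2_apply hG, ← d2_apply hG, (EventuallyEq.fderiv (f₁ := fun z => G z v w)
        (f := fun z => G z w v) (hs.mono fun z hz => hz v w)).fderiv_eq]
  change _ = _ + rdt' Δ K 0 v w
  simp only [rdt', add_apply, smul_apply, lie_apply, ricG_apply, he.trL, he.trB hA, d2_apply hG,
    ContinuousLinearMap.flip_apply, curvB_def, h1, h3, h4, k0, k1, hΛ, map_add, map_sub, sub_apply,
    map_sum, sum_apply, hA.symm v, h2, smul_eq_mul, Finset.sum_add_distrib,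
    Finset.sum_sub_distrib, ← Finset.sum_div, fun i => s1 (e i) v, fun i => s1 (e i) w, s1 w v,
    fun a b i => s2 a b (e i) v, fun a b i => s2 a b (e i) w]
  ring

section Nat

variable {G₀ H₀ : E → Bil E} {τ : E → E} {u : E}

lemma dW_iso (h : Iso G H τ u) (h₀ : Iso G₀ H₀ τ u) :
    fderiv ℝ τ u (dW G₀ G u) = dW H₀ H (τ u) := by
  obtain ⟨U, V, h1, h2, h3, h4⟩ := h.met
  have hA : PD (G u) := ⟨h1.symm u h3, h1.pos u h3⟩
  obtain ⟨e, he⟩ := hA.exists_onb
  have he' : ONB (H (τ u)) fun i => fderiv ℝ τ u (e i) :=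
    ⟨he.card, fun i j => by rw [h.iso'.self_of_nhds, he.on]⟩
  simp [dW', trV_onb he hA, trV_onb he' ⟨h2.symm _ h4, h2.pos _ h4⟩, chrisB_apply, h.chris,
    h₀.chris, Finset.sum_add_distrib]

lemma lie_iso (h : Iso G H τ u) {W W' : E → E} (hW : DifferentiableAt ℝ W u)
    (hW' : DifferentiableAt ℝ W' (τ u)) (e : ∀ᶠ x in 𝓝 u, fderiv ℝ τ x (W x) = W' (τ x)) :
    lie G W u = (lie H W' (τ u)).bilinearComp (fderiv ℝ τ u) (fderiv ℝ τ u) := by
  obtain ⟨U, V, h1, h2, h3, h4⟩ := h.met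
  have d0 : HasFDerivAt τ (fderiv ℝ τ u) u := (h.cd.differentiableAt (by simp)).hasFDerivAt
  have d1 : HasFDerivAt (fderiv ℝ τ) (fderiv ℝ (fderiv ℝ τ) u) u :=
    ((h.cd.fderiv_right (m := ∞) (by simp)).differentiableAt (by simp)).hasFDerivAt
  have s1 : ∀ a b, fderiv ℝ (fderiv ℝ τ) u a b = fderiv ℝ (fderiv ℝ τ) u b a :=
    h.cd.isSymmSndFDerivAt (by simpa only [minSmoothness_of_isRCLikeNormedField] using two_le_infty)
  have a1 := fun v => DFunLike.congr_fun (((d1.clm_apply hW.hasFDerivAt).congr_of_eventuallyEq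
    (e.mono fun _ a => a.symm)).unique (hW'.hasFDerivAt.comp u d0)) v
  ext v w
  have a2 := DFunLike.congr_fun ((((((h2.differentiableAt h4).hasFDerivAt.comp u d0).clm_apply
    (d1.clm_apply (hasFDerivAt_const v u))).clm_apply
    (d1.clm_apply (hasFDerivAt_const w u))).congr_of_eventuallyEq
    (h.iso'.mono fun _ a => (a v w).symm)).unique
    (((h1.differentiableAt h3).hasFDerivAt.clm_apply (hasFDerivAt_const v u)).clm_apply
      (hasFDerivAt_const w u))) (W u)
  simp only [add_apply, ContinuousLinearMap.comp_apply, ContinuousLinearMap.flip_apply,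
    Function.comp_apply, zero_apply, map_zero, zero_add] at a1 a2
  simp only [ContinuousLinearMap.bilinearComp_apply, lie_apply, ← a1, ← a2, ← e.self_of_nhds,
    ← h.iso'.self_of_nhds, map_add, add_apply, s1 (W u)]
  ring

lemma rdt_iso (h : Iso G H τ u) (h₀ : Iso G₀ H₀ τ u) :
    rdt G₀ G u = (rdt H₀ H (τ u)).bilinearComp (fderiv ℝ τ u) (fderiv ℝ τ u) := by
  obtain ⟨U, V, h1, h2, h3, h4⟩ := h.met
  obtain ⟨U₀, V₀, k1, k2, k3, k4⟩ := h₀.met
  have a : ∀ {G G₀ : E → Bil E} {U U₀ y}, IsMetricOn G U → IsMetricOn G₀ U₀ → y ∈ U → y ∈ U₀ →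
      DifferentiableAt ℝ (dW G₀ G) y := fun a b c d =>
    ((ps_dW (ps_const (b.contDiffAt_chrisB d) (univ : Set ℝ) 0) (ps_const (a.contDiffAt c) _ _)
      (mem_univ _) (a.pos _ c)).contDiffAt (mem_univ _)).differentiableAt (by simp)
  rw [rdt, rdt', lie_iso h (a h1 k1 h3 k3) (a h2 k2 h4 k4)
    ((h.eventually.and h₀.eventually).mono fun _ b => dW_iso b.1 b.2), h.ricG]
  ext v w
  simp [rdt']

end Nat

lemma rdt_symm {U : Set E} (h : IsMetricOn G U) (hy : y ∈ U) (v w : E) :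
    rdt' Γ G y v w = rdt' Γ G y w v := by
  have := ric_symm (met_model.2 h) hy v w
  rw [Ric_model] at this
  simp only [rdt', add_apply, smul_apply, lie_apply, this, h.fderiv_symm hy _ v w, h.symm y hy v,
    h.symm y hy w]
  ring

variable {M : Type} [TopologicalSpace M] [ChartedSpace E M] [IsManifold 𝓘(ℝ, E) ∞ M]
  {g g₀ : Ten E M} {U : Set M}

lemma iso_trn (hg : Met g U) {a b : M} (hy : y ∈ dom E a U)
    (hb : (chartAt E a).symm y ∈ (chartAt E b).source) : Iso (co g a) (co g b) (trn E a b) y := by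
  have := (li_comap hg (ld_id isOpen_univ) (mem_univ _) hy.2).iso_chart
    ((chartAt E a).map_target hy.1) hb
  rwa [P216R.comap_id, show chartAt E a ((chartAt E a).symm.toPartialEquiv y) = y from
    (chartAt E a).right_inv hy.1] at this

/-- the Ricci-DeTurck operator on a manifold -/
def RDT (g₀ g : Ten E M) : Ten E M := fun x => rdt (co g₀ x) (co g x) (pt E x)

lemma co_RDT (hg₀ : Met g₀ U) (hg : Met g U) {a : M} (hy : y ∈ dom E a U) :
    co (RDT g₀ g) a y = rdt (co g₀ a) (co g a) y := by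
  have hb := mem_chart_source E ((chartAt E a).symm y)
  have e : fderiv ℝ (trn E a ((chartAt E a).symm y)) y = md E (chartAt E a).symm y := by
    rw [← md_model]
    refine (md_comp (sm_chart hb).md (sm_symm hy.1).md).trans ?_
    rw [md_chart_self, ContinuousLinearMap.id_comp]
  rw [rdt_iso (iso_trn hg hy hb) (iso_trn hg₀ hy hb), e]
  rfl

theorem vf_dW {g : ℝ → Ten E M} {I : Set ℝ} (hg₀ : Met g₀ U) (hg : Fam g I U) :
    VF (fun a t => dW (co g₀ a) (co (g t) a)) I U :=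
  ⟨fun a => contDiffOn_of_ps (f := fun t => dW (co g₀ a) (co (g t) a)) fun _ ht _ hy =>
    ps_dW (ps_const ((hg₀.isMetricOn a).contDiffAt_chrisB hy) _ _) (hg.ps ht hy) ht
      (hg.co_pos ht hy),
    fun _ _ _ ht _ hy hb => dW_iso (iso_trn (hg.met ht) hy hb) (iso_trn hg₀ hy hb)⟩

end Vale.Agent.P216D
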