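import Vale.Agent.P216D.Alg

/-! # Evolution equations on the frame bundle -/

set_option linter.unusedSimpArgs false

namespace Vale.Agent.P216D

variable {A : Type*} [CommRing A] [Algebra ℝ A]

namespace Fl

open Fr

variable (c : Fl A)

lemma K10 : c.K 1 0 = c.K 0 1 := c.K_symm 1 0
lemma K20 : c.K 2 0 = c.K 0 2 := c.K_symm 2 0
lemma K21 : c.K 2 1 = c.K 1 2 := c.K_symm 2 1

lemma tD' (a : Fin 3) (x : A) : c.Dt (c.D a x) = c.D a (c.Dt x) +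
    (c.K a 0 * c.D 0 x + c.K a 1 * c.D 1 x + c.K a 2 * c.D 2 x) +
    (c.T a 0 * c.V 0 x + c.T a 1 * c.V 1 x + c.T a 2 * c.V 2 x) := by
  simpa only [Fin.sum_univ_three] using c.tD a x

lemma jacK00 : (c.V 0 (c.K 0 0) - (0) = 0 ∧
    c.V 0 (c.K 0 1) - (c.K 0 2) = 0 ∧
    c.V 0 (c.K 0 2) - (-c.K 0 1) = 0) ∧
    c.V 0 (c.T 0 0) - (0) = 0 ∧
    c.V 0 (c.T 0 1) - (c.T 0 2) = 0 ∧
    c.V 0 (c.T 0 2) - (-c.T 0 1) = 0 := by
  refine c.ind3 fun x => ?_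
  have h1 := (congrArg c.Dt (c.VD00 x)).symm.trans (c.tV 0 (c.D 0 x))
  simp only [map_add, map_sub, der_mul, tD', c.tV, VD00, VD01, VD02, VD10, VD11, VD12, VD20, VD21, VD22,
    VV01, VV02, VV12] at h1
  linear_combination -h1

lemma jacK01 : (c.V 0 (c.K 1 0) - (c.K 2 0) = 0 ∧
    c.V 0 (c.K 1 1) - (c.K 2 1 + c.K 1 2) = 0 ∧
    c.V 0 (c.K 1 2) - (-c.K 1 1 + c.K 2 2) = 0) ∧
    c.V 0 (c.T 1 0) - (c.T 2 0) = 0 ∧
    c.V 0 (c.T 1 1) - (c.T 2 1 + c.T 1 2) = 0 ∧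
    c.V 0 (c.T 1 2) - (-c.T 1 1 + c.T 2 2) = 0 := by
  refine c.ind3 fun x => ?_
  have h1 := (congrArg c.Dt (c.VD01 x)).symm.trans (c.tV 0 (c.D 1 x))
  simp only [map_add, map_sub, der_mul, tD', c.tV, VD00, VD01, VD02, VD10, VD11, VD12, VD20, VD21, VD22,
    VV01, VV02, VV12] at h1
  linear_combination -h1

lemma jacK02 : (c.V 0 (c.K 2 0) - (-c.K 1 0) = 0 ∧
    c.V 0 (c.K 2 1) - (-c.K 1 1 + c.K 2 2) = 0 ∧
    c.V 0 (c.K 2 2) - (-c.K 1 2 - c.K 2 1) = 0) ∧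
    c.V 0 (c.T 2 0) - (-c.T 1 0) = 0 ∧
    c.V 0 (c.T 2 1) - (-c.T 1 1 + c.T 2 2) = 0 ∧
    c.V 0 (c.T 2 2) - (-c.T 1 2 - c.T 2 1) = 0 := by
  refine c.ind3 fun x => ?_
  have h1 := (congrArg c.Dt (c.VD02 x)).symm.trans (c.tV 0 (c.D 2 x))
  simp only [map_add, map_sub, der_mul, tD', c.tV, VD00, VD01, VD02, VD10, VD11, VD12, VD20, VD21, VD22,
    VV01, VV02, VV12] at h1
  linear_combination -h1

lemma jacK10 : (c.V 1 (c.K 0 0) - (-c.K 2 0 - c.K 0 2) = 0 ∧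
    c.V 1 (c.K 0 1) - (-c.K 2 1) = 0 ∧
    c.V 1 (c.K 0 2) - (c.K 0 0 - c.K 2 2) = 0) ∧
    c.V 1 (c.T 0 0) - (-c.T 2 0 - c.T 0 2) = 0 ∧
    c.V 1 (c.T 0 1) - (-c.T 2 1) = 0 ∧
    c.V 1 (c.T 0 2) - (c.T 0 0 - c.T 2 2) = 0 := by
  refine c.ind3 fun x => ?_
  have h1 := (congrArg c.Dt (c.VD10 x)).symm.trans (c.tV 1 (c.D 0 x))
  simp only [map_add, map_sub, der_mul, tD', c.tV, VD00, VD01, VD02, VD10, VD11, VD12, VD20, VD21, VD22,
    VV01, VV02, VV12] at h1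
  linear_combination -h1

lemma jacK11 : (c.V 1 (c.K 1 0) - (-c.K 1 2) = 0 ∧
    c.V 1 (c.K 1 1) - (0) = 0 ∧
    c.V 1 (c.K 1 2) - (c.K 1 0) = 0) ∧
    c.V 1 (c.T 1 0) - (-c.T 1 2) = 0 ∧
    c.V 1 (c.T 1 1) - (0) = 0 ∧
    c.V 1 (c.T 1 2) - (c.T 1 0) = 0 := by
  refine c.ind3 fun x => ?_
  have h1 := (congrArg c.Dt (c.VD11 x)).symm.trans (c.tV 1 (c.D 1 x))
  simp only [map_add, map_sub, der_mul, tD', c.tV, VD00, VD01, VD02, VD10, VD11, VD12, VD20, VD21, VD22,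
    VV01, VV02, VV12] at h1
  linear_combination -h1

lemma jacK12 : (c.V 1 (c.K 2 0) - (c.K 0 0 - c.K 2 2) = 0 ∧
    c.V 1 (c.K 2 1) - (c.K 0 1) = 0 ∧
    c.V 1 (c.K 2 2) - (c.K 0 2 + c.K 2 0) = 0) ∧
    c.V 1 (c.T 2 0) - (c.T 0 0 - c.T 2 2) = 0 ∧
    c.V 1 (c.T 2 1) - (c.T 0 1) = 0 ∧
    c.V 1 (c.T 2 2) - (c.T 0 2 + c.T 2 0) = 0 := by
  refine c.ind3 fun x => ?_
  have h1 := (congrArg c.Dt (c.VD12 x)).symm.trans (c.tV 1 (c.D 2 x))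
  simp only [map_add, map_sub, der_mul, tD', c.tV, VD00, VD01, VD02, VD10, VD11, VD12, VD20, VD21, VD22,
    VV01, VV02, VV12] at h1
  linear_combination -h1

lemma jacK20 : (c.V 2 (c.K 0 0) - (c.K 1 0 + c.K 0 1) = 0 ∧
    c.V 2 (c.K 0 1) - (-c.K 0 0 + c.K 1 1) = 0 ∧
    c.V 2 (c.K 0 2) - (c.K 1 2) = 0) ∧
    c.V 2 (c.T 0 0) - (c.T 1 0 + c.T 0 1) = 0 ∧
    c.V 2 (c.T 0 1) - (-c.T 0 0 + c.T 1 1) = 0 ∧
    c.V 2 (c.T 0 2) - (c.T 1 2) = 0 := by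
  refine c.ind3 fun x => ?_
  have h1 := (congrArg c.Dt (c.VD20 x)).symm.trans (c.tV 2 (c.D 0 x))
  simp only [map_add, map_sub, der_mul, tD', c.tV, VD00, VD01, VD02, VD10, VD11, VD12, VD20, VD21, VD22,
    VV01, VV02, VV12] at h1
  linear_combination -h1

lemma jacK21 : (c.V 2 (c.K 1 0) - (-c.K 0 0 + c.K 1 1) = 0 ∧
    c.V 2 (c.K 1 1) - (-c.K 0 1 - c.K 1 0) = 0 ∧
    c.V 2 (c.K 1 2) - (-c.K 0 2) = 0) ∧
    c.V 2 (c.T 1 0) - (-c.T 0 0 + c.T 1 1) = 0 ∧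
    c.V 2 (c.T 1 1) - (-c.T 0 1 - c.T 1 0) = 0 ∧
    c.V 2 (c.T 1 2) - (-c.T 0 2) = 0 := by
  refine c.ind3 fun x => ?_
  have h1 := (congrArg c.Dt (c.VD21 x)).symm.trans (c.tV 2 (c.D 1 x))
  simp only [map_add, map_sub, der_mul, tD', c.tV, VD00, VD01, VD02, VD10, VD11, VD12, VD20, VD21, VD22,
    VV01, VV02, VV12] at h1
  linear_combination -h1

lemma jacK22 : (c.V 2 (c.K 2 0) - (c.K 2 1) = 0 ∧
    c.V 2 (c.K 2 1) - (-c.K 2 0) = 0 ∧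
    c.V 2 (c.K 2 2) - (0) = 0) ∧
    c.V 2 (c.T 2 0) - (c.T 2 1) = 0 ∧
    c.V 2 (c.T 2 1) - (-c.T 2 0) = 0 ∧
    c.V 2 (c.T 2 2) - (0) = 0 := by
  refine c.ind3 fun x => ?_
  have h1 := (congrArg c.Dt (c.VD22 x)).symm.trans (c.tV 2 (c.D 2 x))
  simp only [map_add, map_sub, der_mul, tD', c.tV, VD00, VD01, VD02, VD10, VD11, VD12, VD20, VD21, VD22,
    VV01, VV02, VV12] at h1
  linear_combination -h1

/-- `K` is a tensor -/
lemma VK (a b d : Fin 3) :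
    c.V a (c.K b d) = ∑ e, eps a b e • c.K e d + ∑ e, eps a d e • c.K b e := by
  revert a b d
  refine all3 (all3 (all3 ?_ ?_ ?_) (all3 ?_ ?_ ?_) (all3 ?_ ?_ ?_))
    (all3 (all3 ?_ ?_ ?_) (all3 ?_ ?_ ?_) (all3 ?_ ?_ ?_))
    (all3 (all3 ?_ ?_ ?_) (all3 ?_ ?_ ?_) (all3 ?_ ?_ ?_))
  · rw [sub_eq_zero.1 c.jacK00.1.1]
    simp [Fin.sum_univ_three, sub_eq_add_neg, add_comm]
  · rw [sub_eq_zero.1 c.jacK00.1.2.1]
    simp [Fin.sum_univ_three, sub_eq_add_neg, add_comm]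
  · rw [sub_eq_zero.1 c.jacK00.1.2.2]
    simp [Fin.sum_univ_three, sub_eq_add_neg, add_comm]
  · rw [sub_eq_zero.1 c.jacK01.1.1]
    simp [Fin.sum_univ_three, sub_eq_add_neg, add_comm]
  · rw [sub_eq_zero.1 c.jacK01.1.2.1]
    simp [Fin.sum_univ_three, sub_eq_add_neg, add_comm]
  · rw [sub_eq_zero.1 c.jacK01.1.2.2]
    simp [Fin.sum_univ_three, sub_eq_add_neg, add_comm]
  · rw [sub_eq_zero.1 c.jacK02.1.1]
    simp [Fin.sum_univ_three, sub_eq_add_neg, add_comm]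
  · rw [sub_eq_zero.1 c.jacK02.1.2.1]
    simp [Fin.sum_univ_three, sub_eq_add_neg, add_comm]
  · rw [sub_eq_zero.1 c.jacK02.1.2.2]
    simp [Fin.sum_univ_three, sub_eq_add_neg, add_comm]
  · rw [sub_eq_zero.1 c.jacK10.1.1]
    simp [Fin.sum_univ_three, sub_eq_add_neg, add_comm]
  · rw [sub_eq_zero.1 c.jacK10.1.2.1]
    simp [Fin.sum_univ_three, sub_eq_add_neg, add_comm]
  · rw [sub_eq_zero.1 c.jacK10.1.2.2]
    simp [Fin.sum_univ_three, sub_eq_add_neg, add_comm]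
  · rw [sub_eq_zero.1 c.jacK11.1.1]
    simp [Fin.sum_univ_three, sub_eq_add_neg, add_comm]
  · rw [sub_eq_zero.1 c.jacK11.1.2.1]
    simp [Fin.sum_univ_three, sub_eq_add_neg, add_comm]
  · rw [sub_eq_zero.1 c.jacK11.1.2.2]
    simp [Fin.sum_univ_three, sub_eq_add_neg, add_comm]
  · rw [sub_eq_zero.1 c.jacK12.1.1]
    simp [Fin.sum_univ_three, sub_eq_add_neg, add_comm]
  · rw [sub_eq_zero.1 c.jacK12.1.2.1]
    simp [Fin.sum_univ_three, sub_eq_add_neg, add_comm]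
  · rw [sub_eq_zero.1 c.jacK12.1.2.2]
    simp [Fin.sum_univ_three, sub_eq_add_neg, add_comm]
  · rw [sub_eq_zero.1 c.jacK20.1.1]
    simp [Fin.sum_univ_three, sub_eq_add_neg, add_comm]
  · rw [sub_eq_zero.1 c.jacK20.1.2.1]
    simp [Fin.sum_univ_three, sub_eq_add_neg, add_comm]
  · rw [sub_eq_zero.1 c.jacK20.1.2.2]
    simp [Fin.sum_univ_three, sub_eq_add_neg, add_comm]
  · rw [sub_eq_zero.1 c.jacK21.1.1]
    simp [Fin.sum_univ_three, sub_eq_add_neg, add_comm]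
  · rw [sub_eq_zero.1 c.jacK21.1.2.1]
    simp [Fin.sum_univ_three, sub_eq_add_neg, add_comm]
  · rw [sub_eq_zero.1 c.jacK21.1.2.2]
    simp [Fin.sum_univ_three, sub_eq_add_neg, add_comm]
  · rw [sub_eq_zero.1 c.jacK22.1.1]
    simp [Fin.sum_univ_three, sub_eq_add_neg, add_comm]
  · rw [sub_eq_zero.1 c.jacK22.1.2.1]
    simp [Fin.sum_univ_three, sub_eq_add_neg, add_comm]
  · rw [sub_eq_zero.1 c.jacK22.1.2.2]
    simp [Fin.sum_univ_three, sub_eq_add_neg, add_comm]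

/-- `T` is a tensor -/
lemma VT (a b d : Fin 3) :
    c.V a (c.T b d) = ∑ e, eps a b e • c.T e d + ∑ e, eps a d e • c.T b e := by
  revert a b d
  refine all3 (all3 (all3 ?_ ?_ ?_) (all3 ?_ ?_ ?_) (all3 ?_ ?_ ?_))
    (all3 (all3 ?_ ?_ ?_) (all3 ?_ ?_ ?_) (all3 ?_ ?_ ?_))
    (all3 (all3 ?_ ?_ ?_) (all3 ?_ ?_ ?_) (all3 ?_ ?_ ?_))
  · rw [sub_eq_zero.1 c.jacK00.2.1]
    simp [Fin.sum_univ_three, sub_eq_add_neg, add_comm]
  · rw [sub_eq_zero.1 c.jacK00.2.2.1]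
    simp [Fin.sum_univ_three, sub_eq_add_neg, add_comm]
  · rw [sub_eq_zero.1 c.jacK00.2.2.2]
    simp [Fin.sum_univ_three, sub_eq_add_neg, add_comm]
  · rw [sub_eq_zero.1 c.jacK01.2.1]
    simp [Fin.sum_univ_three, sub_eq_add_neg, add_comm]
  · rw [sub_eq_zero.1 c.jacK01.2.2.1]
    simp [Fin.sum_univ_three, sub_eq_add_neg, add_comm]
  · rw [sub_eq_zero.1 c.jacK01.2.2.2]
    simp [Fin.sum_univ_three, sub_eq_add_neg, add_comm]
  · rw [sub_eq_zero.1 c.jacK02.2.1]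
    simp [Fin.sum_univ_three, sub_eq_add_neg, add_comm]
  · rw [sub_eq_zero.1 c.jacK02.2.2.1]
    simp [Fin.sum_univ_three, sub_eq_add_neg, add_comm]
  · rw [sub_eq_zero.1 c.jacK02.2.2.2]
    simp [Fin.sum_univ_three, sub_eq_add_neg, add_comm]
  · rw [sub_eq_zero.1 c.jacK10.2.1]
    simp [Fin.sum_univ_three, sub_eq_add_neg, add_comm]
  · rw [sub_eq_zero.1 c.jacK10.2.2.1]
    simp [Fin.sum_univ_three, sub_eq_add_neg, add_comm]
  · rw [sub_eq_zero.1 c.jacK10.2.2.2]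
    simp [Fin.sum_univ_three, sub_eq_add_neg, add_comm]
  · rw [sub_eq_zero.1 c.jacK11.2.1]
    simp [Fin.sum_univ_three, sub_eq_add_neg, add_comm]
  · rw [sub_eq_zero.1 c.jacK11.2.2.1]
    simp [Fin.sum_univ_three, sub_eq_add_neg, add_comm]
  · rw [sub_eq_zero.1 c.jacK11.2.2.2]
    simp [Fin.sum_univ_three, sub_eq_add_neg, add_comm]
  · rw [sub_eq_zero.1 c.jacK12.2.1]
    simp [Fin.sum_univ_three, sub_eq_add_neg, add_comm]
  · rw [sub_eq_zero.1 c.jacK12.2.2.1]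
    simp [Fin.sum_univ_three, sub_eq_add_neg, add_comm]
  · rw [sub_eq_zero.1 c.jacK12.2.2.2]
    simp [Fin.sum_univ_three, sub_eq_add_neg, add_comm]
  · rw [sub_eq_zero.1 c.jacK20.2.1]
    simp [Fin.sum_univ_three, sub_eq_add_neg, add_comm]
  · rw [sub_eq_zero.1 c.jacK20.2.2.1]
    simp [Fin.sum_univ_three, sub_eq_add_neg, add_comm]
  · rw [sub_eq_zero.1 c.jacK20.2.2.2]
    simp [Fin.sum_univ_three, sub_eq_add_neg, add_comm]
  · rw [sub_eq_zero.1 c.jacK21.2.1]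
    simp [Fin.sum_univ_three, sub_eq_add_neg, add_comm]
  · rw [sub_eq_zero.1 c.jacK21.2.2.1]
    simp [Fin.sum_univ_three, sub_eq_add_neg, add_comm]
  · rw [sub_eq_zero.1 c.jacK21.2.2.2]
    simp [Fin.sum_univ_three, sub_eq_add_neg, add_comm]
  · rw [sub_eq_zero.1 c.jacK22.2.1]
    simp [Fin.sum_univ_three, sub_eq_add_neg, add_comm]
  · rw [sub_eq_zero.1 c.jacK22.2.2.1]
    simp [Fin.sum_univ_three, sub_eq_add_neg, add_comm]
  · rw [sub_eq_zero.1 c.jacK22.2.2.2]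
    simp [Fin.sum_univ_three, sub_eq_add_neg, add_comm]

lemma jacT0 : (c.D 1 (c.K 2 0) - c.D 2 (c.K 1 0) + c.T 1 1 + c.T 2 2 = 0 ∧
    c.D 1 (c.K 2 1) - c.D 2 (c.K 1 1) - c.T 1 0 = 0 ∧
    c.D 1 (c.K 2 2) - c.D 2 (c.K 1 2) - c.T 2 0 = 0) ∧
    c.D 1 (c.T 2 0) - c.D 2 (c.T 1 0) - c.K 1 0 * c.M 1 0 - c.K 2 0 * c.M 2 0 + c.K 1 1 * c.M 0 0 + c.K 2 2 * c.M 0 0 - c.Dt (c.M 0 0) = 0 ∧
    c.D 1 (c.T 2 1) - c.D 2 (c.T 1 1) - c.K 1 0 * c.M 1 1 - c.K 2 0 * c.M 2 1 + c.K 1 1 * c.M 0 1 + c.K 2 2 * c.M 0 1 - c.Dt (c.M 0 1) = 0 ∧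
    c.D 1 (c.T 2 2) - c.D 2 (c.T 1 2) - c.K 1 0 * c.M 1 2 - c.K 2 0 * c.M 2 2 + c.K 1 1 * c.M 0 2 + c.K 2 2 * c.M 0 2 - c.Dt (c.M 0 2) = 0 := by
  refine c.ind3 fun x => ?_
  have h1 := (congrArg c.Dt (c.D12 x)).symm.trans (c.tD' 1 (c.D 2 x))
  simp only [map_add, map_sub, der_mul, tD', c.tV, VD00, VD01, VD02, VD10, VD11, VD12, VD20, VD21, VD22,
    D01, D02, D12] at h1
  linear_combination -h1

lemma jacT1 : (c.D 2 (c.K 0 0) - c.D 0 (c.K 2 0) - c.T 0 1 = 0 ∧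
    c.D 2 (c.K 0 1) - c.D 0 (c.K 2 1) + c.T 0 0 + c.T 2 2 = 0 ∧
    c.D 2 (c.K 0 2) - c.D 0 (c.K 2 2) - c.T 2 1 = 0) ∧
    c.D 2 (c.T 0 0) - c.D 0 (c.T 2 0) + c.K 0 0 * c.M 1 0 - c.K 0 1 * c.M 0 0 - c.K 2 1 * c.M 2 0 + c.K 2 2 * c.M 1 0 - c.Dt (c.M 1 0) = 0 ∧
    c.D 2 (c.T 0 1) - c.D 0 (c.T 2 1) + c.K 0 0 * c.M 1 1 - c.K 0 1 * c.M 0 1 - c.K 2 1 * c.M 2 1 + c.K 2 2 * c.M 1 1 - c.Dt (c.M 1 1) = 0 ∧
    c.D 2 (c.T 0 2) - c.D 0 (c.T 2 2) + c.K 0 0 * c.M 1 2 - c.K 0 1 * c.M 0 2 - c.K 2 1 * c.M 2 2 + c.K 2 2 * c.M 1 2 - c.Dt (c.M 1 2) = 0 := by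
  refine c.ind3 fun x => ?_
  have h1 := (congrArg c.Dt (c.D02 x)).symm.trans (c.tD' 0 (c.D 2 x))
  simp only [map_add, map_sub, der_mul, tD', c.tV, VD00, VD01, VD02, VD10, VD11, VD12, VD20, VD21, VD22,
    D01, D02, D12] at h1
  linear_combination h1

lemma jacT2 : (c.D 0 (c.K 1 0) - c.D 1 (c.K 0 0) - c.T 0 2 = 0 ∧
    c.D 0 (c.K 1 1) - c.D 1 (c.K 0 1) - c.T 1 2 = 0 ∧
    c.D 0 (c.K 1 2) - c.D 1 (c.K 0 2) + c.T 0 0 + c.T 1 1 = 0) ∧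
    c.D 0 (c.T 1 0) - c.D 1 (c.T 0 0) + c.K 0 0 * c.M 2 0 + c.K 1 1 * c.M 2 0 - c.K 0 2 * c.M 0 0 - c.K 1 2 * c.M 1 0 - c.Dt (c.M 2 0) = 0 ∧
    c.D 0 (c.T 1 1) - c.D 1 (c.T 0 1) + c.K 0 0 * c.M 2 1 + c.K 1 1 * c.M 2 1 - c.K 0 2 * c.M 0 1 - c.K 1 2 * c.M 1 1 - c.Dt (c.M 2 1) = 0 ∧
    c.D 0 (c.T 1 2) - c.D 1 (c.T 0 2) + c.K 0 0 * c.M 2 2 + c.K 1 1 * c.M 2 2 - c.K 0 2 * c.M 0 2 - c.K 1 2 * c.M 1 2 - c.Dt (c.M 2 2) = 0 := by
  refine c.ind3 fun x => ?_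
  have h1 := (congrArg c.Dt (c.D01 x)).symm.trans (c.tD' 0 (c.D 1 x))
  simp only [map_add, map_sub, der_mul, tD', c.tV, VD00, VD01, VD02, VD10, VD11, VD12, VD20, VD21, VD22,
    D01, D02, D12] at h1
  linear_combination -h1

lemma trT : c.T 0 0 + c.T 1 1 + c.T 2 2 = 0 := by
  have a0 := c.jacT0.1.1
  have b1 := c.jacT1.1.2.1
  have c2 := c.jacT2.1.2.2
  have h2 : ∀ x : A, x + x = 0 → x = 0 := fun x hx => by
    have : x = (1 / 2 : ℝ) • (x + x) := by rw [← two_smul ℝ x, smul_smul]; norm_num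
    rw [this, hx, smul_zero]
  refine h2 _ ?_
  simp only [K10, K20, K21] at a0 b1 c2
  linear_combination a0 + b1 + c2

lemma T00 : c.T 0 0 = c.D 1 (c.K 0 2) - c.D 2 (c.K 0 1) := by
  have h := c.jacT0.1.1
  simp only [K10, K20, K21] at h ⊢
  linear_combination c.trT - h

lemma T01 : c.T 0 1 = c.D 2 (c.K 0 0) - c.D 0 (c.K 0 2) := by
  have h := c.jacT1.1.1
  simp only [K10, K20, K21] at h ⊢
  linear_combination -h

lemma T02 : c.T 0 2 = c.D 0 (c.K 0 1) - c.D 1 (c.K 0 0) := by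
  have h := c.jacT2.1.1
  simp only [K10, K20, K21] at h ⊢
  linear_combination -h

lemma T10 : c.T 1 0 = c.D 1 (c.K 1 2) - c.D 2 (c.K 1 1) := by
  have h := c.jacT0.1.2.1
  simp only [K10, K20, K21] at h ⊢
  linear_combination -h

lemma T11 : c.T 1 1 = c.D 2 (c.K 1 0) - c.D 0 (c.K 1 2) := by
  have h := c.jacT1.1.2.1
  simp only [K10, K20, K21] at h ⊢
  linear_combination c.trT - h

lemma T12 : c.T 1 2 = c.D 0 (c.K 1 1) - c.D 1 (c.K 1 0) := by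
  have h := c.jacT2.1.2.1
  simp only [K10, K20, K21] at h ⊢
  linear_combination -h

lemma T20 : c.T 2 0 = c.D 1 (c.K 2 2) - c.D 2 (c.K 2 1) := by
  have h := c.jacT0.1.2.2
  simp only [K10, K20, K21] at h ⊢
  linear_combination -h

lemma T21 : c.T 2 1 = c.D 2 (c.K 2 0) - c.D 0 (c.K 2 2) := by
  have h := c.jacT1.1.2.2
  simp only [K10, K20, K21] at h ⊢
  linear_combination -h

lemma T22 : c.T 2 2 = c.D 0 (c.K 2 1) - c.D 1 (c.K 2 0) := by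
  have h := c.jacT2.1.2.2
  simp only [K10, K20, K21] at h ⊢
  linear_combination c.trT - h

/-- the mixed curvature -/
lemma T_eq (a d : Fin 3) : c.T a d = ∑ b, ∑ e, eps d b e • c.D b (c.K a e) := by
  revert a d
  refine all3 (all3 ?_ ?_ ?_) (all3 ?_ ?_ ?_) (all3 ?_ ?_ ?_) <;>
  simp [Fin.sum_univ_three, T00, T01, T02, T10, T11, T12, T20, T21, T22, sub_eq_add_neg, add_comm]

/-- the variation of the curvature operator -/
lemma Dt_M (e d : Fin 3) : c.Dt (c.M e d) = ∑ a, ∑ b, eps e a b • c.D a (c.T b d) +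
    ((c.K 0 0 + c.K 1 1 + c.K 2 2) * c.M e d - ∑ k, c.K e k * c.M k d) := by
  obtain ⟨a0, a1, a2⟩ := c.jacT0.2
  obtain ⟨b0, b1, b2⟩ := c.jacT1.2
  obtain ⟨c0, c1, c2⟩ := c.jacT2.2
  simp only [K10, K20, K21] at a0 a1 a2 b0 b1 b2 c0 c1 c2
  revert e d
  refine all3 (all3 ?_ ?_ ?_) (all3 ?_ ?_ ?_) (all3 ?_ ?_ ?_) <;>
  simp [Fin.sum_univ_three, K10, K20, K21]
  exacts [by linear_combination -a0, by linear_combination -a1, by linear_combination -a2,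
    by linear_combination -b0, by linear_combination -b1, by linear_combination -b2,
    by linear_combination -c0, by linear_combination -c1, by linear_combination -c2]

/-- the heat operator -/
def H (x : A) : A := c.Dt x - c.Lap x

end Fl

namespace Fr

variable (c : Fr A)

lemma Ric00 : c.Ric 0 0 = c.M 1 1 + c.M 2 2 := by simp [Ric, S]; ring
lemma Ric11 : c.Ric 1 1 = c.M 0 0 + c.M 2 2 := by simp [Ric, S]; ring
lemma Ric22 : c.Ric 2 2 = c.M 0 0 + c.M 1 1 := by simp [Ric, S]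
lemma Ric01 : c.Ric 0 1 = -c.M 0 1 := by simp [Ric]
lemma Ric02 : c.Ric 0 2 = -c.M 0 2 := by simp [Ric]
lemma Ric12 : c.Ric 1 2 = -c.M 1 2 := by simp [Ric]
lemma Ric10 : c.Ric 1 0 = -c.M 0 1 := by simp [Ric, M10]
lemma Ric20 : c.Ric 2 0 = -c.M 0 2 := by simp [Ric, M20]
lemma Ric21 : c.Ric 2 1 = -c.M 1 2 := by simp [Ric, M21]

lemma Ric_symm (a b : Fin 3) : c.Ric a b = c.Ric b a := by
  revert a b
  refine all3 (all3 ?_ ?_ ?_) (all3 ?_ ?_ ?_) (all3 ?_ ?_ ?_) <;>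
  simp only [Ric01, Ric02, Ric12, Ric10, Ric20, Ric21]

/-- the squared norm of the curvature operator -/
def N0 : A := ∑ a, ∑ b, c.M a b ^ 2

/-- the reaction term `2 (M² + M^#)` -/
def Q (a b : Fin 3) : A :=
  4 * ∑ k, c.M a k * c.M k b - 2 * c.S * c.M a b + dl a b • (c.S ^ 2 - c.N0)

end Fr

namespace RF

open Fr Fl

variable (c : RF A)

lemma DtM00 : c.Dt (c.M 0 0) = c.Lap (c.M 0 0) + c.Q 0 0 := by
  rw [c.toFl.Dt_M]
  simp only [Lap, Q, N0, S, Fin.sum_univ_three, T00, T01, T02, T10, T11, T12, T20, T21, T22, c.ric,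
    Ric00, Ric01, Ric02, Ric10, Ric11, Ric12, Ric20, Ric21, Ric22,
    eps000, eps001, eps002, eps010, eps011, eps012, eps020, eps021, eps022, dl_self, dl01, dl02, dl12,
    zero_smul, one_smul, neg_smul, map_add, map_sub, map_neg, M10, M20, M21, D01, D02, D12, B0, B1, B2,
    VM000, VM001, VM002, VM011, VM012, VM022, VM100, VM101, VM102, VM111, VM112, VM122, VM200, VM201, VM202, VM211, VM212, VM222]
  ring

lemma DtM01 : c.Dt (c.M 0 1) = c.Lap (c.M 0 1) + c.Q 0 1 := by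
  rw [c.toFl.Dt_M]
  simp only [Lap, Q, N0, S, Fin.sum_univ_three, T00, T01, T02, T10, T11, T12, T20, T21, T22, c.ric,
    Ric00, Ric01, Ric02, Ric10, Ric11, Ric12, Ric20, Ric21, Ric22,
    eps000, eps001, eps002, eps010, eps011, eps012, eps020, eps021, eps022, dl_self, dl01, dl02, dl12,
    zero_smul, one_smul, neg_smul, map_add, map_sub, map_neg, M10, M20, M21, D01, D02, D12, B0, B1, B2,
    VM000, VM001, VM002, VM011, VM012, VM022, VM100, VM101, VM102, VM111, VM112, VM122, VM200, VM201, VM202, VM211, VM212, VM222]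
  ring

lemma DtM02 : c.Dt (c.M 0 2) = c.Lap (c.M 0 2) + c.Q 0 2 := by
  rw [c.toFl.Dt_M]
  simp only [Lap, Q, N0, S, Fin.sum_univ_three, T00, T01, T02, T10, T11, T12, T20, T21, T22, c.ric,
    Ric00, Ric01, Ric02, Ric10, Ric11, Ric12, Ric20, Ric21, Ric22,
    eps000, eps001, eps002, eps010, eps011, eps012, eps020, eps021, eps022, dl_self, dl01, dl02, dl12,
    zero_smul, one_smul, neg_smul, map_add, map_sub, map_neg, M10, M20, M21, D01, D02, D12, B0, B1, B2,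
    VM000, VM001, VM002, VM011, VM012, VM022, VM100, VM101, VM102, VM111, VM112, VM122, VM200, VM201, VM202, VM211, VM212, VM222]
  ring

lemma DtM11 : c.Dt (c.M 1 1) = c.Lap (c.M 1 1) + c.Q 1 1 := by
  rw [c.toFl.Dt_M]
  simp only [Lap, Q, N0, S, Fin.sum_univ_three, T00, T01, T02, T10, T11, T12, T20, T21, T22, c.ric,
    Ric00, Ric01, Ric02, Ric10, Ric11, Ric12, Ric20, Ric21, Ric22,
    eps100, eps101, eps102, eps110, eps111, eps112, eps120, eps121, eps122, dl_self, dl01, dl02, dl12,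
    zero_smul, one_smul, neg_smul, map_add, map_sub, map_neg, M10, M20, M21, D01, D02, D12, B0, B1, B2,
    VM000, VM001, VM002, VM011, VM012, VM022, VM100, VM101, VM102, VM111, VM112, VM122, VM200, VM201, VM202, VM211, VM212, VM222]
  ring

lemma DtM12 : c.Dt (c.M 1 2) = c.Lap (c.M 1 2) + c.Q 1 2 := by
  rw [c.toFl.Dt_M]
  simp only [Lap, Q, N0, S, Fin.sum_univ_three, T00, T01, T02, T10, T11, T12, T20, T21, T22, c.ric,
    Ric00, Ric01, Ric02, Ric10, Ric11, Ric12, Ric20, Ric21, Ric22,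
    eps100, eps101, eps102, eps110, eps111, eps112, eps120, eps121, eps122, dl_self, dl01, dl02, dl12,
    zero_smul, one_smul, neg_smul, map_add, map_sub, map_neg, M10, M20, M21, D01, D02, D12, B0, B1, B2,
    VM000, VM001, VM002, VM011, VM012, VM022, VM100, VM101, VM102, VM111, VM112, VM122, VM200, VM201, VM202, VM211, VM212, VM222]
  ring

lemma DtM22 : c.Dt (c.M 2 2) = c.Lap (c.M 2 2) + c.Q 2 2 := by
  rw [c.toFl.Dt_M]
  simp only [Lap, Q, N0, S, Fin.sum_univ_three, T00, T01, T02, T10, T11, T12, T20, T21, T22, c.ric,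
    Ric00, Ric01, Ric02, Ric10, Ric11, Ric12, Ric20, Ric21, Ric22,
    eps200, eps201, eps202, eps210, eps211, eps212, eps220, eps221, eps222, dl_self, dl01, dl02, dl12,
    zero_smul, one_smul, neg_smul, map_add, map_sub, map_neg, M10, M20, M21, D01, D02, D12, B0, B1, B2,
    VM000, VM001, VM002, VM011, VM012, VM022, VM100, VM101, VM102, VM111, VM112, VM122, VM200, VM201, VM202, VM211, VM212, VM222]
  ring

lemma Q_symm (a b : Fin 3) : c.Q a b = c.Q b a := by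
  revert a b
  refine all3 (all3 ?_ ?_ ?_) (all3 ?_ ?_ ?_) (all3 ?_ ?_ ?_) <;>
  simp [Q, Fin.sum_univ_three, M10, M20, M21] <;> ring

/-- **The evolution of the curvature operator.** -/
theorem H_M (a b : Fin 3) : c.H (c.M a b) = c.Q a b := by
  have h : c.Dt (c.M a b) = c.Lap (c.M a b) + c.Q a b := by
    revert a b
    refine all3 (all3 c.DtM00 c.DtM01 c.DtM02) (all3 ?_ c.DtM11 c.DtM12) (all3 ?_ ?_ c.DtM22)
    · rw [M10, Q_symm, DtM01]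
    · rw [M20, Q_symm, DtM02]
    · rw [M21, Q_symm, DtM12]
  rw [H, h]
  ring

end RF

end Vale.Agent.P216D
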