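import Mathlib.Topology.Order.Compact
import Mathlib.Topology.Algebra.Ring.Real
import Vale.Agent.P216D.Bern

/-! # Local derivative estimates: the abstract induction -/

open Set Filter Topology

namespace Vale.Agent.P216D

/-- the constant of the cutoff function -/
def cC (T ρ C : ℝ) : ℝ := T * ρ ^ 2 + 4 * T * C + 2 * T * ρ * C + ρ ^ 2

variable {Y : Type} [TopologicalSpace Y]

/-- the quantity that is maximised -/
def mq (τ φ : Y → ℝ) (n : ℕ → Y → ℝ) (k : ℕ) (K α β ρ : ℝ) (q : Y) : ℝ :=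
  (α + β * τ q) * (ρ - φ q) ^ 2 * ((8 * K + n k q) * n (k + 1) q)

/-- the Bernstein-Shi estimate holds at `p` -/
def Tst (S : Set Y) (τ φ : Y → ℝ) (n : ℕ → Y → ℝ) (C : ℝ) (p : Y) : Prop :=
  ∀ (k : ℕ) (K α β ρ T : ℝ), 1 ≤ K → (∀ i ≤ k, n i p ≤ K) → φ p < ρ → β ≤ 1 →
    0 < α + β * τ p → α + β * τ p ≤ T →
    (∀ᶠ q in 𝓝[S] p, τ q ≤ τ p → mq τ φ n k K α β ρ q ≤ mq τ φ n k K α β ρ p) →
    mq τ φ n k K α β ρ p ≤ cB k K (cC T ρ C)

/-- the data of a local derivative estimate -/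
structure Dat (S : Set Y) (τ φ : Y → ℝ) (n : ℕ → Y → ℝ) (ρ : ℝ) : Prop where
  hτ : ContinuousOn τ S
  hφ : ContinuousOn φ S
  hn : ∀ i, ContinuousOn (n i) S
  φ0 : ∀ p ∈ S, 0 ≤ φ p
  n0 : ∀ i, ∀ p ∈ S, 0 ≤ n i p
  cpt : ∀ r < ρ, IsCompact {p ∈ S | φ p ≤ r}

variable {S : Set Y} {τ φ : Y → ℝ} {n : ℕ → Y → ℝ} {ρ C : ℝ}

lemma Dat.mono (h : Dat S τ φ n ρ) {ρ' : ℝ} (h' : ρ' ≤ ρ) : Dat S τ φ n ρ' :=
  ⟨h.hτ, h.hφ, h.hn, h.φ0, h.n0, fun r hr => h.cpt r (hr.trans_le h')⟩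

lemma Dat.step (h : Dat S τ φ n ρ) {k : ℕ} {K α β r T J a b : ℝ} (hr : r < ρ) (hK : 1 ≤ K)
    (hβ : β ≤ 1) (hJ : 0 ≤ J)
    (H : ∀ p ∈ S, τ p ∈ Icc a b → φ p < r → mq τ φ n k K α β r p ≤ J ∨
      (a < τ p ∧ (∀ i ≤ k, n i p ≤ K) ∧ α + β * τ p ≤ T ∧ Tst S τ φ n C p))
    {p : Y} (hp : p ∈ S) (ht : τ p ∈ Icc a b) (hφ : φ p ≤ r) :
    mq τ φ n k K α β r p ≤ max J (cB k K (cC T r C)) := by
  have hc : IsCompact ({p ∈ S | φ p ≤ r} ∩ τ ⁻¹' Icc a b) := by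
    have h1 : ContinuousOn τ {p ∈ S | φ p ≤ r} := h.hτ.mono fun _ h => h.1
    obtain ⟨u, hu, e⟩ := (continuousOn_iff_isClosed.1 h1) _ (isClosed_Icc (a := a) (b := b))
    rw [inter_comm, e, inter_comm]
    exact (h.cpt r hr).inter_right hu
  have hm : ContinuousOn (mq τ φ n k K α β r) S :=
    ((continuousOn_const.add (continuousOn_const.mul h.hτ)).mul
      ((continuousOn_const.sub h.hφ).pow 2)).mul ((continuousOn_const.add (h.hn k)).mul (h.hn _))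
  obtain ⟨q, hq, h1⟩ := hc.exists_isMaxOn ⟨p, ⟨hp, hφ⟩, ht⟩ (hm.mono fun _ h => h.1.1)
  refine (h1 ⟨⟨hp, hφ⟩, ht⟩).trans ?_
  by_cases h2 : mq τ φ n k K α β r q ≤ J
  · exact h2.trans (le_max_left _ _)
  have h3 : 0 < mq τ φ n k K α β r q := hJ.trans_lt (not_le.1 h2)
  have h4 : φ q < r := lt_of_le_of_ne hq.1.2 fun e => by simp [mq, e] at h3
  obtain ⟨h5, h6, h7, h8⟩ := (H q hq.1.1 hq.2 h4).resolve_left h2
  have h9 : 0 < α + β * τ q := by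
    have := h.n0 k q hq.1.1
    have := h.n0 (k + 1) q hq.1.1
    rw [mq, mul_assoc] at h3
    exact pos_of_mul_pos_left h3 (by positivity)
  refine (h8 k K α β r T hK h6 h4 hβ h9 h7 ?_).trans (le_max_right _ _)
  filter_upwards [self_mem_nhdsWithin, (h.hφ q hq.1.1).eventually (gt_mem_nhds h4),
    (h.hτ q hq.1.1).eventually (lt_mem_nhds h5)] with z z1 z2 z3 z4
  exact h1 ⟨⟨z1, z2.le⟩, z3.le, z4.trans hq.2.2⟩

omit [TopologicalSpace Y] in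
lemma le_of_mq {k : ℕ} {K α β r r' θ B : ℝ} {p : Y} (hK : 1 ≤ K) (hr : r' < r) (hθ : 0 < θ)
    (h0 : 0 ≤ n k p) (h1 : 0 ≤ n (k + 1) p) (h2 : φ p ≤ r') (h3 : θ ≤ α + β * τ p)
    (h : mq τ φ n k K α β r p ≤ B) : n (k + 1) p ≤ B / (θ * (r - r') ^ 2) := by
  have h4 : 0 < r - r' := by linarith
  rw [le_div_iff₀ (by positivity), mul_comm]
  refine le_trans ?_ h
  rw [mq]
  have h5 : 0 ≤ α + β * τ p := by linarith
  refine mul_le_mul (mul_le_mul h3 (by gcongr) (by positivity) h5) (by nlinarith) h1 (by positivity)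

/-- **Interior estimates.** -/
theorem shi_abs (k : ℕ) (K C : ℝ) : ∀ ρ ρ' θ : ℝ, ρ' < ρ → 0 < θ → ∃ K' : ℝ,
    ∀ (Y : Type) [TopologicalSpace Y] (S : Set Y) (τ φ : Y → ℝ) (n : ℕ → Y → ℝ) (a : ℝ),
      Dat S τ φ n ρ → (∀ p ∈ S, φ p < ρ → n 0 p ≤ K) →
      (∀ p ∈ S, a < τ p → φ p < ρ → Tst S τ φ n C p) →
      ∀ p ∈ S, a + θ ≤ τ p → φ p ≤ ρ' → ∀ i ≤ k, n i p ≤ K' := by
  induction k with
  | zero =>
    refine fun ρ ρ' θ h _ => ⟨K, fun Y _ S τ φ n a _ h1 _ p hp _ h2 i hi => ?_⟩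
    obtain rfl : i = 0 := by omega
    exact h1 p hp (h2.trans_lt h)
  | succ k ih =>
    intro ρ ρ' θ h hθ
    obtain ⟨r, r1, r2⟩ := exists_between h
    obtain ⟨K', hK'⟩ := ih ρ r (θ / 2) r2 (by linarith)
    refine ⟨max K' (max 0 (cB k (max 1 K') (cC (θ / 2) r C)) / (θ / 2 * (r - ρ') ^ 2)),
      fun Y _ S τ φ n a hd h1 h2 p hp h3 h4 i hi => ?_⟩
    rcases hi.lt_or_eq with hi | rfl
    · exact (hK' Y S τ φ n a hd h1 h2 p hp (by linarith) (h4.trans r1.le) i (by omega)).trans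
        (le_max_left _ _)
    refine le_trans (le_of_mq (τ := τ) (φ := φ) (α := θ / 2 - τ p) (β := 1) (le_max_left 1 K') r1
      (by linarith) (hd.n0 _ p hp) (hd.n0 _ p hp) h4 (by linarith) ?_) (le_max_right _ _)
    refine hd.step (a := τ p - θ / 2) (b := τ p) r2 (le_max_left 1 K') le_rfl le_rfl
      (fun q hq q1 q2 => ?_) hp ⟨by linarith, le_rfl⟩ (h4.trans r1.le)
    rcases q1.1.eq_or_lt with e | e
    · exact Or.inl (by simp [mq, ← e])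
    exact Or.inr ⟨e, fun j hj => (hK' Y S τ φ n a hd h1 h2 q hq (by linarith) q2.le j hj).trans
      (le_max_right _ _), by linarith [q1.2], h2 q hq (by linarith) (q2.trans r2)⟩

/-- **Estimates up to the initial time.** -/
theorem shi_abs_init (m : ℕ) (K C : ℝ) : ∀ k ≤ m, ∀ ρ ρ' : ℝ, ρ' < ρ → ∃ K' : ℝ,
    ∀ (Y : Type) [TopologicalSpace Y] (S : Set Y) (τ φ : Y → ℝ) (n : ℕ → Y → ℝ) (a b : ℝ),
      Dat S τ φ n ρ → (∀ p ∈ S, τ p ∈ Icc a b) → (∀ p ∈ S, φ p < ρ → n 0 p ≤ K) →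
      (∀ p ∈ S, τ p = a → φ p < ρ → ∀ i ≤ m, n i p ≤ K) →
      (∀ p ∈ S, a < τ p → φ p < ρ → Tst S τ φ n C p) →
      ∀ p ∈ S, φ p ≤ ρ' → ∀ i ≤ k, n i p ≤ K' := by
  intro k
  induction k with
  | zero =>
    refine fun _ ρ ρ' h => ⟨K, fun Y _ S τ φ n a b _ _ h1 _ _ p hp h2 i hi => ?_⟩
    obtain rfl : i = 0 := by omega
    exact h1 p hp (h2.trans_lt h)
  | succ k ih =>
    intro hk ρ ρ' h
    obtain ⟨r, r1, r2⟩ := exists_between h
    obtain ⟨K', hK'⟩ := ih (by omega) ρ r r2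
    refine ⟨max K' (max (r ^ 2 * (9 * max 1 K' * |K|)) (cB k (max 1 K') (cC 1 r C)) /
      (1 * (r - ρ') ^ 2)), fun Y _ S τ φ n a b hd h0 h1 h5 h2 p hp h4 i hi => ?_⟩
    rcases hi.lt_or_eq with hi | rfl
    · exact (hK' Y S τ φ n a b hd h0 h1 h5 h2 p hp (h4.trans r1.le) i (by omega)).trans
        (le_max_left _ _)
    refine le_trans (le_of_mq (τ := τ) (φ := φ) (α := 1) (β := 0) (le_max_left 1 K') r1
      one_pos (hd.n0 _ p hp) (hd.n0 _ p hp) h4 (by linarith) ?_) (le_max_right _ _)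
    refine hd.step (a := a) (b := b) r2 (le_max_left 1 K') zero_le_one (by positivity)
      (fun q hq q1 q2 => ?_) hp (h0 p hp) (h4.trans r1.le)
    have h6 : ∀ j ≤ k, n j q ≤ max 1 K' := fun j hj =>
      (hK' Y S τ φ n a b hd h0 h1 h5 h2 q hq q2.le j hj).trans (le_max_right _ _)
    rcases q1.1.eq_or_lt with e | e
    · left
      have a1 := (h5 q hq e.symm (q2.trans r2) _ hk).trans (le_abs_self K)
      have a2 := h6 k le_rfl
      have a3 := hd.φ0 q hq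
      have a4 := hd.n0 k q hq
      have a5 := hd.n0 (k + 1) q hq
      have a6 : (0 : ℝ) ≤ max 1 K' := by positivity
      rw [mq, zero_mul, add_zero, one_mul]
      exact mul_le_mul (by nlinarith) (mul_le_mul (by linarith) a1 a5 (by positivity))
        (by positivity) (sq_nonneg r)
    exact Or.inr ⟨e, h6, by linarith, h2 q hq e (q2.trans r2)⟩

/-- the test property from a local model -/
theorem tst_of_model {A : Type*} [CommRing A] [Algebra ℝ A] (c : RF A) (ev : A →ₐ[ℝ] ℝ) {p : Y}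
    (u E : A) (hn : ∀ i, ev (c.N i) = n i p) (hu : ev u = τ p) (huD : ∀ a, c.D a u = 0)
    (hut : ev (c.Dt u) = 1) (hE : ev E = φ p) (hE0 : 0 ≤ φ p) (hEi : ev (c.ip E E) ≤ C)
    (hEH : -C ≤ ev (c.H E))
    (hmax : ∀ (k : ℕ) (K α β ρ : ℝ), φ p < ρ → 0 < α + β * τ p →
      (∀ᶠ q in 𝓝[S] p, τ q ≤ τ p → mq τ φ n k K α β ρ q ≤ mq τ φ n k K α β ρ p) → 1 ≤ K →
      ∀ F, F = (algebraMap ℝ A α + algebraMap ℝ A β * u) * (algebraMap ℝ A ρ - E) ^ 2 * c.bsq k K →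
      (∀ a, ev (c.D a F) = 0) ∧ 0 ≤ ev (c.H F)) : Tst S τ φ n C p := by
  intro k K α β ρ T hK h1 h2 h3 h4 h5 h6
  obtain ⟨a1, a2⟩ := hmax k K α β ρ h2 h4 h6 hK _ rfl
  have e : ev (algebraMap ℝ A α + algebraMap ℝ A β * u) = α + β * τ p := by simp [hu]
  obtain ⟨b1, b2, b3, b4⟩ := c.cutoff ev (χ := algebraMap ℝ A α + algebraMap ℝ A β * u) (E := E)
    (ρ := ρ) (T := T) (C := C) (fun a => by simp only [der_nf, huD]; ring) (e ▸ h5) (e ▸ h4)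
    (by simp only [der_nf, map_add, map_mul, hut]; simpa using h3) (hE ▸ hE0) (hE ▸ h2) hEi hEH
  have := c.bern ev hK (fun i hi => (hn i).trans_le (h1 i hi)) b1 b2 b3 b4 a1 a2
  rw [map_mul, map_mul, e, c.ev_bsq, hn, hn] at this
  simpa [mq, cC, hE] using this

end Vale.Agent.P216D
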