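import Mathlib.Analysis.Calculus.VectorField
import Mathlib.Analysis.Calculus.MeanValue
import Mathlib.RingTheory.Derivation.Basic
import Vale.Agent.P216MP.First

/-! # The ring of smooth functions on a retract, and the derivations given by tangent fields -/

open Set Filter Topology VectorField
open scoped ContDiff

namespace Vale.Agent.P216D

/-- A set `O` which is a local smooth retract of a set `S` with good calculus. -/
structure Ret (F : Type*) [NormedAddCommGroup F] [NormedSpace ℝ F] where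
  /-- the ambient set -/
  S : Set F
  /-- the retract -/
  O : Set F
  /-- the retraction -/
  ρ : F → F
  ud : UniqueDiffOn ℝ S
  cl : S ⊆ closure (interior S)
  sub : O ⊆ S
  sm : ∀ p ∈ O, ContDiffWithinAt ℝ ∞ ρ S p
  fix : ∀ p ∈ O, ρ p = p
  into : ∀ p ∈ O, ∀ᶠ q in 𝓝[S] p, ρ q ∈ O

variable {F F' : Type*} [NormedAddCommGroup F] [NormedSpace ℝ F] [NormedAddCommGroup F']
  [NormedSpace ℝ F'] {R : Ret F} {R' : Ret F'}

lemma Ret.udw (p : R.O) : UniqueDiffWithinAt ℝ R.S p := R.ud _ (R.sub p.2)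

lemma Ret.tend (p : R.O) : Tendsto (fun q : R.O => (q : F)) (𝓝 p) (𝓝[R.S] p) :=
  tendsto_nhdsWithin_iff.2 ⟨continuous_subtype_val.continuousAt, .of_forall fun q => R.sub q.2⟩

lemma dw {H : Type*} [NormedAddCommGroup H] [NormedSpace ℝ H] {u : F → H} {S : Set F} {p : F}
    (h : ContDiffWithinAt ℝ ∞ u S p) : DifferentiableWithinAt ℝ u S p :=
  h.differentiableWithinAt (by simp)

lemma dw_near {H : Type*} [NormedAddCommGroup H] [NormedSpace ℝ H] {u : F → H} {S : Set F} {p : F}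
    (h : ContDiffWithinAt ℝ ∞ u S p) : ∀ᶠ q in 𝓝[S] p, DifferentiableWithinAt ℝ u S q :=
  nhdsWithin_mono p (subset_insert p S) <| ((h.of_le (m := 1) (by simp)).eventually (by simp)).mono
    fun _ h => h.differentiableWithinAt one_ne_zero

variable (R) in
/-- `f` agrees near `p` with the smooth function `u` of the ambient space -/
def Rep (f : R.O → ℝ) (p : R.O) (u : F → ℝ) : Prop :=
  ContDiffWithinAt ℝ ∞ u R.S p ∧ ∀ᶠ q in 𝓝 p, f q = u q

variable {f g : R.O → ℝ} {p : R.O} {u v : F → ℝ}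

lemma Rep.self (h : Rep R f p u) : f p = u p := h.2.self_of_nhds

lemma Rep.diff (h : Rep R f p u) : DifferentiableWithinAt ℝ u R.S p := dw h.1

lemma Rep.add (h : Rep R f p u) (k : Rep R g p v) : Rep R (f + g) p (fun q => u q + v q) :=
  ⟨h.1.add k.1, by filter_upwards [h.2, k.2] with q a b; rw [Pi.add_apply, a, b]⟩

lemma Rep.mul (h : Rep R f p u) (k : Rep R g p v) : Rep R (f * g) p (fun q => u q * v q) :=
  ⟨h.1.mul k.1, by filter_upwards [h.2, k.2] with q a b; rw [Pi.mul_apply, a, b]⟩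

lemma Rep.near (h : Rep R f p u) :
    ∀ᶠ q : R.O in 𝓝 p, DifferentiableWithinAt ℝ u R.S q ∧ ∀ᶠ r in 𝓝 q, f r = u r :=
  ((Ret.tend p).eventually (dw_near h.1)).and h.2.eventually_nhds

/-- properties of the points of `O` near `p` hold for the retracted points -/
lemma Ret.ev_ρ {P : R.O → Prop} (h : ∀ᶠ q in 𝓝 p, P q) :
    ∀ᶠ q in 𝓝[R.S] (p : F), ∃ hq : R.ρ q ∈ R.O, P ⟨R.ρ q, hq⟩ := by
  rw [nhds_subtype, eventually_comap] at h
  have h1 : Tendsto R.ρ (𝓝[R.S] p) (𝓝 (p : F)) := by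
    have := (R.sm p p.2).continuousWithinAt.tendsto
    rwa [R.fix p p.2] at this
  filter_upwards [h1.eventually h, R.into p p.2] with q a b using ⟨b, a ⟨_, b⟩ rfl⟩

lemma Ret.has_comp (hu : DifferentiableWithinAt ℝ u R.S p) : HasFDerivWithinAt (u ∘ R.ρ)
    ((fderivWithin ℝ u R.S p).comp (fderivWithin ℝ R.ρ R.S p)) R.S p := by
  refine HasFDerivWithinAt.comp_of_tendsto (t := R.S) (p : F) ?_
    (dw (R.sm p p.2)).hasFDerivWithinAt ?_
  · rw [R.fix p p.2]; exact hu.hasFDerivWithinAt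
  · exact tendsto_nhdsWithin_iff.2 ⟨(R.sm p p.2).continuousWithinAt.tendsto,
      (R.into p p.2).mono fun q h => R.sub h⟩

/-- the retracted representative -/
lemma Rep.ret (h : Rep R f p u) : Rep R f p (u ∘ R.ρ) := by
  refine ⟨ContDiffWithinAt.comp_of_preimage_mem_nhdsWithin (t := R.S) (p : F) ?_ (R.sm p p.2)
    ((R.into p p.2).mono fun q h => R.sub h), h.2.mono fun q a => ?_⟩
  · rw [R.fix p p.2]; exact h.1
  · rw [a, Function.comp, R.fix q q.2]

variable (R) in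
/-- the ring of smooth functions on `O` -/
def Sm : Subalgebra ℝ (R.O → ℝ) where
  carrier := {f | ∀ p, ∃ u, Rep R f p u}
  mul_mem' := fun {f g} h k p => by
    obtain ⟨u, hu⟩ := h p
    obtain ⟨v, hv⟩ := k p
    exact ⟨_, hu.mul hv⟩
  add_mem' := fun {f g} h k p => by
    obtain ⟨u, hu⟩ := h p
    obtain ⟨v, hv⟩ := k p
    exact ⟨_, hu.add hv⟩
  algebraMap_mem' := fun c _ => ⟨fun _ => c, contDiffWithinAt_const, .of_forall fun _ => rfl⟩

lemma Sm.rep (f : Sm R) (p : R.O) : ∃ u, Rep R f.1 p u := f.2 p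

/-- the restriction of a smooth function -/
def Sm.mk (u : F → ℝ) (hu : ∀ p ∈ R.O, ContDiffWithinAt ℝ ∞ u R.S p) : Sm R :=
  ⟨fun p => u p, fun p => ⟨u, hu p p.2, .of_forall fun _ => rfl⟩⟩

lemma Sm.mk_rep (u : F → ℝ) (hu : ∀ p ∈ R.O, ContDiffWithinAt ℝ ∞ u R.S p) (p : R.O) :
    Rep R (Sm.mk u hu).1 p u := ⟨hu p p.2, .of_forall fun _ => rfl⟩

/-- evaluation at a point -/
def ev (p : R.O) : Sm R →ₐ[ℝ] ℝ := (Pi.evalAlgHom ℝ (fun _ : R.O => ℝ) p).comp (Sm R).val

lemma ev_apply (p : R.O) (f : Sm R) : ev p f = f.1 p := rfl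

lemma Sm.ext {f g : Sm R} (h : ∀ p, ev p f = ev p g) : f = g := Subtype.ext (funext h)

@[simp] lemma ev_mk (u : F → ℝ) (hu : ∀ p ∈ R.O, ContDiffWithinAt ℝ ∞ u R.S p) (p : R.O) :
    ev p (Sm.mk u hu) = u p := rfl

lemma Sm.cont (f : Sm R) : Continuous fun p => ev p f := by
  refine continuous_iff_continuousAt.2 fun p => ?_
  obtain ⟨u, hu⟩ := Sm.rep f p
  have := (hu.1.continuousWithinAt.tendsto.comp (Ret.tend p)).congr' (hu.2.mono fun q h => h.symm)
  rwa [← hu.self] at this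

variable (R) in
/-- a vector tangent to `O` -/
def TanV (p Z : F) : Prop := fderivWithin ℝ R.ρ R.S p Z = Z

lemma TanV.uniq {Z : F} (hZ : TanV R p Z) (hu : DifferentiableWithinAt ℝ u R.S p)
    (hv : DifferentiableWithinAt ℝ v R.S p) (h : ∀ᶠ q : R.O in 𝓝 p, u q = v q) :
    fderivWithin ℝ u R.S p Z = fderivWithin ℝ v R.S p Z := by
  have h1 : (u ∘ R.ρ) =ᶠ[𝓝[R.S] (p : F)] (v ∘ R.ρ) := (Ret.ev_ρ h).mono fun q ⟨_, a⟩ => a
  have h2 := ((Ret.has_comp hv).congr_of_eventuallyEq h1 (h1.eq_of_nhdsWithin (R.sub p.2))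
    ).fderivWithin (Ret.udw p)
  rw [(Ret.has_comp hu).fderivWithin (Ret.udw p)] at h2
  have h3 := congrArg (fun l => l Z) h2
  simp only [ContinuousLinearMap.comp_apply] at h3
  rwa [hZ] at h3

variable (R) in
/-- a smooth field tangent to `O` -/
structure Tan (X : F → F) : Prop where
  sm : ∀ p ∈ R.O, ContDiffWithinAt ℝ ∞ X R.S p
  tan : ∀ p ∈ R.O, TanV R p (X p)

variable {X Y : F → F}

/-- the derivative of `f` along `X` at `p` -/
noncomputable def dv (X : F → F) (f : Sm R) (p : R.O) : ℝ :=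
  fderivWithin ℝ (Sm.rep f p).choose R.S p (X p)

lemma dv_eq (hX : Tan R X) {f : Sm R} (hu : DifferentiableWithinAt ℝ u R.S p)
    (h : ∀ᶠ q in 𝓝 p, f.1 q = u q) : dv X f p = fderivWithin ℝ u R.S p (X p) :=
  (hX.tan p p.2).uniq (Sm.rep f p).choose_spec.diff hu <| by
    filter_upwards [(Sm.rep f p).choose_spec.2, h] with q a b using a.symm.trans b

lemma Rep.dv (hX : Tan R X) {f : Sm R} (h : Rep R f.1 p u) :
    Rep R (dv X f) p (fun q => fderivWithin ℝ u R.S q (X q)) :=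
  ⟨(h.1.fderivWithin_right (m := ∞) R.ud (by simp) (R.sub p.2)).clm_apply (hX.sm p p.2), by
    filter_upwards [h.near] with q hq using dv_eq hX hq.1 hq.2⟩

/-- the derivation given by a tangent field -/
noncomputable def der (hX : Tan R X) : Derivation ℝ (Sm R) (Sm R) :=
  Derivation.mk'
    { toFun := fun f => ⟨dv X f, fun p => ⟨_, (Sm.rep f p).choose_spec.dv hX⟩⟩
      map_add' := fun f g => Subtype.ext <| funext fun p => by
        obtain ⟨u, hu⟩ := Sm.rep f p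
        obtain ⟨v, hv⟩ := Sm.rep g p
        change dv X (f + g) p = dv X f p + dv X g p
        rw [dv_eq hX (hu.add hv).diff (hu.add hv).2, dv_eq hX hu.diff hu.2, dv_eq hX hv.diff hv.2,
          fderivWithin_fun_add (Ret.udw p) hu.diff hv.diff]
        rfl
      map_smul' := fun c f => Subtype.ext <| funext fun p => by
        obtain ⟨u, hu⟩ := Sm.rep f p
        change dv X (c • f) p = c * dv X f p
        rw [dv_eq hX (u := fun q => c * u q) (hu.diff.const_mul c)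
          (hu.2.mono fun q h => by rw [← h]; rfl), dv_eq hX hu.diff hu.2,
          fderivWithin_const_mul (Ret.udw p) hu.diff]
        rfl }
    fun f g => Subtype.ext <| funext fun p => by
      obtain ⟨u, hu⟩ := Sm.rep f p
      obtain ⟨v, hv⟩ := Sm.rep g p
      change dv X (f * g) p = f.1 p * dv X g p + g.1 p * dv X f p
      rw [dv_eq hX (hu.mul hv).diff (hu.mul hv).2, dv_eq hX hu.diff hu.2, dv_eq hX hv.diff hv.2,
        fderivWithin_fun_mul (Ret.udw p) hu.diff hv.diff, hu.self, hv.self]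
      rfl

lemma Rep.der (hX : Tan R X) {f : Sm R} (h : Rep R f.1 p u) :
    Rep R (der hX f).1 p (fun q => fderivWithin ℝ u R.S q (X q)) := h.dv hX

lemma ev_der (hX : Tan R X) {f : Sm R} (h : Rep R f.1 p u) :
    ev p (der hX f) = fderivWithin ℝ u R.S p (X p) := (h.der hX).self

lemma ev_der_mk (hX : Tan R X) (u : F → ℝ) (hu : ∀ p ∈ R.O, ContDiffWithinAt ℝ ∞ u R.S p)
    (p : R.O) : ev p (der hX (Sm.mk u hu)) = fderivWithin ℝ u R.S p (X p) :=
  ev_der hX (Sm.mk_rep u hu p)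

lemma two_le : minSmoothness ℝ 2 ≤ ∞ := by
  rw [minSmoothness_of_isRCLikeNormedField]
  exact WithTop.coe_le_coe.2 le_top

/-- the commutator of two derivations is given by the bracket of the fields -/
lemma ev_der_der (hX : Tan R X) (hY : Tan R Y) {f : Sm R} (h : Rep R f.1 p u) :
    ev p (der hX (der hY f)) =
      ev p (der hY (der hX f)) + fderivWithin ℝ u R.S p (lieBracketWithin ℝ X Y R.S p) := by
  rw [ev_der hX (h.der hY), ev_der hY (h.der hX), fderivWithin_apply_lieBracket h.1 two_le R.ud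
    (R.cl (R.sub p.2)) (R.sub p.2) (dw (hY.sm p p.2)) (dw (hX.sm p p.2))]
  ring

lemma ev_der_der' (hX : Tan R X) (hY : Tan R Y) {f : Sm R} (h : Rep R f.1 p u) :
    ev p (der hX (der hY f)) = fderivWithin ℝ (fderivWithin ℝ u R.S) R.S p (X p) (Y p)
      + fderivWithin ℝ u R.S p (fderivWithin ℝ Y R.S p (X p)) := by
  rw [ev_der hX (h.der hY), fderivWithin_clm_apply (Ret.udw p)
    (dw (h.1.fderivWithin_right (m := ∞) R.ud (by simp) (R.sub p.2))) (dw (hY.sm p p.2))]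
  simp [add_comm]

/-- the derivative of a smooth function along a curve whose velocity is a combination of fields -/
lemma Sm.curve {ι : Type*} [Fintype ι] {Z : ι → F → F} (hZ : ∀ i, Tan R (Z i)) (f : Sm R)
    {α : ℝ → R.O} {c : ι → ℝ} {s : ℝ} {J : Set ℝ}
    (h : HasDerivWithinAt (fun s => (α s : F)) (∑ i, c i • Z i (α s)) J s) :
    HasDerivWithinAt (fun s => ev (α s) f) (∑ i, c i * ev (α s) (der (hZ i) f)) J s := by
  obtain ⟨u, hu⟩ := Sm.rep f (α s)
  have h1 := hu.diff.hasFDerivWithinAt.comp_hasDerivWithinAt s h fun r _ => R.sub (α r).2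
  simp only [map_sum, map_smul, smul_eq_mul] at h1
  simp only [fun i => ev_der (hZ i) hu]
  have h2 : Tendsto α (𝓝[J] s) (𝓝 (α s)) :=
    Topology.IsInducing.subtypeVal.tendsto_nhds_iff.2 h.continuousWithinAt
  exact h1.congr_of_eventuallyEq (h2.eventually hu.2) hu.self

/-! ### tests at a minimum -/

/-- restriction to a line -/
lemma line_der {H : Type*} [NormedAddCommGroup H] [NormedSpace ℝ H] {u : F → H} {S : Set F}
    {p Z : F} {J : Set ℝ} {s : ℝ} (hu : DifferentiableWithinAt ℝ u S (p + s • Z))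
    (hJ : ∀ᶠ r in 𝓝[J] s, p + r • Z ∈ S) :
    HasDerivWithinAt (fun r : ℝ => u (p + r • Z)) (fderivWithin ℝ u S (p + s • Z) Z) J s := by
  have h1 : HasDerivAt (fun r : ℝ => p + r • Z) Z s := by
    simpa using ((hasDerivAt_id s).smul_const Z).const_add p
  exact (hu.hasFDerivWithinAt.comp_hasDerivWithinAt s
    (h1.hasDerivWithinAt (s := {r | p + r • Z ∈ S})) fun _ h => h).mono_of_mem_nhdsWithin hJ

lemma line_tend {S : Set F} {p Z : F} {J : Set ℝ} (hJ : ∀ᶠ r in 𝓝[J] (0 : ℝ), p + r • Z ∈ S) :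
    Tendsto (fun r : ℝ => p + r • Z) (𝓝[J] 0) (𝓝[S] p) := by
  refine tendsto_nhdsWithin_iff.2 ⟨tendsto_nhdsWithin_of_tendsto_nhds ?_, hJ⟩
  exact Continuous.tendsto' (by fun_prop) _ _ (by simp)

/-- first and second derivative at a minimum along a line -/
lemma line_min {S : Set F} {p Z : F} (hS : UniqueDiffOn ℝ S) (hp : p ∈ S)
    (hu : ContDiffWithinAt ℝ ∞ u S p) (hJ : ∀ᶠ r in 𝓝 (0 : ℝ), p + r • Z ∈ S)
    (h : ∀ᶠ r in 𝓝 (0 : ℝ), u p ≤ u (p + r • Z)) :
    fderivWithin ℝ u S p Z = 0 ∧ 0 ≤ fderivWithin ℝ (fderivWithin ℝ u S) S p Z Z := by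
  have t := line_tend (J := univ) (by rwa [nhdsWithin_univ])
  rw [nhdsWithin_univ] at t
  have h1 : ∀ᶠ s in 𝓝 (0 : ℝ), HasDerivAt (fun r : ℝ => u (p + r • Z))
      (fderivWithin ℝ u S (p + s • Z) Z) s := by
    filter_upwards [t.eventually (dw_near hu), hJ.eventually_nhds] with s a b
    exact hasDerivWithinAt_univ.1 (line_der a (by rwa [nhdsWithin_univ]))
  have h2 := hasDerivWithinAt_univ.1 (line_der (p := p) (Z := Z) (s := 0) (J := univ) (S := S)
    (u := fderivWithin ℝ u S) (by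
      simpa using dw (hu.fderivWithin_right (m := ∞) hS (by simp) hp)) (by rwa [nhdsWithin_univ]))
  have h3 := P216MP.second_nonneg h1 (h2.clm_apply (hasDerivAt_const _ Z)) (by simpa using h)
  simpa using h3

/-- **first and second order test** at a local minimum in the slice `τ = τ p` -/
theorem min_der {ι : Type*} [Fintype ι] {Z : ι → F → F} (hZ : ∀ i, Tan R (Z i)) (τ : F →L[ℝ] ℝ)
    (hτ : ∀ i q, τ (Z i q) = 0) (hρ : ∀ q, τ (R.ρ q) = τ q)
    (hS : ∀ Y, τ Y = 0 → ∀ᶠ r in 𝓝 (0 : ℝ), (p : F) + r • Y ∈ R.S) {f : Sm R}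
    (h : ∀ᶠ q : R.O in 𝓝 p, τ q = τ p → ev p f ≤ ev q f) :
    (∀ i, ev p (der (hZ i) f) = 0) ∧
      ∀ c : ι → ℝ, 0 ≤ ∑ i, ∑ j, c i * c j * ev p (der (hZ i) (der (hZ j) f)) := by
  obtain ⟨u, hu⟩ := Sm.rep f p
  have key : ∀ Y, τ Y = 0 → fderivWithin ℝ (u ∘ R.ρ) R.S p Y = 0 ∧
      0 ≤ fderivWithin ℝ (fderivWithin ℝ (u ∘ R.ρ) R.S) R.S p Y Y := fun Y hY => by
    refine line_min R.ud (R.sub p.2) hu.ret.1 (hS Y hY) ?_
    have t := line_tend (J := univ) (by rw [nhdsWithin_univ]; exact hS Y hY)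
    rw [nhdsWithin_univ] at t
    filter_upwards [t.eventually (Ret.ev_ρ (h.and hu.2))] with r ⟨_, a, b⟩
    rw [← hu.ret.self]
    exact (a (by simp [hρ, hY])).trans_eq b
  refine ⟨fun i => by rw [ev_der _ hu.ret, (key _ (hτ i p)).1], fun c => ?_⟩
  have h1 : ∀ i j, τ (fderivWithin ℝ (Z j) R.S p (Z i p)) = 0 := fun i j => by
    have := τ.hasFDerivAt.comp_hasFDerivWithinAt (p : F) (dw ((hZ j).sm p p.2)).hasFDerivWithinAt
    have h2 := congrArg (fun l => l (Z i p)) (this.fderivWithin (Ret.udw p))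
    have h3 : τ ∘ Z j = fun _ => 0 := funext (hτ j)
    simpa [h3] using h2.symm
  have := (key (∑ i, c i • Z i p) (by simp [hτ])).2
  simp only [fun i j => ev_der_der' (hZ i) (hZ j) hu.ret, (key _ (h1 _ _)).1, add_zero]
  simp only [map_sum, map_smul, _root_.sum_apply, _root_.smul_apply, smul_eq_mul,
    Finset.mul_sum] at this
  rw [Finset.sum_comm]
  simpa only [mul_assoc, mul_left_comm] using this

/-- **first order test in time** at a minimum over the past -/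
theorem min_der_time (hX : Tan R X) (τ : F →L[ℝ] ℝ) (hτ : τ (X p) = 1)
    (hρ : ∀ q, τ (R.ρ q) = τ q) (hS : ∀ᶠ r in 𝓝[<] (0 : ℝ), (p : F) + r • X p ∈ R.S) {f : Sm R}
    (h : ∀ᶠ q : R.O in 𝓝 p, τ q < τ p → ev p f ≤ ev q f) : ev p (der hX f) ≤ 0 := by
  obtain ⟨u, hu⟩ := Sm.rep f p
  have h1 := line_der (p := (p : F)) (Z := X p) (s := 0) (J := Iio 0) (S := R.S)
    (u := u ∘ R.ρ) (by simpa using hu.ret.diff) hS
  rw [ev_der hX hu.ret]
  refine P216MP.deriv_nonpos_of_left (by simpa using h1.Iic_of_Iio) ?_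
  filter_upwards [(line_tend hS).eventually (Ret.ev_ρ (h.and hu.2)), self_mem_nhdsWithin]
    with r ⟨_, a, b⟩ hr
  have := (a (by simpa [hρ, hτ] using hr)).trans_eq b
  rw [ev_apply, hu.self] at this
  simpa [R.fix p p.2] using this

/-! ### composition and pull back -/

/-- composition with a smooth real function -/
def Sm.comp (h : ℝ → ℝ) (f : Sm R) (hh : ∀ p, ContDiffAt ℝ ∞ h (ev p f)) : Sm R :=
  ⟨fun p => h (f.1 p), fun p => by
    obtain ⟨u, hu⟩ := Sm.rep f p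
    refine ⟨fun q => h (u q),
      ContDiffAt.comp_contDiffWithinAt (p : F) (g := h) (hu.self ▸ hh p) hu.1, ?_⟩
    exact hu.2.mono fun q a => congrArg h a⟩

@[simp] lemma ev_comp (h : ℝ → ℝ) (f : Sm R) (hh : ∀ p, ContDiffAt ℝ ∞ h (ev p f)) (p : R.O) :
    ev p (Sm.comp h f hh) = h (ev p f) := rfl

lemma ev_der_comp (hX : Tan R X) (h : ℝ → ℝ) (f : Sm R) (hh : ∀ p, ContDiffAt ℝ ∞ h (ev p f))
    (p : R.O) : ev p (der hX (Sm.comp h f hh)) = deriv h (ev p f) * ev p (der hX f) := by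
  obtain ⟨u, hu⟩ := Sm.rep f p
  have h1 : ContDiffAt ℝ ∞ h (u p) := hu.self ▸ hh p
  rw [ev_der hX (u := h ∘ u) ⟨h1.comp_contDiffWithinAt (p : F) hu.1,
    hu.2.mono fun q a => congrArg h a⟩, ev_der hX hu, ev_apply, hu.self,
    (((h1.differentiableAt (by simp)).hasDerivAt).comp_hasFDerivWithinAt (p : F)
      hu.diff.hasFDerivWithinAt).fderivWithin (Ret.udw p)]
  rfl

variable (R R') in
/-- smooth maps between retracts -/
structure Mor (Ψ : F → F') : Prop where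
  map : MapsTo Ψ R.O R'.O
  sm : ∀ p ∈ R.O, ContDiffWithinAt ℝ ∞ Ψ R.S p
  mapS : ∀ p ∈ R.O, ∀ᶠ q in 𝓝[R.S] p, Ψ q ∈ R'.S

variable {Ψ : F → F'}

/-- the image point -/
def Mor.pt (h : Mor R R' Ψ) (p : R.O) : R'.O := ⟨Ψ p, h.map p.2⟩

lemma Mor.rep (h : Mor R R' Ψ) {f : R'.O → ℝ} {u : F' → ℝ} (hu : Rep R' f (h.pt p) u) :
    Rep R (fun p => f (h.pt p)) p (u ∘ Ψ) := by
  refine ⟨ContDiffWithinAt.comp_of_preimage_mem_nhdsWithin (p : F) hu.1 (h.sm p p.2)
    (h.mapS p p.2), ?_⟩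
  have : Tendsto h.pt (𝓝 p) (𝓝 (h.pt p)) := Topology.IsInducing.subtypeVal.tendsto_nhds_iff.2
    ((h.sm p p.2).continuousWithinAt.tendsto.comp (Ret.tend p))
  exact this.eventually hu.2

/-- the pull back along a smooth map -/
def pb (h : Mor R R' Ψ) : Sm R' →ₐ[ℝ] Sm R where
  toFun f := ⟨fun p => f.1 (h.pt p), fun p => ⟨_, h.rep (Sm.rep f (h.pt p)).choose_spec⟩⟩
  map_one' := rfl
  map_mul' _ _ := rfl
  map_zero' := rfl
  map_add' _ _ := rfl
  commutes' _ := rfl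

lemma ev_pb (h : Mor R R' Ψ) (f : Sm R') (p : R.O) : ev p (pb h f) = ev (h.pt p) f := rfl

/-- chain rule for the pull back -/
lemma ev_der_pb (hX : Tan R X) (h : Mor R R' Ψ) {f : Sm R'} (p : R.O) {u : F' → ℝ}
    (hu : Rep R' f.1 (h.pt p) u) : ev p (der hX (pb h f)) =
      fderivWithin ℝ u R'.S (Ψ p) (fderivWithin ℝ Ψ R.S p (X p)) := by
  rw [ev_der hX (h.rep hu), (HasFDerivWithinAt.comp_of_tendsto (p : F) hu.diff.hasFDerivWithinAt
    (dw (h.sm p p.2)).hasFDerivWithinAt (tendsto_nhdsWithin_iff.2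
      ⟨(h.sm p p.2).continuousWithinAt.tendsto, h.mapS p p.2⟩)).fderivWithin (Ret.udw p)]
  rfl

/-- related fields give intertwined derivations -/
lemma der_pb {ι : Type*} [Fintype ι] {Z : ι → F' → F'} (hX : Tan R X) (hZ : ∀ i, Tan R' (Z i))
    (h : Mor R R' Ψ) (c : ι → ℝ)
    (hc : ∀ p ∈ R.O, fderivWithin ℝ Ψ R.S p (X p) = ∑ i, c i • Z i (Ψ p)) (f : Sm R') :
    der hX (pb h f) = ∑ i, c i • pb h (der (hZ i) f) := by
  refine Sm.ext fun p => ?_
  obtain ⟨u, hu⟩ := Sm.rep f (h.pt p)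
  rw [ev_der_pb hX h p hu, hc p p.2]
  simp only [map_sum, map_smul, ev_pb, fun i => ev_der (hZ i) hu]
  rfl

lemma der_pb_one {Z : F' → F'} (hX : Tan R X) (hZ : Tan R' Z) (h : Mor R R' Ψ)
    (hc : ∀ p ∈ R.O, fderivWithin ℝ Ψ R.S p (X p) = Z (Ψ p)) (f : Sm R') :
    der hX (pb h f) = pb h (der hZ f) := by
  simpa using der_pb (ι := Unit) (Z := fun _ => Z) hX (fun _ => hZ) h (fun _ => 1)
    (by simpa using hc) f

end Vale.Agent.P216D
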