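import Mathlib.Analysis.Normed.Module.HahnBanach
import Mathlib.Analysis.Calculus.TangentCone.Prod
import Vale.Agent.P216D.ModRing
import Vale.Agent.P216D.ModGS

/-! # The fields on the space of frames of a family of metrics in a chart -/

open Set Filter Topology VectorField
open scoped ContDiff

set_option linter.unusedSimpArgs false
set_option maxSynthPendingDepth 3

namespace Vale.Agent.P216D

open Vale.Agent.P216R (E3)

/-- the space of all frames over space-time -/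
abbrev FF := (ℝ × E3) × (Fin 3 → E3)

/-- admissible sets of times (all nontrivial intervals, all open sets) -/
structure Iv (I : Set ℝ) : Prop where
  ud : UniqueDiffOn ℝ I
  cl : I ⊆ closure (interior I)

lemma Iv.of_isOpen {I : Set ℝ} (h : IsOpen I) : Iv I :=
  ⟨h.uniqueDiffOn, by rw [h.interior_eq]; exact subset_closure⟩

lemma Iv.of_convex {I : Set ℝ} (h : Convex ℝ I) (h' : (interior I).Nonempty) : Iv I :=
  ⟨uniqueDiffOn_convex h h', by
    rw [h.closure_interior_eq_closure_of_nonempty_interior h']; exact subset_closure⟩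

lemma iv_univ : Iv univ := .of_isOpen isOpen_univ

lemma iv_Icc {a b : ℝ} (h : a < b) : Iv (Icc a b) := .of_convex (convex_Icc a b) (by simpa using h)

lemma iv_Ioc {a b : ℝ} (h : a < b) : Iv (Ioc a b) := .of_convex (convex_Ioc a b) (by simpa using h)

lemma iv_Ico {a b : ℝ} (h : a < b) : Iv (Ico a b) := .of_convex (convex_Ico a b) (by simpa using h)

lemma iv_Iic (b : ℝ) : Iv (Iic b) := .of_convex (convex_Iic b) (by simp)

lemma iv_Ici (a : ℝ) : Iv (Ici a) := .of_convex (convex_Ici a) (by simp)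

/-- A family of metrics on `I × U` with its connection and its variation. -/
structure Loc where
  /-- the times -/
  I : Set ℝ
  /-- the domain -/
  U : Set E3
  /-- the metric -/
  G : ℝ × E3 → Bi
  /-- the Christoffel symbols -/
  Ga : ℝ × E3 → E3 →L[ℝ] E3 →L[ℝ] E3
  /-- the endomorphism with `g' = -2 g (Ks ., .)` -/
  Ks : ℝ × E3 → E3 →L[ℝ] E3
  iv : Iv I
  op : IsOpen U
  smG : ContDiffOn ℝ ∞ G (I ×ˢ U)
  smGa : ContDiffOn ℝ ∞ Ga (I ×ˢ U)
  smK : ContDiffOn ℝ ∞ Ks (I ×ˢ U)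
  symG : ∀ b ∈ I ×ˢ U, ∀ u v, G b u v = G b v u
  posG : ∀ b ∈ I ×ˢ U, ∀ v, v ≠ 0 → 0 < G b v v
  symGa : ∀ b ∈ I ×ˢ U, ∀ u v, Ga b u v = Ga b v u
  symK : ∀ b ∈ I ×ˢ U, ∀ u v, G b (Ks b u) v = G b u (Ks b v)
  compat : ∀ b ∈ I ×ˢ U, ∀ w u v,
    fderivWithin ℝ G (I ×ˢ U) b (0, w) u v = G b (Ga b w u) v + G b u (Ga b w v)
  time : ∀ b ∈ I ×ˢ U, ∀ u v, fderivWithin ℝ G (I ×ˢ U) b (1, 0) u v = -2 * G b (Ks b u) v

/-- the vertical fields -/
noncomputable def XV (a : Fin 3) (p : FF) : FF := (0, fun b => ∑ c, (eps a b c : ℝ) • p.2 c)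

/-- the vectors of the frame as a linear map -/
noncomputable def eL (a : Fin 3) : FF →L[ℝ] E3 :=
  (ContinuousLinearMap.proj a).comp (ContinuousLinearMap.snd ℝ (ℝ × E3) (Fin 3 → E3))

@[simp] lemma eL_apply (a : Fin 3) (p : FF) : eL a p = p.2 a := rfl

lemma sm_e (a : Fin 3) (S : Set FF) (p : FF) : ContDiffWithinAt ℝ ∞ (fun q : FF => q.2 a) S p :=
  (eL a).contDiff.contDiffWithinAt

lemma has_e (a : Fin 3) (S : Set FF) (p : FF) :
    HasFDerivWithinAt (fun q : FF => q.2 a) (eL a) S p := (eL a).hasFDerivWithinAt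

lemma sm_XV (a : Fin 3) (S : Set FF) (p : FF) : ContDiffWithinAt ℝ ∞ (XV a) S p := by
  refine ContDiffAt.contDiffWithinAt ?_
  unfold XV; fun_prop

lemma fderiv_XV (a : Fin 3) {S : Set FF} {p : FF} (h : UniqueDiffWithinAt ℝ S p) (Z : FF) :
    fderivWithin ℝ (XV a) S p Z = XV a Z := by
  have : HasFDerivWithinAt (XV a) ((0 : FF →L[ℝ] ℝ × E3).prod (ContinuousLinearMap.pi fun b =>
      ∑ c, (eps a b c : ℝ) • eL c)) S p := by
    refine HasFDerivWithinAt.congr (ContinuousLinearMap.hasFDerivWithinAt _) (fun q _ => ?_) ?_ <;>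
      ext <;> simp [XV]
  rw [this.fderivWithin h]
  ext <;> simp [XV]

namespace Loc

variable (L : Loc)

/-- the space-time domain -/
abbrev W : Set (ℝ × E3) := L.I ×ˢ L.U

/-- all frames over the domain -/
abbrev S : Set FF := L.W ×ˢ univ

lemma udW : UniqueDiffOn ℝ L.W := UniqueDiffOn.prod L.iv.ud L.op.uniqueDiffOn

lemma udS : UniqueDiffOn ℝ L.S := UniqueDiffOn.prod L.udW uniqueDiffOn_univ

lemma clW : L.W ⊆ closure (interior L.W) := by
  rw [interior_prod_eq, closure_prod_eq, L.op.interior_eq]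
  exact prod_mono L.iv.cl subset_closure

variable {L} {p : FF}

lemma uds (h : p.1 ∈ L.W) : UniqueDiffWithinAt ℝ L.S p := L.udS p ⟨h, trivial⟩

section gen
variable {H : Type*} [NormedAddCommGroup H] [NormedSpace ℝ H]

lemma sm_base {u : ℝ × E3 → H} (h : ContDiffWithinAt ℝ ∞ u L.W p.1) :
    ContDiffWithinAt ℝ ∞ (fun q : FF => u q.1) L.S p :=
  ContDiffWithinAt.comp p (g := u) h contDiffWithinAt_fst fun _ h => h.1

lemma has_base {u : ℝ × E3 → H} (h : DifferentiableWithinAt ℝ u L.W p.1) :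
    HasFDerivWithinAt (fun q : FF => u q.1)
      ((fderivWithin ℝ u L.W p.1).comp (ContinuousLinearMap.fst ℝ (ℝ × E3) (Fin 3 → E3))) L.S p :=
  HasFDerivWithinAt.comp p (g := u) h.hasFDerivWithinAt hasFDerivWithinAt_fst fun _ h => h.1

lemma fderiv_base (hp : p.1 ∈ L.W) {u : ℝ × E3 → H} (h : DifferentiableWithinAt ℝ u L.W p.1)
    (Z : FF) : fderivWithin ℝ (fun q : FF => u q.1) L.S p Z = fderivWithin ℝ u L.W p.1 Z.1 := by
  rw [(has_base h).fderivWithin (uds hp)]; rfl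

lemma sm_one {T : ℝ × E3 → E3 →L[ℝ] H} (h : ContDiffWithinAt ℝ ∞ T L.W p.1) (a : Fin 3) :
    ContDiffWithinAt ℝ ∞ (fun q : FF => T q.1 (q.2 a)) L.S p := (sm_base h).clm_apply (sm_e a _ p)

lemma fderiv_one (hp : p.1 ∈ L.W) {T : ℝ × E3 → E3 →L[ℝ] H}
    (h : DifferentiableWithinAt ℝ T L.W p.1) (a : Fin 3) (Z : FF) :
    fderivWithin ℝ (fun q : FF => T q.1 (q.2 a)) L.S p Z =
      fderivWithin ℝ T L.W p.1 Z.1 (p.2 a) + T p.1 (Z.2 a) := by
  rw [((has_base h).clm_apply (has_e a _ p)).fderivWithin (uds hp)]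
  simp [add_comm]

lemma sm_two {T : ℝ × E3 → E3 →L[ℝ] E3 →L[ℝ] H} (h : ContDiffWithinAt ℝ ∞ T L.W p.1)
    (a b : Fin 3) : ContDiffWithinAt ℝ ∞ (fun q : FF => T q.1 (q.2 a) (q.2 b)) L.S p :=
  (sm_one h a).clm_apply (sm_e b _ p)

lemma fderiv_two (hp : p.1 ∈ L.W) {T : ℝ × E3 → E3 →L[ℝ] E3 →L[ℝ] H}
    (h : DifferentiableWithinAt ℝ T L.W p.1) (a b : Fin 3) (Z : FF) :
    fderivWithin ℝ (fun q : FF => T q.1 (q.2 a) (q.2 b)) L.S p Z =
      fderivWithin ℝ T L.W p.1 Z.1 (p.2 a) (p.2 b) + T p.1 (Z.2 a) (p.2 b)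
        + T p.1 (p.2 a) (Z.2 b) := by
  rw [(((has_base h).clm_apply (has_e a _ p)).clm_apply (has_e b _ p)).fderivWithin (uds hp)]
  simp
  abel

end gen

lemma sm_gram (h : p.1 ∈ L.W) :
    ContDiffWithinAt ℝ ∞ (fun q : FF => gram (L.G q.1) q.2) L.S p :=
  contDiffWithinAt_pi.2 fun a => contDiffWithinAt_pi.2 fun b => sm_two (L.smG _ h) a b

variable (L) in
/-- the orthonormal frames as a retract of all frames -/
noncomputable def R : Ret FF where
  S := L.S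
  O := {p | p.1 ∈ L.W ∧ ON (L.G p.1) p.2}
  ρ q := (q.1, gs (L.G q.1) q.2)
  ud := L.udS
  cl := by
    rw [interior_prod_eq, closure_prod_eq, interior_univ, closure_univ]
    exact prod_mono L.clW subset_rfl
  sub _ h := ⟨h.1, trivial⟩
  sm p h := contDiffWithinAt_fst.prodMk (ContDiffAt.comp_contDiffWithinAt p
    (g := fun q : Bi × (Fin 3 → E3) => gs q.1 q.2) (f := fun q : FF => (L.G q.1, q.2))
    (sm_gs (h.2.gram ▸ ps_un)) ((sm_base (L.smG _ h.1)).prodMk contDiffWithinAt_snd))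
  fix p h := Prod.ext rfl h.2.gs
  into p h := by
    have h1 := (sm_gram h.1).continuousWithinAt.tendsto
    rw [h.2.gram] at h1
    filter_upwards [h1.eventually ps_un.near, self_mem_nhdsWithin] with q a b
    exact ⟨b.1, gs_on (L.symG _ b.1) a⟩

variable (L) in
/-- the orthonormal frames -/
abbrev O : Set FF := L.R.O

@[simp] lemma R_S : L.R.S = L.S := rfl

lemma mem_O : p ∈ L.O ↔ p.1 ∈ L.W ∧ ON (L.G p.1) p.2 := Iff.rfl

/-- vectors that preserve the scalar products are tangent -/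
lemma tanV_of (h : p ∈ L.O) {Z : FF} (h0 : ∀ a b, fderivWithin ℝ L.G L.W p.1 Z.1 (p.2 a) (p.2 b)
    + L.G p.1 (Z.2 a) (p.2 b) + L.G p.1 (p.2 a) (Z.2 b) = 0) : TanV L.R p Z := by
  have h1 := (dw (sm_gram h.1)).hasFDerivWithinAt
  have h2 : fderivWithin ℝ (fun q : FF => gram (L.G q.1) q.2) L.S p Z = 0 := by
    funext a b
    have := (hasFDerivWithinAt_pi'.1 (hasFDerivWithinAt_pi'.1 h1 a) b).fderivWithin (uds h.1)
    have h3 := fderiv_two h.1 (dw (L.smG _ h.1)) a b Z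
    rw [h0] at h3
    exact (congrArg (fun l => l Z) this).symm.trans h3
  have h3 : HasFDerivAt gsl (fderiv ℝ gsl un) (gram (L.G p.1) p.2) :=
    h.2.gram ▸ (ps_un.sm.differentiableAt (by simp)).hasFDerivAt
  have h4 := HasFDerivAt.comp_hasFDerivWithinAt p (f := fun q : FF => gram (L.G q.1) q.2) h3 h1
  have h5 : HasFDerivWithinAt L.R.ρ _ L.S p :=
    hasFDerivWithinAt_fst.prodMk (hasFDerivWithinAt_pi.2 fun a =>
      HasFDerivWithinAt.fun_sum (u := Finset.univ) fun b _ =>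
        (hasFDerivWithinAt_pi'.1 (hasFDerivWithinAt_pi'.1 h4 a) b).smul (has_e b _ p))
  refine (congrArg (fun l => l Z) (h5.fderivWithin (uds h.1))).trans ?_
  refine Prod.ext rfl (funext fun a => ?_)
  simp [h2, h.2.gram, gsl_un, sum_un]

variable (L) in
/-- the horizontal fields -/
noncomputable def XD (a : Fin 3) (p : FF) : FF :=
  ((0, p.2 a), fun c => -L.Ga p.1 (p.2 a) (p.2 c))

variable (L) in
/-- the time field -/
noncomputable def XT (p : FF) : FF := ((1, 0), fun c => L.Ks p.1 (p.2 c))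

variable (L) in
/-- the curvature -/
noncomputable def Rm (b : ℝ × E3) (u v w : E3) : E3 :=
  fderivWithin ℝ L.Ga L.W b (0, u) v w - fderivWithin ℝ L.Ga L.W b (0, v) u w
    + L.Ga b u (L.Ga b v w) - L.Ga b v (L.Ga b u w)

lemma sm_XD (h : p.1 ∈ L.W) (a : Fin 3) : ContDiffWithinAt ℝ ∞ (L.XD a) L.S p :=
  (contDiffWithinAt_const.prodMk (sm_e a _ p)).prodMk
    (contDiffWithinAt_pi.2 fun c => (sm_two (L.smGa _ h) a c).neg)

lemma sm_XT (h : p.1 ∈ L.W) : ContDiffWithinAt ℝ ∞ L.XT L.S p :=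
  contDiffWithinAt_const.prodMk (contDiffWithinAt_pi.2 fun c => sm_one (L.smK _ h) c)

lemma fderiv_XD (h : p.1 ∈ L.W) (a : Fin 3) (Z : FF) : fderivWithin ℝ (L.XD a) L.S p Z =
    ((0, Z.2 a), fun c => -(fderivWithin ℝ L.Ga L.W p.1 Z.1 (p.2 a) (p.2 c)
      + L.Ga p.1 (Z.2 a) (p.2 c) + L.Ga p.1 (p.2 a) (Z.2 c))) := by
  have : HasFDerivWithinAt (L.XD a) _ L.S p :=
    ((hasFDerivWithinAt_const (0 : ℝ) p _).prodMk (has_e a _ p)).prodMk
      (hasFDerivWithinAt_pi.2 fun c => (dw (sm_two (L.smGa _ h) a c)).hasFDerivWithinAt.neg)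
  rw [this.fderivWithin (uds h)]
  refine Prod.ext rfl (funext fun c => ?_)
  exact congrArg Neg.neg (fderiv_two h (dw (L.smGa _ h)) a c Z)

lemma fderiv_XT (h : p.1 ∈ L.W) (Z : FF) : fderivWithin ℝ L.XT L.S p Z =
    (0, fun c => fderivWithin ℝ L.Ks L.W p.1 Z.1 (p.2 c) + L.Ks p.1 (Z.2 c)) := by
  have : HasFDerivWithinAt L.XT _ L.S p :=
    (hasFDerivWithinAt_const ((1 : ℝ), (0 : E3)) p _).prodMk
      (hasFDerivWithinAt_pi.2 fun c => (dw (sm_one (L.smK _ h) c)).hasFDerivWithinAt)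
  rw [this.fderivWithin (uds h)]
  refine Prod.ext rfl (funext fun c => ?_)
  exact fderiv_one h (dw (L.smK _ h)) c Z

variable (L) in
lemma tanD (a : Fin 3) : Tan L.R (L.XD a) :=
  ⟨fun _ h => sm_XD h.1 a, fun q h => tanV_of h fun b c => by
    simp only [XD, L.compat _ h.1, map_neg, _root_.neg_apply]; ring⟩

variable (L) in
lemma tanT : Tan L.R L.XT :=
  ⟨fun _ h => sm_XT h.1, fun q h => tanV_of h fun b c => by
    simp only [XT, L.time _ h.1, ← L.symK _ h.1]; ring⟩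

variable (L) in
lemma tanV (a : Fin 3) : Tan L.R (XV a) :=
  ⟨fun q _ => sm_XV a _ q, fun q h => tanV_of h fun b c => by
    simp only [XV, map_zero, _root_.zero_apply, map_sum, map_smul, smul_eq_mul,
      _root_.sum_apply, _root_.smul_apply, h.2 _ _]
    revert a b c
    refine all3 ?_ ?_ ?_ <;> refine all3 ?_ ?_ ?_ <;> refine all3 ?_ ?_ ?_ <;>
      simp [Fin.sum_univ_three]⟩

/-- the bracket of two tangent fields preserves the scalar products -/
lemma br_skew {X Y : FF → FF} (hX : Tan L.R X) (hY : Tan L.R Y) (h : p ∈ L.O) (a b : Fin 3) :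
    fderivWithin ℝ L.G L.W p.1 (lieBracketWithin ℝ X Y L.S p).1 (p.2 a) (p.2 b)
      + L.G p.1 ((lieBracketWithin ℝ X Y L.S p).2 a) (p.2 b)
      + L.G p.1 (p.2 a) ((lieBracketWithin ℝ X Y L.S p).2 b) = 0 := by
  have h1 := ev_der_der hX hY (f := algebraMap ℝ (Sm L.R) (dl a b)) (p := ⟨p, h⟩)
    (u := fun q => L.G q.1 (q.2 a) (q.2 b))
    ⟨sm_two (L.smG _ h.1) a b, .of_forall fun q => (q.2.2 a b).symm⟩
  rw [← fderiv_two h.1 (dw (L.smG _ h.1))]
  simp only [Derivation.map_algebraMap, map_zero, zero_add] at h1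
  exact h1.symm

/-- a skew vertical vector is a combination of the vertical fields -/
lemma vert (h : p ∈ L.O) {y : Fin 3 → E3}
    (hy : ∀ a b, L.G p.1 (y a) (p.2 b) + L.G p.1 (p.2 a) (y b) = 0) :
    ((0, y) : FF) = ∑ d, L.G p.1 (y (d + 1)) (p.2 (d + 2)) • XV d p := by
  have s : ∀ a b, L.G p.1 (y a) (p.2 b) = -L.G p.1 (y b) (p.2 a) := fun a b => by
    rw [L.symG _ h.1 (y b)]; linarith [hy a b]
  have z : ∀ a, L.G p.1 (y a) (p.2 a) = 0 := fun a => by linarith [s a a]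
  refine Prod.ext (by simp [Prod.fst_sum, XV]) (funext fun b => ?_)
  simp only [Prod.snd_sum, Finset.sum_apply, Prod.smul_snd, Pi.smul_apply, XV]
  rw [h.2.expand (y b)]
  revert b
  refine all3 ?_ ?_ ?_ <;> simp [Fin.sum_univ_three, z, s 0 2, s 1 0, s 2 1, add_comm]

lemma br_DD (h : p.1 ∈ L.W) (a b : Fin 3) : lieBracketWithin ℝ (L.XD a) (L.XD b) L.S p =
    (0, fun c => -L.Rm p.1 (p.2 a) (p.2 b) (p.2 c)) := by
  rw [lieBracketWithin, fderiv_XD h, fderiv_XD h]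
  refine Prod.ext ?_ (funext fun c => ?_)
  · simp [XD, L.symGa _ h (p.2 a)]
  · simp only [XD, Rm, Prod.snd_sub, Pi.sub_apply, map_neg, _root_.neg_apply,
      L.symGa _ h (p.2 a) (p.2 b)]
    abel

lemma br_VD (h : p.1 ∈ L.W) (a b : Fin 3) : lieBracketWithin ℝ (XV a) (L.XD b) L.S p =
    ∑ c, (eps a b c : ℝ) • L.XD c p := by
  rw [lieBracketWithin, fderiv_XD h, fderiv_XV _ (uds h)]
  refine Prod.ext (Prod.ext ?_ ?_) (funext fun c => ?_)
  · simp [XD, XV, Prod.fst_sum]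
  · simp [XD, XV, Prod.fst_sum, Prod.snd_sum]
  · simp [XD, XV, Prod.snd_sum]

lemma br_VV (h : p.1 ∈ L.W) (a b : Fin 3) : lieBracketWithin ℝ (XV a) (XV b) L.S p =
    ∑ c, (eps a b c : ℝ) • XV c p := by
  rw [lieBracketWithin, fderiv_XV _ (uds h), fderiv_XV _ (uds h)]
  refine Prod.ext (by simp [XV, Prod.fst_sum]) (funext fun c => ?_)
  simp only [XV, Prod.snd_sum, Prod.snd_sub, Pi.sub_apply, Finset.sum_apply, Prod.smul_snd,
    Pi.smul_apply]
  revert a b c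
  refine all3 ?_ ?_ ?_ <;> refine all3 ?_ ?_ ?_ <;> refine all3 ?_ ?_ ?_ <;>
    simp [Fin.sum_univ_three]

lemma br_TV (h : p.1 ∈ L.W) (a : Fin 3) : lieBracketWithin ℝ L.XT (XV a) L.S p = 0 := by
  rw [lieBracketWithin, fderiv_XT h, fderiv_XV _ (uds h)]
  refine Prod.ext (by simp [XV]) (funext fun c => ?_)
  simp [XV, XT]

lemma br_TD (h : p.1 ∈ L.W) (a : Fin 3) :
    (lieBracketWithin ℝ L.XT (L.XD a) L.S p).1 = (0, L.Ks p.1 (p.2 a)) := by
  rw [lieBracketWithin, fderiv_XT h, fderiv_XD h]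
  simp [XT]

end Loc

end Vale.Agent.P216D
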