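import Mathlib.Analysis.LocallyConvex.SeparatingDual
import Vale.Agent.P216D.ModFrame

/-! # The concrete model of the frame bundle calculus -/

open Set Filter Topology VectorField
open scoped ContDiff

set_option linter.unusedSimpArgs false
set_option linter.unreachableTactic false
set_option linter.unusedTactic false
set_option linter.unnecessarySeqFocus false
set_option maxSynthPendingDepth 3

namespace Vale.Agent.P216D

open Vale.Agent.P216R (E3)

namespace Loc

variable (L : Loc)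

/-- the ring of smooth functions of orthonormal frames -/
abbrev A : Type := Sm L.R

variable {L} {p : FF}

lemma sm_Rm (h : p.1 ∈ L.W) (a b c : Fin 3) :
    ContDiffWithinAt ℝ ∞ (fun q : FF => L.Rm q.1 (q.2 a) (q.2 b) (q.2 c)) L.S p := by
  have h1 : ContDiffWithinAt ℝ ∞ (fun q : FF => fderivWithin ℝ L.Ga L.W q.1) L.S p :=
    sm_base ((L.smGa _ h).fderivWithin_right (m := ∞) L.udW (by simp) h)
  have h3 : ∀ a b c, ContDiffWithinAt ℝ ∞
      (fun q : FF => fderivWithin ℝ L.Ga L.W q.1 (0, q.2 a) (q.2 b) (q.2 c)) L.S p :=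
    fun a b c => ((h1.clm_apply (contDiffWithinAt_const.prodMk (sm_e a _ p))).clm_apply
      (sm_e b _ p)).clm_apply (sm_e c _ p)
  have h4 : ∀ a b c, ContDiffWithinAt ℝ ∞
      (fun q : FF => L.Ga q.1 (q.2 a) (L.Ga q.1 (q.2 b) (q.2 c))) L.S p := fun a b c =>
    (sm_one (L.smGa _ h) a).clm_apply (sm_two (L.smGa _ h) b c)
  exact (((h3 a b c).sub (h3 b a c)).add (h4 a b c)).sub (h4 b a c)

lemma sm_G (h : p.1 ∈ L.W) {v w : FF → E3} (hv : ContDiffWithinAt ℝ ∞ v L.S p)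
    (hw : ContDiffWithinAt ℝ ∞ w L.S p) :
    ContDiffWithinAt ℝ ∞ (fun q : FF => L.G q.1 (v q) (w q)) L.S p :=
  ((sm_base (L.smG _ h)).clm_apply hv).clm_apply hw

variable (L) in
/-- the components of the curvature tensor -/
noncomputable def rm (a b c d : Fin 3) : L.A :=
  Sm.mk (fun q => L.G q.1 (L.Rm q.1 (q.2 a) (q.2 b) (q.2 c)) (q.2 d))
    fun q h => sm_G h.1 (sm_Rm h.1 a b c) (sm_e d _ q)

lemma ev_rm (p : L.O) (a b c d : Fin 3) : ev p (L.rm a b c d) =
    L.G p.1.1 (L.Rm p.1.1 (p.1.2 a) (p.1.2 b) (p.1.2 c)) (p.1.2 d) := rfl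

lemma rm_skew (a b c d : Fin 3) : L.rm a b c d = -L.rm a b d c := by
  refine Sm.ext fun p => ?_
  have := br_skew (L.tanD a) (L.tanD b) p.2 c d
  rw [br_DD p.2.1] at this
  simp only [map_zero, _root_.zero_apply, map_neg, _root_.neg_apply] at this
  rw [map_neg, ev_rm, ev_rm, L.symG _ p.2.1 _ (p.1.2 c)]
  linarith

lemma rm_anti (a b c d : Fin 3) : L.rm a b c d = -L.rm b a c d := by
  refine Sm.ext fun p => ?_
  rw [map_neg, ev_rm, ev_rm, ← _root_.neg_apply, ← map_neg]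
  congr 2
  unfold Rm
  abel

lemma rm_self (a c d : Fin 3) : L.rm a a c d = 0 := by
  refine Sm.ext fun p => ?_
  have := congrArg (ev p) (rm_anti (L := L) a a c d)
  rw [map_neg] at this
  rw [map_zero]; linarith

lemma rm_self' (a b c : Fin 3) : L.rm a b c c = 0 := by
  refine Sm.ext fun p => ?_
  have := congrArg (ev p) (rm_skew (L := L) a b c c)
  rw [map_neg] at this
  rw [map_zero]; linarith

lemma DD_rm (a b : Fin 3) (x : L.A) : der (L.tanD a) (der (L.tanD b) x) =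
    der (L.tanD b) (der (L.tanD a) x) + ∑ d, L.rm a b (d + 2) (d + 1) * der (L.tanV d) x := by
  refine Sm.ext fun p => ?_
  obtain ⟨u, hu⟩ := Sm.rep x p
  have h1 := br_skew (L.tanD a) (L.tanD b) p.2
  rw [br_DD p.2.1] at h1
  simp only [map_zero, _root_.zero_apply, zero_add] at h1
  rw [ev_der_der _ _ hu, R_S, br_DD p.2.1, vert p.2 h1]
  simp only [map_add, map_sum, map_mul, map_smul, fun d => ev_der (L.tanV d) hu, smul_eq_mul,
    rm_skew a b (_ + 2), map_neg, ev_rm, _root_.neg_apply, R_S]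

variable (L) in
/-- the frame calculus of a family of metrics: static part -/
noncomputable def fr : Fr L.A where
  D a := der (L.tanD a)
  V a := der (L.tanV a)
  M c d := L.rm (c + 1) (c + 2) (d + 2) (d + 1)
  DD a b x := by
    rw [DD_rm]
    congr 1
    revert a b
    refine all3 ?_ ?_ ?_ <;> refine all3 ?_ ?_ ?_ <;>
      simp [Fin.sum_univ_three, rm_self, rm_anti 0 2, rm_anti 1 0, rm_anti 2 1] <;> ring
  VD a b x := Sm.ext fun p => by
    obtain ⟨u, hu⟩ := Sm.rep x p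
    rw [ev_der_der _ _ hu, R_S, br_VD p.2.1]
    simp only [map_add, map_sum, map_smul, map_zsmul, fun d => ev_der (L.tanD d) hu,
      Int.cast_smul_eq_zsmul, R_S]
  VV a b x := Sm.ext fun p => by
    obtain ⟨u, hu⟩ := Sm.rep x p
    rw [ev_der_der _ _ hu, R_S, br_VV p.2.1]
    simp only [map_add, map_sum, map_smul, map_zsmul, fun d => ev_der (L.tanV d) hu,
      Int.cast_smul_eq_zsmul, R_S]
  ind f h H := by
    have h1 : ∀ p : L.O, ∑ a, ev p (f a) • L.XD a p + ∑ a, ev p (h a) • XV a p = 0 := fun p => by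
      refine SeparatingDual.eq_zero_of_forall_dual_eq_zero (R := ℝ) fun l => ?_
      have := congrArg (ev p) (H (Sm.mk l fun q _ => l.contDiff.contDiffWithinAt))
      simpa only [map_add, map_sum, map_mul, ev_der_mk, map_zero,
        l.fderivWithin (Ret.udw p), map_smul, smul_eq_mul] using this
    have h2 : ∀ a, f a = 0 := fun a => Sm.ext fun p => by
      have := congrArg (fun z : FF => z.1.2) (h1 p)
      simp only [XD, XV, Prod.fst_add, Prod.snd_add, Prod.fst_sum, Prod.snd_sum, Prod.smul_fst,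
        Prod.smul_snd, Prod.fst_zero, Prod.snd_zero, smul_zero, Finset.sum_const_zero,
        add_zero] at this
      rw [← p.2.2.sum_left (fun a => ev p (f a)) a, this]
      simp
    refine fun a => ⟨h2 a, Sm.ext fun p => ?_⟩
    have := congrArg (fun z : FF => L.G p.1.1 (z.2 (a + 1)) (p.1.2 (a + 2))) (h1 p)
    simp only [h2, map_zero, zero_smul, Finset.sum_const_zero, zero_add, XV, Prod.snd_sum,
      Finset.sum_apply, Prod.smul_snd, Pi.smul_apply, map_sum, map_smul, _root_.sum_apply,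
      _root_.smul_apply, p.2.2 _ (a + 2), Prod.snd_zero, Pi.zero_apply, _root_.zero_apply] at this
    revert a
    refine all3 ?_ ?_ ?_ <;> intro this <;> simpa [Fin.sum_univ_three] using this

variable (L) in
/-- the vertical part of the bracket of the time field with a horizontal field -/
noncomputable def YT (a : Fin 3) (q : FF) (c : Fin 3) : E3 :=
  (lieBracketWithin ℝ L.XT (L.XD a) L.S q).2 c + L.Ga q.1 (L.Ks q.1 (q.2 a)) (q.2 c)

lemma sm_YT (h : p.1 ∈ L.W) (a c : Fin 3) : 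
    ContDiffWithinAt ℝ ∞ (fun q => L.YT a q c) L.S p := by
  have h1 : ContDiffWithinAt ℝ ∞ (lieBracketWithin ℝ L.XT (L.XD a) L.S) L.S p :=
    (sm_XT h).lieBracketWithin_vectorField (sm_XD h a) L.udS (by simp) ⟨h, trivial⟩
  exact (contDiffWithinAt_pi.1 h1.snd c).add
    (((sm_base (L.smGa _ h)).clm_apply (sm_one (L.smK _ h) a)).clm_apply (sm_e c _ p))

lemma br_TD' (h : p ∈ L.O) (a : Fin 3) : lieBracketWithin ℝ L.XT (L.XD a) L.S p =
    ∑ b, L.G p.1 (L.Ks p.1 (p.2 a)) (p.2 b) • L.XD b p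
      + ∑ d, L.G p.1 (L.YT a p (d + 1)) (p.2 (d + 2)) • XV d p := by
  have h1 := br_skew L.tanT (L.tanD a) h
  rw [br_TD h.1] at h1
  rw [← vert h (y := L.YT a p) fun b c => by
    have := h1 b c
    rw [L.compat _ h.1] at this
    simp only [YT, map_add, _root_.add_apply]
    linarith]
  have h2 := h.2.expand (L.Ks p.1 (p.2 a))
  refine Prod.ext ?_ (funext fun c => ?_)
  · rw [br_TD h.1]
    refine Prod.ext (by simp [Prod.fst_sum, XD]) ?_
    simpa [Prod.fst_sum, Prod.snd_sum, XD] using h2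
  · simp only [YT, Prod.snd_add, Prod.snd_sum, Pi.add_apply, Finset.sum_apply, Prod.smul_snd,
      Pi.smul_apply, XD]
    conv_rhs => rw [congrArg (fun v => L.Ga p.1 v (p.2 c)) h2]
    simp

variable (L) in
/-- the components of the variation of the metric -/
noncomputable def kk (a b : Fin 3) : L.A :=
  Sm.mk (fun q => L.G q.1 (L.Ks q.1 (q.2 a)) (q.2 b))
    fun q h => sm_G h.1 (sm_one (L.smK _ h.1) a) (sm_e b _ q)

lemma ev_kk (p : L.O) (a b : Fin 3) :
    ev p (L.kk a b) = L.G p.1.1 (L.Ks p.1.1 (p.1.2 a)) (p.1.2 b) := rfl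

variable (L) in
/-- the components of the mixed curvature -/
noncomputable def tt (a d : Fin 3) : L.A :=
  Sm.mk (fun q => L.G q.1 (L.YT a q (d + 1)) (q.2 (d + 2)))
    fun q h => sm_G h.1 (sm_YT h.1 a _) (sm_e _ _ q)

lemma ev_tt (p : L.O) (a d : Fin 3) :
    ev p (L.tt a d) = L.G p.1.1 (L.YT a p (d + 1)) (p.1.2 (d + 2)) := rfl

variable (L) in
/-- the frame calculus of a family of metrics -/
noncomputable def fl : Fl L.A where
  toFr := L.fr
  Dt := der L.tanT
  K := L.kk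
  T := L.tt
  K_symm a b := Sm.ext fun p => by
    rw [ev_kk, ev_kk, L.symK _ p.2.1, L.symG _ p.2.1]
  tD a x := Sm.ext fun p => by
    obtain ⟨u, hu⟩ := Sm.rep x p
    change ev p (der _ (der (L.tanD a) x)) = ev p (der (L.tanD a) (der _ x)
      + ∑ b, _ * der (L.tanD b) x + ∑ b, _ * der (L.tanV b) x)
    rw [ev_der_der _ _ hu, R_S, br_TD' p.2]
    simp only [map_add, map_sum, map_mul, map_smul, fun d => ev_der (L.tanV d) hu,
      fun d => ev_der (L.tanD d) hu, smul_eq_mul, ev_kk, ev_tt, add_assoc, R_S]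
  tV a x := Sm.ext fun p => by
    obtain ⟨u, hu⟩ := Sm.rep x p
    change ev p (der _ (der (L.tanV a) x)) = ev p (der (L.tanV a) (der _ x))
    rw [ev_der_der _ _ hu, R_S, br_TV p.2.1]
    simp

@[simp] lemma fl_toFr : L.fl.toFr = L.fr := rfl

lemma ev_D (a : Fin 3) {f : L.A} {p : L.O} {u : FF → ℝ} (h : Rep L.R f.1 p u) :
    ev p (L.fr.D a f) = fderivWithin ℝ u L.S p (L.XD a p) := ev_der (L.tanD a) h

lemma ev_V (a : Fin 3) {f : L.A} {p : L.O} {u : FF → ℝ} (h : Rep L.R f.1 p u) :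
    ev p (L.fr.V a f) = fderivWithin ℝ u L.S p (XV a p) := ev_der (L.tanV a) h

lemma ev_Dt {f : L.A} {p : L.O} {u : FF → ℝ} (h : Rep L.R f.1 p u) :
    ev p (L.fl.Dt f) = fderivWithin ℝ u L.S p (L.XT p) := ev_der L.tanT h

lemma fr_M (c d : Fin 3) : L.fr.M c d = L.rm (c + 1) (c + 2) (d + 2) (d + 1) := rfl

lemma ev_K (p : L.O) (a b : Fin 3) :
    ev p (L.fl.K a b) = L.G p.1.1 (L.Ks p.1.1 (p.1.2 a)) (p.1.2 b) := rfl

/-- the curvature tensor in terms of the curvature operator -/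
lemma rm_eq (a b c d : Fin 3) :
    L.rm a b c d = -∑ i, ∑ j, (eps a b i * eps c d j) • L.fr.M i j := by
  simp only [fr_M]
  revert a b c d
  refine all3 ?_ ?_ ?_ <;> refine all3 ?_ ?_ ?_ <;> refine all3 ?_ ?_ ?_ <;>
    refine all3 ?_ ?_ ?_ <;>
    simp [Fin.sum_univ_three, rm_self, rm_self', rm_anti 0 2, rm_anti 1 0, rm_anti 2 1,
      rm_skew _ _ 2 0, rm_skew _ _ 0 1, rm_skew _ _ 1 2] <;> ring

/-- the time as a linear form -/
noncomputable def tm : FF →L[ℝ] ℝ :=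
  (ContinuousLinearMap.fst ℝ ℝ E3).comp (ContinuousLinearMap.fst ℝ (ℝ × E3) (Fin 3 → E3))

@[simp] lemma tm_apply (p : FF) : tm p = p.1.1 := rfl

lemma line_S (p : L.O) (Y : FF) (h : tm Y = 0) : ∀ᶠ r in 𝓝 (0 : ℝ), (p : FF) + r • Y ∈ L.S := by
  have h1 : Tendsto (fun r : ℝ => p.1.1.2 + r • Y.1.2) (𝓝 0) (𝓝 p.1.1.2) :=
    Continuous.tendsto' (by fun_prop) _ _ (by simp)
  filter_upwards [h1.eventually (L.op.mem_nhds p.2.1.2)] with r hr
  refine ⟨⟨?_, hr⟩, trivial⟩
  have : Y.1.1 = 0 := h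
  simpa [this] using p.2.1.1

/-- **the maximum principle on frames**, space part: the gradient vanishes and the Hessian in all
horizontal and vertical directions is nonnegative -/
theorem min_psd {f : L.A} {p : L.O}
    (h : ∀ᶠ q : L.O in 𝓝 p, q.1.1.1 = p.1.1.1 → ev p f ≤ ev q f) :
    (∀ a, ev p (L.fr.D a f) = 0) ∧ (∀ a, ev p (L.fr.V a f) = 0) ∧
      ∀ c : Fin 3 ⊕ Fin 3 → ℝ, 0 ≤ ∑ i, ∑ j, c i * c j *
        ev p (Sum.elim L.fr.D L.fr.V i (Sum.elim L.fr.D L.fr.V j f)) := by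
  have hZ : ∀ i, Tan L.R (Sum.elim L.XD XV i) := Sum.rec L.tanD L.tanV
  have e : ∀ i, der (hZ i) = Sum.elim L.fr.D L.fr.V i := Sum.rec (fun _ => rfl) fun _ => rfl
  have := min_der hZ tm (Sum.rec (fun _ _ => rfl) fun _ _ => rfl) (fun _ => rfl) (line_S p) h
  simp only [e] at this
  exact ⟨fun a => this.1 (.inl a), fun a => this.1 (.inr a), this.2⟩

theorem min_hess {f : L.A} {p : L.O}
    (h : ∀ᶠ q : L.O in 𝓝 p, q.1.1.1 = p.1.1.1 → ev p f ≤ ev q f) (c : Fin 3 → ℝ) :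
    0 ≤ ∑ a, ∑ b, c a * c b * ev p (L.fr.D a (L.fr.D b f)) :=
  (min_der L.tanD tm (fun _ _ => rfl) (fun _ => rfl) (line_S p) h).2 c

theorem min_space {f : L.A} {p : L.O}
    (h : ∀ᶠ q : L.O in 𝓝 p, q.1.1.1 = p.1.1.1 → ev p f ≤ ev q f) (a : Fin 3) :
    ev p (L.fr.D a f) = 0 ∧ 0 ≤ ev p (L.fr.D a (L.fr.D a f)) ∧
      ev p (L.fr.V a f) = 0 ∧ 0 ≤ ev p (L.fr.V a (L.fr.V a f)) := by
  have h1 := min_der (ι := Unit) (fun _ => L.tanD a) tm (fun _ _ => rfl) (fun _ => rfl)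
    (line_S p) h
  have h2 := min_der (ι := Unit) (fun _ => L.tanV a) tm (fun _ _ => rfl) (fun _ => rfl)
    (line_S p) h
  exact ⟨h1.1 (), by simpa [fr] using h1.2 fun _ => 1, h2.1 (),
    by simpa [fr] using h2.2 fun _ => 1⟩

theorem min_lap {f : L.A} {p : L.O}
    (h : ∀ᶠ q : L.O in 𝓝 p, q.1.1.1 = p.1.1.1 → ev p f ≤ ev q f) : 0 ≤ ev p (L.fr.Lap f) := by
  rw [Fr.Lap, map_sum]
  exact Finset.sum_nonneg fun a _ => (min_space h a).2.1

/-- **the maximum principle on frames**, time part -/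
theorem min_time {f : L.A} {p : L.O} (hI : L.I ∈ 𝓝[<] p.1.1.1)
    (h : ∀ᶠ q : L.O in 𝓝 p, q.1.1.1 < p.1.1.1 → ev p f ≤ ev q f) : ev p (L.fl.Dt f) ≤ 0 := by
  refine min_der_time L.tanT tm rfl (fun _ => rfl) ?_ h
  have h1 : Tendsto (fun r : ℝ => p.1.1.1 + r) (𝓝[<] 0) (𝓝[<] p.1.1.1) :=
    tendsto_nhdsWithin_iff.2 ⟨tendsto_nhdsWithin_of_tendsto_nhds
      (Continuous.tendsto' (by fun_prop) _ _ (by simp)),
      eventually_nhdsWithin_of_forall fun r hr => by simpa using hr⟩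
  filter_upwards [h1.eventually_mem hI] with r hr
  exact ⟨⟨by simpa [XT] using hr, by simpa [XT] using p.2.1.2⟩, trivial⟩

end Loc

end Vale.Agent.P216D
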