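import Mathlib.Analysis.Calculus.Deriv.Prod
import Vale.Agent.P216D.ModFl
import Vale.Agent.P216D.Calc

/-! # Functions and tensors on the base as elements of the frame ring -/

open Set Filter Topology
open scoped ContDiff

set_option linter.unusedSimpArgs false
set_option maxSynthPendingDepth 3

namespace Vale.Agent.P216D

open Vale.Agent.P216R (E3)

section slice
variable {H : Type*} [NormedAddCommGroup H] [NormedSpace ℝ H] {I : Set ℝ} {U : Set E3}
  {u : ℝ × E3 → H} {b : ℝ × E3}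

lemma has_space (hU : IsOpen U) (hb : b ∈ I ×ˢ U) (h : DifferentiableWithinAt ℝ u (I ×ˢ U) b) :
    HasFDerivAt (fun y => u (b.1, y))
      ((fderivWithin ℝ u (I ×ˢ U) b).comp (ContinuousLinearMap.inr ℝ ℝ E3)) b.2 :=
  (HasFDerivWithinAt.comp b.2 (g := u) (f := fun y => (b.1, y)) (s := U) h.hasFDerivWithinAt
    (hasFDerivAt_prodMk_right b.1 b.2).hasFDerivWithinAt fun _ hy => ⟨hb.1, hy⟩).hasFDerivAt
    (hU.mem_nhds hb.2)

/-- the derivative in a space direction -/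
lemma fd_space (hU : IsOpen U) (hb : b ∈ I ×ˢ U) (h : DifferentiableWithinAt ℝ u (I ×ˢ U) b)
    (w : E3) : fderivWithin ℝ u (I ×ˢ U) b (0, w) = fderiv ℝ (fun y => u (b.1, y)) b.2 w := by
  rw [(has_space hU hb h).fderiv]; rfl

/-- the derivative in the time direction -/
lemma has_time (hb : b ∈ I ×ˢ U) (h : DifferentiableWithinAt ℝ u (I ×ˢ U) b) :
    HasDerivWithinAt (fun s => u (s, b.2)) (fderivWithin ℝ u (I ×ˢ U) b (1, 0)) I b.1 :=
  HasFDerivWithinAt.comp_hasDerivWithinAt b.1 (l := u) (f := fun s => (s, b.2)) h.hasFDerivWithinAt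
    (HasDerivAt.prodMk (hasDerivAt_id b.1) (hasDerivAt_const b.1 b.2)).hasDerivWithinAt
    fun _ hs => ⟨hs, hb.2⟩

lemma sm_slice (hU : IsOpen U) (hb : b ∈ I ×ˢ U) (h : ContDiffWithinAt ℝ ∞ u (I ×ˢ U) b) :
    ContDiffAt ℝ ∞ (fun y => u (b.1, y)) b.2 :=
  (ContDiffWithinAt.comp b.2 (g := u) (f := fun y => (b.1, y)) (s := U) h
    (contDiffWithinAt_const.prodMk contDiffWithinAt_id) fun _ hy => ⟨hb.1, hy⟩).contDiffAt
    (hU.mem_nhds hb.2)

end slice

lemma ON.rot {B : Bi} {e : Fin 3 → E3} (o : ON B e) {h : Ar}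
    (hh : ∀ a b, ∑ c, h a c * h b c = dl a b) : ON B fun a => ∑ c, h a c • e c := fun a b => by
  rw [map_sum, ← hh a b]
  exact Finset.sum_congr rfl fun c _ => by rw [map_smul, o.sum_left, smul_eq_mul, mul_comm]

namespace Loc

variable {L : Loc}

/-- the time of a frame -/
abbrev t (p : L.O) : ℝ := p.1.1.1

/-- the point of a frame -/
abbrev x (p : L.O) : E3 := p.1.1.2

/-- the vectors of a frame -/
abbrev e (p : L.O) : Fin 3 → E3 := p.1.2

lemma w_mem (p : L.O) : p.1.1 ∈ L.W := p.2.1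

lemma t_mem (p : L.O) : t p ∈ L.I := p.2.1.1

lemma x_mem (p : L.O) : x p ∈ L.U := p.2.1.2

lemma e_on (p : L.O) : ON (L.G (t p, x p)) (e p) := p.2.2

/-- the frame with given time, point and vectors -/
def mkF {s : ℝ} {y : E3} (hs : s ∈ L.I) (hy : y ∈ L.U) {f : Fin 3 → E3} (hf : ON (L.G (s, y)) f) :
    L.O := ⟨((s, y), f), ⟨hs, hy⟩, hf⟩

/-- the preferred frame at a point -/
noncomputable def sec {b : ℝ × E3} (hb : b ∈ L.W) : L.O :=
  ⟨(b, fr0 (L.G b)), hb, fr0_on (L.symG b hb) (L.posG b hb)⟩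

lemma sm_sec {b : ℝ × E3} (hb : b ∈ L.W) :
    ContDiffWithinAt ℝ ∞ (fun b => fr0 (L.G b)) L.W b :=
  (sm_fr0 (L.symG b hb) (L.posG b hb)).comp_contDiffWithinAt b (L.smG b hb)

lemma tendsto_base (p : L.O) : Tendsto (fun q : L.O => q.1.1) (𝓝 p) (𝓝[L.W] p.1.1) :=
  tendsto_nhdsWithin_iff.2 ⟨(continuous_fst.comp continuous_subtype_val).continuousAt,
    .of_forall w_mem⟩

/-! ### functions -/

section sc

variable (L) in
/-- a function on the base -/
noncomputable def sc (u : ℝ × E3 → ℝ) (hu : ContDiffOn ℝ ∞ u L.W) : L.A :=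
  Sm.mk (fun q => u q.1) fun _ h => sm_base (hu _ h.1)

variable {u : ℝ × E3 → ℝ} (hu : ContDiffOn ℝ ∞ u L.W) (p : L.O)

@[simp] lemma ev_sc : ev p (L.sc u hu) = u (t p, x p) := rfl

lemma rep_sc : Rep L.R (L.sc u hu).1 p fun q => u q.1 := Sm.mk_rep _ _ p

lemma V_sc (a : Fin 3) : L.fr.V a (L.sc u hu) = 0 := Sm.ext fun p => by
  rw [ev_V a (rep_sc hu p), fderiv_base (w_mem p) (dw (hu _ (w_mem p)))]
  simp [XV]

lemma inv_sc : L.fr.Inv (L.sc u hu) := V_sc hu

lemma ev_D_sc (a : Fin 3) :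
    ev p (L.fr.D a (L.sc u hu)) = fderiv ℝ (fun y => u (t p, y)) (x p) (e p a) := by
  rw [ev_D a (rep_sc hu p), fderiv_base (w_mem p) (dw (hu _ (w_mem p)))]
  exact fd_space L.op (w_mem p) (dw (hu _ (w_mem p))) _

lemma has_Dt_sc : HasDerivWithinAt (fun s => u (s, x p)) (ev p (L.fl.Dt (L.sc u hu))) L.I (t p) := by
  rw [ev_Dt (rep_sc hu p), fderiv_base (w_mem p) (dw (hu _ (w_mem p)))]
  exact has_time (w_mem p) (dw (hu _ (w_mem p)))

lemma ev_Dt_sc : ev p (L.fl.Dt (L.sc u hu)) = derivWithin (fun s => u (s, x p)) L.I (t p) :=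
  ((has_Dt_sc hu p).derivWithin (L.iv.ud _ (t_mem p))).symm

end sc

variable (L) in
/-- the time as an element of the ring -/
noncomputable def time' : L.A := L.sc Prod.fst contDiffOn_fst

@[simp] lemma ev_time (p : L.O) : ev p L.time' = t p := rfl

lemma D_time (a : Fin 3) : L.fr.D a L.time' = 0 := Sm.ext fun p => by
  rw [time', ev_D_sc]; simp

lemma V_time (a : Fin 3) : L.fr.V a L.time' = 0 := V_sc _ a

lemma Dt_time : L.fl.Dt L.time' = 1 := Sm.ext fun p =>
  (L.iv.ud _ (t_mem p)).eq_deriv _ (has_Dt_sc contDiffOn_fst p) (hasDerivWithinAt_id _ _)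

/-! ### one-forms and two-tensors -/

section one

variable (L) in
/-- the components of a one-form -/
noncomputable def l1 (T : ℝ × E3 → E3 →L[ℝ] ℝ) (hT : ContDiffOn ℝ ∞ T L.W) (a : Fin 3) : L.A :=
  Sm.mk (fun q => T q.1 (q.2 a)) fun _ h => sm_one (hT _ h.1) a

variable {T : ℝ × E3 → E3 →L[ℝ] ℝ} (hT : ContDiffOn ℝ ∞ T L.W) (p : L.O)

@[simp] lemma ev_l1 (a : Fin 3) : ev p (L.l1 T hT a) = T (t p, x p) (e p a) := rfl

lemma rep_l1 (a : Fin 3) : Rep L.R (L.l1 T hT a).1 p fun q => T q.1 (q.2 a) := Sm.mk_rep _ _ p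

lemma V_l1 (d a : Fin 3) : L.fr.V d (L.l1 T hT a) = ∑ c, eps d a c • L.l1 T hT c :=
  Sm.ext fun p => by
    rw [ev_V d (rep_l1 hT p a), fderiv_one (w_mem p) (dw (hT _ (w_mem p)))]
    simp [XV]

lemma ev_D_l1 (c a : Fin 3) : ev p (L.fr.D c (L.l1 T hT a)) =
    fderiv ℝ (fun y => T (t p, y)) (x p) (e p c) (e p a)
      - T (t p, x p) (L.Ga (t p, x p) (e p c) (e p a)) := by
  rw [ev_D c (rep_l1 hT p a), fderiv_one (w_mem p) (dw (hT _ (w_mem p))),
    ← fd_space L.op (w_mem p) (dw (hT _ (w_mem p)))]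
  simp [XD, sub_eq_add_neg]

lemma ev_Dt_l1 (a : Fin 3) : ev p (L.fl.Dt (L.l1 T hT a)) =
    derivWithin (fun s => T (s, x p)) L.I (t p) (e p a)
      + T (t p, x p) (L.Ks (t p, x p) (e p a)) := by
  rw [ev_Dt (rep_l1 hT p a), fderiv_one (w_mem p) (dw (hT _ (w_mem p))),
    (has_time (w_mem p) (dw (hT _ (w_mem p)))).derivWithin (L.iv.ud _ (t_mem p))]
  rfl

end one

section two

variable (L) in
/-- the components of a two-tensor -/
noncomputable def l2 (T : ℝ × E3 → Bi) (hT : ContDiffOn ℝ ∞ T L.W) (a b : Fin 3) : L.A :=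
  Sm.mk (fun q => T q.1 (q.2 a) (q.2 b)) fun _ h => sm_two (hT _ h.1) a b

variable {T : ℝ × E3 → Bi} (hT : ContDiffOn ℝ ∞ T L.W) (p : L.O)

@[simp] lemma ev_l2 (a b : Fin 3) : ev p (L.l2 T hT a b) = T (t p, x p) (e p a) (e p b) := rfl

lemma rep_l2 (a b : Fin 3) : Rep L.R (L.l2 T hT a b).1 p fun q => T q.1 (q.2 a) (q.2 b) :=
  Sm.mk_rep _ _ p

lemma V_l2 (d a b : Fin 3) : L.fr.V d (L.l2 T hT a b) =
    ∑ c, eps d a c • L.l2 T hT c b + ∑ c, eps d b c • L.l2 T hT a c := Sm.ext fun p => by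
  rw [ev_V d (rep_l2 hT p a b), fderiv_two (w_mem p) (dw (hT _ (w_mem p)))]
  simp [XV]

lemma ev_D_l2 (c a b : Fin 3) : ev p (L.fr.D c (L.l2 T hT a b)) =
    fderiv ℝ (fun y => T (t p, y)) (x p) (e p c) (e p a) (e p b)
      - T (t p, x p) (L.Ga (t p, x p) (e p c) (e p a)) (e p b)
      - T (t p, x p) (e p a) (L.Ga (t p, x p) (e p c) (e p b)) := by
  rw [ev_D c (rep_l2 hT p a b), fderiv_two (w_mem p) (dw (hT _ (w_mem p))),
    ← fd_space L.op (w_mem p) (dw (hT _ (w_mem p)))]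
  simp [XD, sub_eq_add_neg]

lemma ev_Dt_l2 (a b : Fin 3) : ev p (L.fl.Dt (L.l2 T hT a b)) =
    derivWithin (fun s => T (s, x p)) L.I (t p) (e p a) (e p b)
      + T (t p, x p) (L.Ks (t p, x p) (e p a)) (e p b)
      + T (t p, x p) (e p a) (L.Ks (t p, x p) (e p b)) := by
  rw [ev_Dt (rep_l2 hT p a b), fderiv_two (w_mem p) (dw (hT _ (w_mem p))),
    (has_time (w_mem p) (dw (hT _ (w_mem p)))).derivWithin (L.iv.ud _ (t_mem p))]
  rfl

end two

/-! ### the differential and the Hessian -/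

section hess

variable {u : ℝ × E3 → ℝ} (hu : ContDiffOn ℝ ∞ u L.W) (p : L.O)

/-- the differential in space is smooth in space-time -/
lemma sm_d {H : Type*} [NormedAddCommGroup H] [NormedSpace ℝ H] {v : ℝ × E3 → H}
    (hv : ContDiffOn ℝ ∞ v L.W) :
    ContDiffOn ℝ ∞ (fun b : ℝ × E3 => fderiv ℝ (fun y => v (b.1, y)) b.2) L.W := fun b hb =>
  (((hv b hb).fderivWithin_right (m := ∞) L.udW (by simp) hb).clm_comp
    (contDiffWithinAt_const (c := ContinuousLinearMap.inr ℝ ℝ E3))).congr_of_mem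
    (fun c hc => (has_space L.op hc (dw (hv c hc))).fderiv) hb

lemma D_sc (a : Fin 3) : L.fr.D a (L.sc u hu) =
    L.l1 (fun b => fderiv ℝ (fun y => u (b.1, y)) b.2) (sm_d hu) a :=
  Sm.ext fun p => ev_D_sc hu p a

lemma ev_DD_sc (a b : Fin 3) : ev p (L.fr.D a (L.fr.D b (L.sc u hu))) =
    fderiv ℝ (fderiv ℝ fun y => u (t p, y)) (x p) (e p a) (e p b)
      - fderiv ℝ (fun y => u (t p, y)) (x p) (L.Ga (t p, x p) (e p a) (e p b)) := by
  rw [D_sc, ev_D_l1]

end hess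

/-! ### descent of functions that do not depend on the frame -/

open Classical in
/-- the function on the base given by the values in the preferred frames -/
noncomputable def desc (f : L.A) (b : ℝ × E3) : ℝ := if h : b ∈ L.W then ev (sec h) f else 0

lemma desc_eq (f : L.A) {b : ℝ × E3} (h : b ∈ L.W) : desc f b = ev (sec h) f := dif_pos h

lemma sm_desc (f : L.A) : ContDiffOn ℝ ∞ (desc f) L.W := by
  intro b hb
  obtain ⟨u, hu⟩ := Sm.rep f (sec hb)
  have h1 : ContDiffWithinAt ℝ ∞ (fun b => ((b, fr0 (L.G b)) : FF)) L.W b :=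
    contDiffWithinAt_id.prodMk (sm_sec hb)
  refine (ContDiffWithinAt.comp b (g := u) (t := L.S) hu.1 h1 fun c hc => ⟨hc, trivial⟩
    ).congr_of_eventuallyEq_of_mem ?_ hb
  have h2 := hu.2
  rw [nhds_subtype, eventually_comap] at h2
  filter_upwards [h1.continuousWithinAt.tendsto.eventually h2, self_mem_nhdsWithin] with c a hc
  rw [desc_eq f hc]
  exact a (sec hc) rfl

lemma eq_sc {f : L.A} (h : ∀ p q : L.O, p.1.1 = q.1.1 → ev p f = ev q f) :
    f = L.sc (desc f) (sm_desc f) :=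
  Sm.ext fun p => (h p (sec (w_mem p)) rfl).trans (desc_eq f (w_mem p)).symm

/-- the frames over a compact set form a compact set -/
lemma isCompact_frames {K : Set (ℝ × E3)} (hK : IsCompact K) (hW : K ⊆ L.W) :
    IsCompact {p : L.O | p.1.1 ∈ K} := by
  rw [Topology.IsInducing.subtypeVal.isCompact_iff]
  have hc : ContinuousOn (fun z : (ℝ × E3) × Ar =>
      ((z.1, fun a => ∑ c, z.2 a c • fr0 (L.G z.1) c) : FF)) (K ×ˢ univ) := by
    have h1 : ContinuousOn (fun z : (ℝ × E3) × Ar => fr0 (L.G z.1)) (K ×ˢ univ) :=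
      ContinuousOn.comp (g := fun b => fr0 (L.G b)) (t := L.W)
        (fun b hb => (sm_sec hb).continuousWithinAt) continuousOn_fst fun _ h => hW h.1
    exact continuousOn_fst.prodMk (continuousOn_pi.2 fun a => continuousOn_finsetSum _ fun c _ =>
      ContinuousOn.smul (f := fun z : (ℝ × E3) × Ar => z.2 a c) (by fun_prop)
        (continuousOn_pi.1 h1 c))
  have hQ : IsCompact {h : Ar | ∀ a b, ∑ c, h a c * h b c = dl a b} := by
    refine Metric.isCompact_of_isClosed_isBounded ?_ ((Metric.isBounded_closedBall (x := 0)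
      (r := 1)).subset fun h hh => ?_)
    · simp only [Set.ofPred_forall]
      exact isClosed_iInter fun a => isClosed_iInter fun b =>
        isClosed_eq (by fun_prop) continuous_const
    · rw [mem_closedBall_zero_iff, pi_norm_le_iff_of_nonneg zero_le_one]
      refine fun a => (pi_norm_le_iff_of_nonneg zero_le_one).2 fun c => ?_
      have h1 := hh a a
      rw [dl_self, Int.cast_one] at h1
      have := Finset.single_le_sum (f := fun c => h a c * h a c) (fun c _ => mul_self_nonneg _)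
        (Finset.mem_univ c)
      exact abs_le_one_iff_mul_self_le_one.2 (this.trans h1.le)
  convert (hK.prod hQ).image_of_continuousOn (hc.mono (prod_mono subset_rfl (subset_univ _)))
  ext q
  constructor
  · rintro ⟨p, hp, rfl⟩
    have o := e_on (sec (w_mem p))
    refine ⟨(p.1.1, fun a c => L.G p.1.1 (e p a) (fr0 (L.G p.1.1) c)), ⟨hp, fun a b => ?_⟩,
      Prod.ext rfl (funext fun a => (o.expand _).symm)⟩
    rw [← e_on p a b, L.symG _ (w_mem p), o.pars (L.G (t p, x p) (e p b)) (e p a)]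
    rfl
  · rintro ⟨⟨b, h⟩, ⟨hb, hh⟩, rfl⟩
    have o : ON (L.G b) (fr0 (L.G b)) := e_on (sec (hW hb))
    exact ⟨⟨(b, fun a => ∑ c, h a c • fr0 (L.G b) c), hW hb, o.rot hh⟩, hb, rfl⟩

end Loc

end Vale.Agent.P216D
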