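import Vale.Agent.P216D.Evol

/-! # Bundled normal ordering rules

Typical use: `simp only [Fin.sum_univ_three, eps_nf, der_nf, c.nfD, c.nfM]; ring`. -/

namespace Vale.Agent.P216D

/-- the values of the alternating symbol and of the Kronecker symbol -/
lemma eps_nf :
    eps 0 0 0 = 0 ∧ eps 0 0 1 = 0 ∧ eps 0 0 2 = 0 ∧ eps 0 1 0 = 0 ∧ eps 0 1 1 = 0 ∧
    eps 0 1 2 = 1 ∧ eps 0 2 0 = 0 ∧ eps 0 2 1 = -1 ∧ eps 0 2 2 = 0 ∧ eps 1 0 0 = 0 ∧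
    eps 1 0 1 = 0 ∧ eps 1 0 2 = -1 ∧ eps 1 1 0 = 0 ∧ eps 1 1 1 = 0 ∧ eps 1 1 2 = 0 ∧
    eps 1 2 0 = 1 ∧ eps 1 2 1 = 0 ∧ eps 1 2 2 = 0 ∧ eps 2 0 0 = 0 ∧ eps 2 0 1 = 1 ∧
    eps 2 0 2 = 0 ∧ eps 2 1 0 = -1 ∧ eps 2 1 1 = 0 ∧ eps 2 1 2 = 0 ∧ eps 2 2 0 = 0 ∧
    eps 2 2 1 = 0 ∧ eps 2 2 2 = 0 ∧ dl 0 0 = 1 ∧ dl 0 1 = 0 ∧ dl 0 2 = 0 ∧
    dl 1 0 = 0 ∧ dl 1 1 = 1 ∧ dl 1 2 = 0 ∧ dl 2 0 = 0 ∧ dl 2 1 = 0 ∧
    dl 2 2 = 1 := by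
  decide

variable {A : Type*} [CommRing A] [Algebra ℝ A]

omit [Algebra ℝ A] in
/-- integer multiples -/
lemma zs_nf : (∀ x : A, (0 : ℤ) • x = 0) ∧ (∀ x : A, (1 : ℤ) • x = x) ∧
    ∀ x : A, (-1 : ℤ) • x = -x :=
  ⟨zero_smul ℤ, one_smul ℤ, fun x => by simp⟩

lemma der_pow (X : Derivation ℝ A A) (x : A) (n : ℕ) :
    X (x ^ (n + 1)) = (n + 1 : ℕ) * x ^ n * X x := by
  rw [X.leibniz_pow]
  simp only [Nat.add_sub_cancel, smul_eq_mul, nsmul_eq_mul, mul_assoc]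

lemma der_alg (X : Derivation ℝ A A) (r : ℝ) : X (algebraMap ℝ A r) = 0 := X.map_algebraMap r

/-- the rules for a derivation -/
lemma der_nf (X : Derivation ℝ A A) : (∀ x y, X (x + y) = X x + X y) ∧
    (∀ x y, X (x - y) = X x - X y) ∧ (∀ x, X (-x) = -X x) ∧ X 0 = 0 ∧ X 1 = 0 ∧ X 2 = 0 ∧
    X 3 = 0 ∧ X 4 = 0 ∧ (∀ x y, X (x * y) = x * X y + y * X x) ∧
    (∀ x, X (x ^ 2) = 2 * x * X x) ∧ ∀ r, X (algebraMap ℝ A r) = 0 :=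
  ⟨map_add X, map_sub X, map_neg X, map_zero X, X.map_one_eq_zero, der_ofNat X 2, der_ofNat X 3,
    der_ofNat X 4, der_mul X, der_sq X, der_alg X⟩

namespace Fr

variable (c : Fr A)

/-- normal ordering of the fields -/
lemma nfD : type_of% c.D01 ∧ type_of% c.D02 ∧ type_of% c.D12 ∧ type_of% c.VD00 ∧
    type_of% c.VD01 ∧ type_of% c.VD02 ∧ type_of% c.VD10 ∧ type_of% c.VD11 ∧ type_of% c.VD12 ∧
    type_of% c.VD20 ∧ type_of% c.VD21 ∧ type_of% c.VD22 ∧ type_of% c.VV01 ∧ type_of% c.VV02 ∧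
    type_of% c.VV12 :=
  ⟨c.D01, c.D02, c.D12, c.VD00, c.VD01, c.VD02, c.VD10, c.VD11, c.VD12, c.VD20, c.VD21, c.VD22,
    c.VV01, c.VV02, c.VV12⟩

/-- normal form of the curvature and its derivatives -/
lemma nfM : type_of% c.M10 ∧ type_of% c.M20 ∧ type_of% c.M21 ∧ type_of% c.B0 ∧ type_of% c.B1 ∧
    type_of% c.B2 ∧ type_of% c.VM000 ∧ type_of% c.VM001 ∧ type_of% c.VM002 ∧ type_of% c.VM011 ∧
    type_of% c.VM012 ∧ type_of% c.VM022 ∧ type_of% c.VM100 ∧ type_of% c.VM101 ∧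
    type_of% c.VM102 ∧ type_of% c.VM111 ∧ type_of% c.VM112 ∧ type_of% c.VM122 ∧
    type_of% c.VM200 ∧ type_of% c.VM201 ∧ type_of% c.VM202 ∧ type_of% c.VM211 ∧
    type_of% c.VM212 ∧ type_of% c.VM222 ∧ type_of% c.Ric00 ∧ type_of% c.Ric01 ∧
    type_of% c.Ric02 ∧ type_of% c.Ric10 ∧ type_of% c.Ric11 ∧ type_of% c.Ric12 ∧
    type_of% c.Ric20 ∧ type_of% c.Ric21 ∧ type_of% c.Ric22 ∧
    c.S = c.M 0 0 + c.M 1 1 + c.M 2 2 :=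
  ⟨c.M10, c.M20, c.M21, c.B0, c.B1, c.B2, c.VM000, c.VM001, c.VM002, c.VM011, c.VM012, c.VM022,
    c.VM100, c.VM101, c.VM102, c.VM111, c.VM112, c.VM122, c.VM200, c.VM201, c.VM202, c.VM211,
    c.VM212, c.VM222, c.Ric00, c.Ric01, c.Ric02, c.Ric10, c.Ric11, c.Ric12, c.Ric20, c.Ric21,
    c.Ric22, rfl⟩

end Fr

namespace Fl

variable (c : Fl A)

/-- moving the time derivative inside -/
lemma nfT : type_of% c.tD' ∧ type_of% c.tV ∧ type_of% c.T00 ∧ type_of% c.T01 ∧ type_of% c.T02 ∧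
    type_of% c.T10 ∧ type_of% c.T11 ∧ type_of% c.T12 ∧ type_of% c.T20 ∧ type_of% c.T21 ∧
    type_of% c.T22 :=
  ⟨c.tD', c.tV, c.T00, c.T01, c.T02, c.T10, c.T11, c.T12, c.T20, c.T21, c.T22⟩

/-- `K` is symmetric -/
lemma nfK : type_of% c.K10 ∧ type_of% c.K20 ∧ type_of% c.K21 := ⟨c.K10, c.K20, c.K21⟩

end Fl

namespace RF

variable (c : RF A)

/-- the time derivative of the curvature -/
lemma nfR : type_of% c.ric ∧ type_of% c.DtM00 ∧ type_of% c.DtM01 ∧ type_of% c.DtM02 ∧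
    type_of% c.DtM11 ∧ type_of% c.DtM12 ∧ type_of% c.DtM22 :=
  ⟨c.ric, c.DtM00, c.DtM01, c.DtM02, c.DtM11, c.DtM12, c.DtM22⟩

end RF

end Vale.Agent.P216D
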