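import Vale.Agent.P216R.Loc

/-! # Replacing an upper support function by a polynomial -/

open scoped ContDiff Topology NNReal
open Set Filter Asymptotics

set_option maxSynthPendingDepth 3

namespace Vale.Agent.P216D

open Vale.Agent.P216R

variable {E : Type} [NormedAddCommGroup E] [NormedSpace ℝ E]

lemma exists_coer [FiniteDimensional ℝ E] {B : Bil E} (hB : ∀ v, v ≠ 0 → 0 < B v v) :
    ∃ c > 0, ∀ v, c * ‖v‖ ^ 2 ≤ B v v := by
  rcases (Metric.sphere (0 : E) 1).eq_empty_or_nonempty with h | h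
  · refine ⟨1, one_pos, fun v => ?_⟩
    by_cases hv : v = 0
    · simp [hv]
    · exact absurd h (Nonempty.ne_empty ⟨‖v‖⁻¹ • v, by simp [norm_smul, hv]⟩)
  obtain ⟨w, hw, h1⟩ := (isCompact_sphere (0 : E) 1).exists_isMinOn h (f := fun v => B v v)
    (by fun_prop)
  refine ⟨B w w, hB w (by rintro rfl; simp at hw), fun v => ?_⟩
  by_cases hv : v = 0
  · simp [hv]
  have h2 : B w w ≤ B (‖v‖⁻¹ • v) (‖v‖⁻¹ • v) := h1 (by simp [norm_smul, hv])
  have h3 : 0 < ‖v‖ := norm_pos_iff.2 hv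
  simp only [map_smul, smul_apply, smul_eq_mul] at h2
  calc B w w * ‖v‖ ^ 2 ≤ ‖v‖⁻¹ * (‖v‖⁻¹ * B v v) * ‖v‖ ^ 2 := by gcongr
    _ = B v v := by field_simp

/-- the quadratic polynomial with given jet at `z` -/
noncomputable def qp (c : ℝ) (L : E →L[ℝ] ℝ) (Q : Bil E) (z y : E) : ℝ :=
  c + L (y - z) + (1 / 2) * Q (y - z) (y - z)

lemma qp_smooth (c : ℝ) (L : E →L[ℝ] ℝ) (Q : Bil E) (z : E) : ContDiff ℝ ∞ (qp c L Q z) := by
  unfold qp; fun_prop

lemma qp_has (c : ℝ) (L : E →L[ℝ] ℝ) {Q : Bil E} (hQ : ∀ v w, Q v w = Q w v) (z y : E) :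
    HasFDerivAt (qp c L Q z) (L + Q (y - z)) y := by
  have h1 : HasFDerivAt (fun y => y - z) (ContinuousLinearMap.id ℝ E) y :=
    (hasFDerivAt_id y).sub_const z
  have h2 := ((L.hasFDerivAt.comp y h1).const_add c).add
    (((Q.hasFDerivAt.comp y h1).clm_apply h1).const_mul (1 / 2 : ℝ))
  refine h2.congr_fderiv ?_
  ext v
  simp [hQ v]
  ring

lemma fderiv_qp (c : ℝ) (L : E →L[ℝ] ℝ) {Q : Bil E} (hQ : ∀ v w, Q v w = Q w v) (z : E) :
    fderiv ℝ (qp c L Q z) = fun y => L + Q (y - z) := funext fun y => (qp_has c L hQ z y).fderiv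

lemma fderiv2_qp (c : ℝ) (L : E →L[ℝ] ℝ) {Q : Bil E} (hQ : ∀ v w, Q v w = Q w v) (z y : E) :
    HasFDerivAt (fderiv ℝ (qp c L Q z)) Q y := by
  rw [fderiv_qp c L hQ]
  simpa using (Q.hasFDerivAt.comp y ((hasFDerivAt_id y).sub_const z)).const_add L

/-- second order Taylor expansion -/
lemma taylor2 {φ : E → ℝ} {z : E} (h : ContDiffAt ℝ ∞ φ z) :
    (fun y => φ y - qp (φ z) (fderiv ℝ φ z) (fderiv ℝ (fderiv ℝ φ) z) z y) =o[𝓝 z]
      fun y => ‖y - z‖ ^ 2 := by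
  have hs : ∀ v w, fderiv ℝ (fderiv ℝ φ) z v w = fderiv ℝ (fderiv ℝ φ) z w v :=
    h.isSymmSndFDerivAt (by
      rw [minSmoothness_of_isRCLikeNormedField]; exact WithTop.coe_le_coe.2 le_top)
  obtain ⟨δ, hδ, h1⟩ := Metric.eventually_nhds_iff_ball.1
    ((h.of_le (m := 1) (by simp)).eventually (by simp))
  have h2 : HasFDerivAt (fderiv ℝ φ) (fderiv ℝ (fderiv ℝ φ) z) z :=
    ((h.fderiv_right (m := 1) (WithTop.coe_le_coe.2 le_top)).differentiableAt
      one_ne_zero).hasFDerivAt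
  have h3 := (convex_ball z δ).isLittleO_pow_succ (n := 1) (Metric.mem_ball_self hδ)
    (f := fun y => φ y - qp (φ z) (fderiv ℝ φ z) (fderiv ℝ (fderiv ℝ φ) z) z y)
    (f' := fun y => fderiv ℝ φ y - (fderiv ℝ φ z + fderiv ℝ (fderiv ℝ φ) z (y - z)))
    (fun y hy => (((h1 y hy).differentiableAt one_ne_zero).hasFDerivAt.sub
      (qp_has _ _ hs z y)).hasFDerivWithinAt)
    (by
      have := (hasFDerivAt_iff_isLittleO.1 h2).norm_right
      simpa only [pow_one, sub_sub] using this.mono nhdsWithin_le_nhds)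
  rw [nhdsWithin_eq_nhds.2 (Metric.ball_mem_nhds z hδ)] at h3
  simpa [qp] using h3

/-- first order expansion in time, uniformly in space -/
lemma time_exp {f : ℝ → E → ℝ} {I : Set ℝ} {t d ε : ℝ} {z : E} (hI : Convex ℝ I) (ht : t ∈ I)
    (hu : UniqueDiffWithinAt ℝ I t) (hf : PS f I t z)
    (hd : HasDerivWithinAt (fun s => f s z) d I t) (hε : 0 < ε) :
    ∀ᶠ q in 𝓝[I ×ˢ univ] (t, z), f q.1 q.2 ≤ f t q.2 + d * (q.1 - t) + ε * |q.1 - t| := by
  have hm : (t, z) ∈ I ×ˢ (univ : Set E) := mk_mem_prod ht (mem_univ _)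
  obtain ⟨u, hu1, -, -, f', h1, h2⟩ := (contDiffWithinAt_succ_iff_hasFDerivWithinAt' (n := 0)
    (by simp)).1 (hf.of_le (m := 0 + 1) (by simp))
  rw [insert_eq_of_mem hm] at hu1
  have h3 : f' (t, z) (1, 0) = d := by
    have := (h1 _ (mem_of_mem_nhdsWithin hm hu1)).comp_hasDerivWithinAt t
      (f := fun s => (s, z)) (s := I) ((hasDerivWithinAt_id t I).prodMk
        (hasDerivWithinAt_const t I z)) fun s hs => mk_mem_prod hs (mem_univ _)
    exact hu.eq_deriv _ this hd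
  obtain ⟨v, hv, h4⟩ := (hI.prod convex_univ
    ).exists_nhdsWithin_lipschitzOnWith_of_hasFDerivWithinAt_of_nnnorm_lt (x := (t, z))
    (f := fun q : ℝ × E => f q.1 q.2 - f' (t, z) q) (f' := fun q => f' q - f' (t, z))
    (by filter_upwards [hu1] with q hq using (h1 q hq).sub (f' (t, z)).hasFDerivWithinAt)
    (h2.continuousWithinAt.sub continuousWithinAt_const) ε.toNNReal (by simpa using hε)
  have h5 : Tendsto (fun q : ℝ × E => (t, q.2)) (𝓝[I ×ˢ univ] (t, z)) (𝓝[I ×ˢ univ] (t, z)) :=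
    tendsto_nhdsWithin_iff.2 ⟨((continuous_const.prodMk continuous_snd).tendsto (t, z)).mono_left
      nhdsWithin_le_nhds, .of_forall fun q => mk_mem_prod ht (mem_univ _)⟩
  filter_upwards [hv, h5.eventually hv] with q q1 q2
  have h6 := (le_abs_self _).trans (h4.dist_le_mul q q1 _ q2)
  have h7 : f' (t, z) q = f' (t, z) (t, q.2) + d * (q.1 - t) := by
    rw [← h3, mul_comm, ← smul_eq_mul, ← map_smul, ← map_add]
    congr 1
    ext <;> simp
  have h8 : dist q (t, q.2) = |q.1 - t| := by simp [Prod.dist_eq, Real.dist_eq]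
  rw [h8, Real.coe_toNNReal ε hε.le] at h6
  linarith

/-- **A polynomial above a smooth germ.** -/
theorem poly_above [FiniteDimensional ℝ E] {f : ℝ → E → ℝ} {I : Set ℝ} {t d ε : ℝ} {z : E}
    (hI : Convex ℝ I) (ht : t ∈ I) (hu : UniqueDiffWithinAt ℝ I t) (hf : PS f I t z)
    (hd : HasDerivWithinAt (fun s => f s z) d I t) {B : Bil E} (hs : ∀ v w, B v w = B w v)
    (hB : ∀ v, v ≠ 0 → 0 < B v v) (hε : 0 < ε) :
    ∃ P : ℝ → E → ℝ, ContDiff ℝ ∞ (fun q : ℝ × E => P q.1 q.2) ∧ P t z = f t z ∧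
      fderiv ℝ (P t) z = fderiv ℝ (f t) z ∧
      fderiv ℝ (fderiv ℝ (P t)) z = fderiv ℝ (fderiv ℝ (f t)) z + ε • B ∧
      (∀ s y, HasDerivAt (fun s => P s y) (d - ε) s) ∧
      ∀ᶠ q in 𝓝[I ×ˢ univ] (t, z), q.1 ≤ t → f q.1 q.2 ≤ P q.1 q.2 := by
  have h := hf.contDiffAt ht
  have h0 : ∀ v w, (fderiv ℝ (fderiv ℝ (f t)) z + ε • B) v w =
      (fderiv ℝ (fderiv ℝ (f t)) z + ε • B) w v := fun v w => by
    have := h.isSymmSndFDerivAt (by
      rw [minSmoothness_of_isRCLikeNormedField]; exact WithTop.coe_le_coe.2 le_top) v w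
    simp [this, hs v]
  obtain ⟨c, hc, h1⟩ := exists_coer hB
  have e : (fun y => qp (f t z) (fderiv ℝ (f t) z) (fderiv ℝ (fderiv ℝ (f t)) z + ε • B) z y +
      (d - ε) * (t - t)) = qp (f t z) (fderiv ℝ (f t) z) (fderiv ℝ (fderiv ℝ (f t)) z + ε • B) z := by
    simp
  refine ⟨fun s y => qp (f t z) (fderiv ℝ (f t) z) (fderiv ℝ (fderiv ℝ (f t)) z + ε • B) z y +
    (d - ε) * (s - t), ((qp_smooth _ _ _ _).comp contDiff_snd).add (by fun_prop), by simp [qp],
    ?_, ?_, fun s y => ?_, ?_⟩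
  · beta_reduce; rw [e, fderiv_qp _ _ h0]; simp
  · beta_reduce; rw [e]; exact (fderiv2_qp _ _ h0 z z).fderiv
  · exact HasDerivAt.const_add _ (by simpa using ((hasDerivAt_id s).sub_const t).const_mul (d - ε))
  have h2 : ∀ᶠ q : ℝ × E in 𝓝[I ×ˢ univ] (t, z), _ :=
    nhdsWithin_le_nhds (continuousAt_snd.eventually
      ((taylor2 h).def (c := ε * c / 2) (by positivity)))
  filter_upwards [h2, time_exp hI ht hu hf hd hε] with q q1 q2 q3
  have h3 := mul_le_mul_of_nonneg_left (h1 (q.2 - z)) hε.le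
  have h4 := (le_abs_self _).trans q1
  rw [abs_of_nonpos (sub_nonpos.2 q3)] at q2
  simp only [qp, add_apply, smul_apply, smul_eq_mul,
    norm_pow, norm_norm] at h4 ⊢
  linarith

end Vale.Agent.P216D
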