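import Vale.Agent.P216FB.Defs
import Vale.Agent.P216EO.Tok
import Vale.Agent.P216D.ModM
import Vale.Agent.P216B.Sp

/-! # The regions defined by heat histories -/

open scoped Manifold ContDiff Topology ENNReal
open Set MeasureTheory Real
open Filter hiding comap comap_id

set_option maxSynthPendingDepth 3
set_option linter.unusedSectionVars false

noncomputable section

namespace Vale.Agent.P216D

open P216R P216LS P216FB P216DC P216MP P216EO
open P216ST (Sm0 SmF)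

/-- the distance like quantity attached to a weight -/
def qf (r v : ℝ) : ℝ := r / 2 * log (log (2 / v))

section real

variable {r v A : ℝ}

lemma half_le_lg (h0 : 0 < v) (h1 : v ≤ 1) : 1 / 2 ≤ log (2 / v) := by
  have := log_two_gt_d9
  have h2 : log 2 ≤ log (2 / v) := log_le_log two_pos (by rw [le_div_iff₀ h0]; linarith)
  linarith

lemma qf_le_iff (hr : 0 < r) (h0 : 0 < v) (h1 : v ≤ 1) : mA (A / r) ≤ v ↔ qf r v ≤ A := by
  have h2 := half_le_lg h0 h1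
  rw [qf, mA, ← le_div_iff₀' (half_pos hr), log_le_iff_le_exp (by linarith),
    log_le_iff_le_exp (by positivity), div_le_iff₀ h0, exp_neg, ← div_eq_mul_inv,
    div_le_iff₀ (exp_pos _), mul_comm v, show A / (r / 2) = 2 * (A / r) by field_simp]

lemma has_lg (h0 : 0 < v) : HasDerivAt (fun v => log (2 / v)) (-v⁻¹) v := by
  have h1 : HasDerivAt (fun v : ℝ => log 2 - log v) (-v⁻¹) v := by
    simpa using (hasDerivAt_log h0.ne').const_sub (log 2)
  refine h1.congr_of_eventuallyEq ?_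
  filter_upwards [Ioi_mem_nhds h0] with w hw using log_div two_ne_zero (ne_of_gt hw)

lemma lg_pos (h0 : 0 < v) (h1 : v < 2) : 0 < log (2 / v) := log_pos (by rwa [one_lt_div h0])

lemma has_qf (h0 : 0 < v) (h1 : v < 2) :
    HasDerivAt (qf r) (-(r / 2) / (v * log (2 / v))) v := by
  have h2 := lg_pos h0 h1
  refine (((has_lg h0).log h2.ne').const_mul (r / 2)).congr_deriv ?_
  field_simp

lemma has_qf' (h0 : 0 < v) (h1 : v < 2) : HasDerivAt (fun v => -(r / 2) / (v * log (2 / v)))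
    (r / 2 * (log (2 / v) - 1) / (v * log (2 / v)) ^ 2) v := by
  have h2 := lg_pos h0 h1
  refine ((hasDerivAt_const v (-(r / 2))).div ((hasDerivAt_id v).mul (has_lg h0))
    (mul_pos h0 h2).ne').congr_deriv ?_
  simp only [id, Pi.mul_apply]
  field_simp
  ring

lemma sm_qf (h0 : 0 < v) (h1 : v < 2) : ContDiffAt ℝ ∞ (qf r) v :=
  contDiffAt_const.mul (((contDiffAt_const.div contDiffAt_id h0.ne').log
    (div_pos two_pos h0).ne').log (lg_pos h0 h1).ne')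

lemma mA_anti {A' : ℝ} (h : A ≤ A') : mA A' ≤ mA A := by
  unfold mA; gcongr

lemma cD_nonneg (a : ℝ) : 0 ≤ cD a := by unfold cD; positivity

end real

variable {M : Type} [TopologicalSpace M] [ChartedSpace E3 M] [IsManifold 𝓘(ℝ, E3) ∞ M]

section static

variable {g : Ten E3 M} {U V : Set M} {u : M → ℝ} {τ r : ℝ} {x y : M}

lemma wb_mul (hg : Met g U) (h : Wb g U τ u) (hτ : r ^ 2 / 2 ≤ τ) (hx : x ∈ U) :
    r ^ 2 * gam g u u x ≤ 2 * (u x ^ 2 * log (2 / u x)) := by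
  have := mul_le_mul_of_nonneg_right hτ (P216MP.gam_nonneg hg hx u)
  linarith [h.grad x hx]

lemma gam_qf (hg : Met g U) (hu : Sm0 E3 u U) (h : Wb g U τ u) (hτ : r ^ 2 / 2 ≤ τ)
    (hx : x ∈ U) : gam g (fun y => qf r (u y)) (fun y => qf r (u y)) x ≤ 1 ^ 2 := by
  have h0 := h.pos x hx
  have h1 := has_qf (r := r) h0 (by linarith [h.le x hx])
  have h2 := (sm0_iff hg.isOpen).1 hu x hx
  have h3 := half_le_lg h0 (h.le x hx)
  have h4 := wb_mul hg h hτ hx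
  rw [gam_comp' g h2 h1.differentiableAt, gam_comm hg hx, gam_comp' g h2 h1.differentiableAt,
    h1.deriv, ← mul_assoc, ← sq, div_pow, div_mul_eq_mul_div, div_le_iff₀ (by positivity)]
  have h5 : 0 ≤ u x ^ 2 * log (2 / u x) * (log (2 / u x) - 1 / 2) :=
    mul_nonneg (by positivity) (by linarith)
  nlinarith

lemma lip_qf (hg : Met g U) (hu : Sm0 E3 u U) (h : Wb g U τ u) (hτ : r ^ 2 / 2 ≤ τ)
    (hV : IsOpen V) (hVU : V ⊆ U) (hne : ed g V x y ≠ ⊤) :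
    |qf r (u y) - qf r (u x)| ≤ dd g V x y := by
  have := (hg.mono hV hVU).lip_of_gam (φ := fun y => qf r (u y)) (fun z hz =>
    (((sm_qf (h.pos z (hVU hz)) (by linarith [h.le z (hVU hz)])).contMDiffAt.comp z
      ((sm0_iff hg.isOpen).1 hu z (hVU hz))).of_le (by simp)).contMDiffWithinAt) one_pos
    (fun z hz => gam_qf hg hu h hτ (hVU hz)) x y
  rwa [ENNReal.ofReal_one, one_mul, ← ofReal_dd hne, ENNReal.ofReal_le_ofReal_iff dd_nonneg] at this

end static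

variable [MeasurableSpace M] [BorelSpace M] {g : ℝ → Ten E3 M} {b d : M → ℝ}
  {T₀ T₁ s₁ T V s t r ρ : ℝ} {u : ℝ → M → ℝ} {U : Set M} {x : M}

lemma sl_gap (h : Sl b d s₁ T U t) (hf : (range b ∪ range d).Finite) :
    ∃ a c, s₁ ≤ a ∧ a < c ∧ c ≤ T ∧ t ∈ Icc a c ∧ Gap b d a c ∧ U = Liv b d a c := by
  rcases h with ⟨ht, rfl⟩ | ⟨ht, rfl⟩
  · obtain ⟨s, hs, hg⟩ := exists_gap_left hf t
    have h1 : max s s₁ < t := max_lt hs ht.1
    have hg' := hg.mono (le_max_left s s₁) le_rfl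
    exact ⟨_, t, le_max_right _ _, h1, ht.2, ⟨h1.le, le_rfl⟩, hg', hg'.preS_eq ⟨h1, le_rfl⟩⟩
  · obtain ⟨s, hs, hg⟩ := exists_gap_right hf t
    have h1 : t < min s T := lt_min hs ht.2
    have hg' := hg.mono le_rfl (min_le_left s T)
    exact ⟨t, _, ht.1, h1, min_le_right _ _, ⟨le_rfl, h1.le⟩, hg', hg'.postS_eq ⟨le_rfl, h1⟩⟩

lemma hist_sm (H : Hist g b d s₁ T V u) (hf : (range b ∪ range d).Finite)
    (h : Sl b d s₁ T U t) : Sm0 E3 (u t) U := by
  obtain ⟨a, c, h1, h2, h3, h4, h5, rfl⟩ := sl_gap h hf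
  exact smF_slice (H.ht a c h1 h2 h3 h5).sm h4

lemma liv_sl (h0 : s₁ ≤ s) (hs : s < t) (ht : t ≤ T) (hr : r ∈ Icc s t) :
    ∃ W, Sl b d s₁ T W r ∧ Liv b d s t ⊆ W := by
  rcases hr.2.eq_or_lt with rfl | hlt
  · exact ⟨_, sl_pre ⟨h0.trans_lt hs, ht⟩, liv_subset_preS ⟨hs, le_rfl⟩⟩
  · exact ⟨_, sl_post ⟨h0.trans hr.1, hlt.trans_le ht⟩, liv_subset_postS ⟨hr.1, hlt⟩⟩

lemma sl_big (h : Sl b d s₁ T U t) (h0 : T₀ ≤ s₁) (h1 : T ≤ T₁) : Sl b d T₀ T₁ U t :=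
  (h.mono h1).imp (fun h => ⟨⟨h0.trans_lt h.1.1, h.1.2⟩, h.2⟩)
    fun h => ⟨⟨h0.trans h.1.1, h.1.2⟩, h.2⟩

lemma sl_small (h : Sl b d T₀ T₁ U t) (h0 : s₁ < t) (h1 : t < T) : Sl b d s₁ (min T₁ T) U t :=
  h.imp (fun h => ⟨⟨h0, le_min h.1.2 h1.le⟩, h.2⟩) fun h => ⟨⟨h0.le, lt_min h.1.2 h1⟩, h.2⟩

lemma hist_cont (F : SF g b d T₀ T₁) (H : Hist g b d s₁ T V u) (hT : T ≤ T₁) (h0 : s₁ ≤ s)
    (hs : s < t) (ht : t ≤ T) :
    ContinuousOn (fun p : ℝ × M => u p.1 p.2) (Icc s t ×ˢ Liv b d s t) := by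
  have key : ∀ a c, s ≤ a → a < c → c ≤ t → Gap b d a c →
      ContinuousOn (fun p : ℝ × M => u p.1 p.2) (Icc a c ×ˢ Liv b d s t) := fun a c h1 h2 h3 h4 =>
    (smF_cont (F.isOpen_liv h2 (h3.trans (ht.trans hT)))
      (H.ht a c (h0.trans h1) h2 (h3.trans ht) h4).sm).mono (prod_mono le_rfl (liv_mono h1 h3))
  rintro ⟨r, z⟩ ⟨hr, hz⟩
  have L : s < r → ContinuousWithinAt (fun p : ℝ × M => u p.1 p.2) (Icc s r ×ˢ Liv b d s t)
      (r, z) := fun h => by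
    obtain ⟨a, h1, h2⟩ := exists_gap_left F.fin r
    have h3 : max a s < r := max_lt h1 h
    refine (key _ r (le_max_right _ _) h3 hr.2 (h2.mono (le_max_left _ _) le_rfl) _
      ⟨⟨h3.le, le_rfl⟩, hz⟩).mono_of_mem_nhdsWithin ?_
    filter_upwards [self_mem_nhdsWithin, mem_nhdsWithin_of_mem_nhds
      (continuousAt_fst.eventually (Ioi_mem_nhds h3))] with p h4 h5
    exact ⟨⟨le_of_lt h5, h4.1.2⟩, h4.2⟩
  have R : r < t → ContinuousWithinAt (fun p : ℝ × M => u p.1 p.2) (Icc r t ×ˢ Liv b d s t)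
      (r, z) := fun h => by
    obtain ⟨c, h1, h2⟩ := exists_gap_right F.fin r
    have h3 : r < min c t := lt_min h1 h
    refine (key r _ hr.1 h3 (min_le_right _ _) (h2.mono le_rfl (min_le_left _ _)) _
      ⟨⟨le_rfl, h3.le⟩, hz⟩).mono_of_mem_nhdsWithin ?_
    filter_upwards [self_mem_nhdsWithin, mem_nhdsWithin_of_mem_nhds
      (continuousAt_fst.eventually (Iio_mem_nhds h3))] with p h4 h5
    exact ⟨⟨h4.1.1, le_of_lt h5⟩, h4.2⟩
  rcases hr.1.eq_or_lt with rfl | h1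
  · exact R hs
  rcases hr.2.eq_or_lt with rfl | h2
  · exact L hs
  rw [← Icc_union_Icc_eq_Icc hr.1 hr.2, union_prod]
  exact (L h1).union (R h2)

/-- the supersolution property -/
lemma hist_vs (F : SF g b d T₀ T₁) (H : Hist g b d s₁ T V u) (h0 : T₀ ≤ s₁) (hT : T ≤ T₁)
    (hρ : 0 < ρ) (h1 : ρ ^ 2 / 2 ≤ r - s₁) (h2 : r ≤ T) (hx : x ∈ preS b d r) :
    Vs (g r) (fun s y => qf ρ (u s y)) r x (-(1 / ρ)) := by
  have h3 : s₁ < r := by nlinarith
  have hS : Sl b d s₁ T (preS b d r) r := sl_pre ⟨h3, h2⟩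
  have hg := F.met (sl_big hS h0 hT)
  have W := H.wb _ _ hS
  obtain ⟨a, k1, k2⟩ := exists_gap_left F.fin r
  have k3 : max a s₁ < r := max_lt k1 h3
  have k4 := k2.mono (le_max_left a s₁) le_rfl
  have k5 := (H.ht _ r (le_max_right _ _) k3 h2 k4).eqn r ⟨k3.le, le_rfl⟩ x
    (k4.preS_eq ⟨k3, le_rfl⟩ ▸ hx)
  have p0 := W.pos x hx
  have p2 : u r x < 2 := by linarith [W.le x hx]
  have sa := ((sm0_iff hg.isOpen).1 (hist_sm H F.fin hS) x hx).rd
  have k5' := HasDerivAt.comp_hasDerivWithinAt (h := fun s => u s x) r (has_qf (r := ρ) p0 p2) k5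
  have k6 := (up_smooth (E := E3) (w := fun s y => qf ρ (u s y)) (Icc_mem_nhdsLT k3) k5'
    (SA.comp sa (sm_qf p0 p2))).vs hg hx
  refine k6.mono ?_
  rw [P216MP.lap_comp sa (by
    filter_upwards [Ioo_mem_nhds p0 p2] with v hv using has_qf hv.1 hv.2) (has_qf' p0 p2)]
  have k7 := wb_mul hg W h1 hx
  have k8 := lg_pos p0 p2
  have k9 := P216MP.gam_nonneg hg hx (u r)
  have : ρ / 2 * (log (2 / u r x) - 1) / (u r x * log (2 / u r x)) ^ 2 *
      gam (g r) (u r) (u r) x ≤ 1 / ρ := by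
    rw [div_mul_eq_mul_div, div_le_div_iff₀ (by positivity) hρ]
    nlinarith [mul_le_mul_of_nonneg_right k7 k8.le, mul_nonneg (sq_nonneg ρ) k9]
  linarith

theorem rgn (hB : BAR) : RGN := by
  intro M _ _ _ _ _ g b d T₀ T₁ t₀ r₀ V F hr h0 h1
  have hq : 0 < r₀ ^ 2 := by positivity
  have sm : ∀ {U t}, Sl b d T₀ T₁ U t → t ∈ Icc (t₀ - r₀ ^ 2 / 2) t₀ →
      Sl b d (t₀ - r₀ ^ 2) (min T₁ (t₀ + r₀ ^ 2)) U t := fun hU ht =>
    sl_small hU (by linarith [ht.1]) (by linarith [ht.2])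
  have mono : ∀ {A A' t : ℝ} {y : M}, A ≤ A' → Rn g b d T₁ t₀ r₀ V A t y →
      Rn g b d T₁ t₀ r₀ V A' t y := fun h hN =>
    ⟨hN.1, fun u H => (mA_anti (div_le_div_of_nonneg_right h hr.le)).trans (hN.2 u H)⟩
  refine ⟨mono, fun {U A t r y z} hU hN hz => ⟨hN.1, fun u H => ?_⟩,
    fun {U A t s ρ σ K a y} hU hy hN hρ hρ' ha hK hσ hP hs hs' => ?_⟩
  · have hS := sm hU hN.1
    have W := H.wb _ _ hS
    obtain ⟨k1, k2⟩ := mem_bl_iff.1 hz
    obtain ⟨hy, hz'⟩ := mem_of_ed_ne k1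
    have k3 := lip_qf (r := r₀) (F.met hU) (hist_sm H F.fin hS) W (by linarith [hN.1.1])
      (F.sl_open hU) subset_rfl k1
    have k4 := (qf_le_iff hr (W.pos y hy) (W.le y hy)).1 (hN.2 u H)
    rw [qf_le_iff hr (W.pos z hz') (W.le z hz')]
    linarith [(abs_le.1 k3).2]
  rcases hs.2.eq_or_lt with rfl | hst
  · exact mono (le_add_of_nonneg_right (mul_nonneg (cD_nonneg a) hρ.le)) hN
  refine ⟨⟨hs', hst.le.trans hN.1.2⟩, fun u H => ?_⟩
  have hg := F.met hU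
  have hT : t ≤ min T₁ (t₀ + r₀ ^ 2) := (sm hU hN.1).mem_Icc.2
  have h2 : t₀ - r₀ ^ 2 ≤ s := by linarith
  have e : t - (t - s) = s := by ring
  have hI : Icc s t ⊆ Icc (t - σ) t := Icc_subset_Icc_left hs.1
  have hF : P216R.RF g (Icc s t) (bl (g t) U y ρ) :=
    SF.rf_sub hP.1 hI (hg.isOpen_bl y ρ) subset_rfl
  have hL := F.subset_liv hst.le hF.toFam
  have hyB : y ∈ bl (g t) U y ρ := mem_bl_self hy hρ
  have sl := fun r (hr : r ∈ Icc s t) => liv_sl (b := b) (d := d) h2 hst hT hr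
  have rg : ∀ r ∈ Icc s t, ∀ z ∈ bl (g t) U y ρ, 0 < u r z ∧ u r z ≤ 1 := fun r hr z hz => by
    obtain ⟨W, k1, k2⟩ := sl r hr
    exact ⟨(H.wb _ _ k1).pos z (k2 (hL hz)), (H.wb _ _ k1).le z (k2 (hL hz))⟩
  have := hB M g U y t ρ (t - s) K a (1 / r₀) (fun s z => qf r₀ (u s z)) hg (F.sl_hs hU) hy
    ((hg.cpl (F.sl_cpt hU)).cpt hy ρ) hρ (sub_pos.2 hst) ha hK (by linarith [hs.1])
    (by positivity) (by rwa [div_mul_eq_mul_div, one_mul, div_le_one hr])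
    ⟨by rw [Par, e]; exact hF, by rw [e]; exact fun r hr => hP.2 r (hI hr)⟩
    (by
      rw [e]
      intro p hp
      have k := rg p.1 hp.1 p.2 hp.2
      exact (sm_qf k.1 (by linarith [k.2])).continuousAt.comp_continuousWithinAt
        (f := fun p : ℝ × M => u p.1 p.2)
        ((hist_cont F H (min_le_left _ _) h2 hst hT).mono (prod_mono le_rfl hL) p hp))
    (by
      rw [e]
      exact fun r k z hz => hist_vs F H h0 (min_le_left _ _) hr (by linarith [k.1])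
        (k.2.trans hT) (liv_subset_preS k (hL hz)))
    (by
      rw [e]
      intro r k z hz
      obtain ⟨W, k1, k2⟩ := sl r k
      have k3 := lip_qf (r := r₀) (F.met (sl_big k1 h0 (min_le_left _ _))) (hist_sm H F.fin k1)
        (H.wb _ _ k1) (by linarith [k.1]) (hg.isOpen_bl y ρ) (hL.trans k2)
        ((hF.met k).ed_ne_top (isPathConnected_bl hy hρ).isConnected.isPreconnected subset_rfl
          hyB hz)
      linarith [(abs_le.1 k3).1])
  rw [e] at this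
  have k1 := rg s ⟨le_rfl, hst.le⟩ y hyB
  have k2 := rg t ⟨hst.le, le_rfl⟩ y hyB
  rw [qf_le_iff hr k1.1 k1.2]
  linarith [(qf_le_iff hr k2.1 k2.2).1 (hN.2 u H)]

theorem rg0 : RG0 := by
  intro M _ _ _ _ _ g b d T₀ T₁ t₀ r₀ w U x F hr h0 hU hw hV
  have hq : 0 < r₀ ^ 2 := by positivity
  refine ⟨⟨by linarith, le_rfl⟩, fun u H => ?_⟩
  have hS : Sl b d (t₀ - r₀ ^ 2) (min T₁ (t₀ + r₀ ^ 2)) U t₀ :=
    sl_small hU (by linarith) (by linarith)
  have W := H.wb _ _ hS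
  have hg := F.met hU
  have hu := hist_sm H F.fin hS
  obtain ⟨z, hz, k⟩ : ∃ z ∈ bl (g t₀) U x r₀, 1 / 2 ≤ u t₀ z := by
    by_contra hc
    push Not at hc
    have hm := (hg.isOpen_bl x r₀).measurableSet
    have fin : vol (g t₀) (bl (g t₀) U x r₀) ≠ ⊤ :=
      (vol_lt_top hg (F.sl_cpt hU) subset_rfl).ne |> measure_ne_top_of_subset bl_subset
    have hi : IntegrableOn (fun z => 1 - u t₀ z) U (vol (g t₀)) := int_of hg (F.sl_cpt hU)
      (continuousOn_const.sub ((sm0_iff' hg.isOpen).1 hu).continuousOn)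
    have k1 := setIntegral_mono_set hi (ae_restrict_of_forall_mem hg.isOpen.measurableSet
      fun z hz => sub_nonneg.2 (W.le z hz)) (bl_subset (g := g t₀) (x := x) (r := r₀)).eventuallyLE
    have k2 := setIntegral_ge_of_const_le_real (c := 1 / 2) hm fin
      (fun z hz => by linarith [hc z hz]) (hi.mono_set bl_subset)
    have k3 : w * r₀ ^ 3 ≤ (vol (g t₀)).real (bl (g t₀) U x r₀) :=
      (ENNReal.ofReal_le_iff_le_toReal fin).1 hV
    have k4 := H.mass _ _ hS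
    have : 0 < w * r₀ ^ 3 := by positivity
    linarith
  obtain ⟨k1, k2⟩ := mem_bl_iff.1 hz
  obtain ⟨hx, hz'⟩ := mem_of_ed_ne k1
  have k3 := lip_qf (r := r₀) hg hu W (by linarith) hg.isOpen subset_rfl k1
  have k4 : qf r₀ (u t₀ z) ≤ r₀ := by
    have p0 := W.pos z hz'
    have a1 : 2 / u t₀ z ≤ 4 := by rw [div_le_iff₀ p0]; linarith
    have a2 := log_le_sub_one_of_pos (div_pos two_pos p0)
    have a3 := log_le_sub_one_of_pos (lg_pos p0 (by linarith [W.le z hz']))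
    rw [qf]
    nlinarith
  rw [qf_le_iff hr (W.pos x hx) (W.le x hx)]
  linarith [(abs_le.1 k3).1]

end Vale.Agent.P216D
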