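import Vale.Agent.P216D.ModRG
import Vale.Agent.P216D.NN
import Vale.Agent.P216D.LocA
import Vale.Agent.P216D.Poly
import Vale.Agent.P216MP.Vs

/-! # The Bernstein-Shi estimate at a point of a Ricci flow on a manifold -/

open scoped Manifold ContDiff Topology
open Set Filter

set_option maxSynthPendingDepth 3

noncomputable section

namespace Vale.Agent.P216D

open Vale.Agent.P216R hiding RF
open Vale.Agent.P216MP (Up SA)
open Vale.Agent.P210.R2.H53 (gradG gamG hessG lapG)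

lemma nonneg_of_left {f : ℝ → ℝ} {d t : ℝ} {I : Set ℝ} (h : HasDerivWithinAt f d I t)
    (hI : I ∈ 𝓝[<] t) (hf : ∀ᶠ s in 𝓝[<] t, f s ≤ f t) : 0 ≤ d := by
  refine ge_of_tendsto ((hasDerivWithinAt_iff_tendsto_slope' (s := Iio t) (by simp)).1
    (h.mono_of_mem_nhdsWithin hI)) ?_
  filter_upwards [hf, self_mem_nhdsWithin] with s h1 h2
  rw [slope_def_field]
  exact div_nonneg_of_nonpos (sub_nonpos.2 h1) (sub_nonpos.2 (le_of_lt h2))

namespace Loc

variable {L : Loc}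

lemma Rw_rm' (k : ℕ) (j : Fin (k + 4) → Fin 3) :
    L.fr.Rw (fun j => L.rm (j 0) (j 1) (j 2) (j 3)) k j = L.lt _ (L.st_rmG k) j := by
  induction k with
  | zero => exact rm_lt j
  | succ k ih =>
    refine (congrArg (L.fr.D (j 0)) (ih (Fin.tail j))).trans ?_
    rw [D_lt, Fin.cons_self_tail]
    rfl

lemma ev_N' (p : L.O) (k : ℕ) : 4 * ev p (L.fr.N k) =
    ∑ j : Fin (k + 4) → Fin 3, rmG (L.g (t p)) k (x p, fun i => e p (j i)) ^ 2 := by
  have := congrArg (ev p) (L.fr.sum_Rw_sq (fun j => rm_eq (j 0) (j 1) (j 2) (j 3)) k)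
  simpa only [map_sum, map_pow, map_mul, map_ofNat, Rw_rm', ev_lt] using this.symm

/-- a maximum in space and in backward time of a function on the base -/
lemma max_test {F : L.A} {p : L.O} {Φ : ℝ → E3 → ℝ} (hF : ∀ q, ev q F = Φ (t q) (x q))
    (hl : L.I ∈ 𝓝[<] t p) (h1 : ∀ᶠ s in 𝓝[<] t p, Φ s (x p) ≤ Φ (t p) (x p))
    (h2 : ∀ᶠ y in 𝓝 (x p), Φ (t p) y ≤ Φ (t p) (x p)) :
    (∀ a, ev p (L.fr.D a F) = 0) ∧ 0 ≤ ev p (L.fl.H F) := by
  have h3 : ∀ᶠ q : L.O in 𝓝 p, q.1.1.1 = p.1.1.1 → ev p (-F) ≤ ev q (-F) := by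
    filter_upwards [(continuous_snd.comp (continuous_fst.comp continuous_subtype_val)
      ).continuousAt.eventually h2] with q a b
    rw [map_neg, map_neg, hF, hF, neg_le_neg_iff, show t q = t p from b]
    exact a
  have h4 := min_lap h3
  have h5 := has_Dt_sc (sm_desc F) p
  rw [← eq_sc fun p q H => by rw [hF, hF, t, t, x, x, H]] at h5
  have h6 := nonneg_of_left (h5.congr_of_mem (f₁ := fun s => Φ s (x p))
    (fun s hs => by rw [desc_eq F (b := (s, x p)) ⟨hs, x_mem p⟩, hF]; rfl) (t_mem p)) hl h1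
  rw [Fr.Lap_neg, map_neg] at h4
  refine ⟨fun a => by simpa using (min_space h3 a).1, ?_⟩
  rw [Fl.H, map_sub, fl_toFr]
  linarith

end Loc

variable {M : Type} [TopologicalSpace M] [ChartedSpace E3 M] [IsManifold 𝓘(ℝ, E3) ∞ M]
  {g : ℝ → Ten E3 M} {I : Set ℝ} {U : Set M} {t C : ℝ} {x : M} {φ : ℝ → M → ℝ}

lemma ev_N_co (h : Fam g I U) (hI : Iv I) (x : M) (q : (loc (h.co x) hI).O) (k : ℕ) :
    ev q ((loc (h.co x) hI).fr.N k) =
      NN (g (Loc.t q)) k ((chartAt E3 x).symm (Loc.x q)) / 4 := by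
  rw [NN_chart (h.met (Loc.t_mem q)) (Loc.x_mem q) (Loc.on_g q), eq_div_iff four_ne_zero, mul_comm]
  exact Loc.ev_N' q k

lemma cont_NN (h : Fam g I U) (hI : Iv I) (k : ℕ) :
    ContinuousOn (fun q : ℝ × M => NN (g q.1) k q.2) (I ×ˢ U) := fun q hq => by
  have h1 : PS (fun s z => 4 * Loc.desc ((loc (h.co q.2) hI).fr.N k) (s, z)) I q.1 (pt E3 q.2) :=
    contDiffWithinAt_univ_of (contDiffOn_const.mul (Loc.sm_desc (L := loc (h.co q.2) hI) _))
      (isOpen_dom q.2 h.isOpen) hq.1 (pt_mem_dom hq.2)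
  refine (PS.continuousWithinAt_rd (φ := fun s => NN (g s) k) (PS.congr h1 hq.1 ?_)).mono
    (prod_mono Subset.rfl (subset_univ _))
  filter_upwards [(isOpen_dom q.2 h.isOpen).mem_nhds (pt_mem_dom hq.2)] with z hz s hs
  rw [Loc.desc_eq (L := loc (h.co q.2) hI) _ (b := (s, z)) ⟨hs, hz⟩, ev_N_co h hI,
    mul_div_cancel₀ _ four_ne_zero]
  rfl

/-- an upper barrier with bounded gradient, almost a supersolution of the heat equation -/
def Bar (g : ℝ → Ten E3 M) (φ : ℝ → M → ℝ) (C t : ℝ) (x : M) : Prop :=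
  ∃ d f, Up E3 φ t x d f ∧ gam (g t) f f x ≤ C ∧ -C ≤ d - lap (g t) f x

theorem tst_bar (h : P216R.RF g I U) (hI : Iv I) (ht : t ∈ I) (hl : I ∈ 𝓝[<] t) (hx : x ∈ U)
    {S : Set (ℝ × M)} (h1 : ∀ᶠ s in 𝓝[<] t, (s, x) ∈ S) (h2 : ∀ᶠ y in 𝓝 x, (t, y) ∈ S)
    (h0 : 0 ≤ φ t x) (hb : Bar g φ C t x) :
    Tst S Prod.fst (fun q => φ q.1 q.2) (fun k q => NN (g q.1) k q.2 / 4) (C + 4) (t, x) := by
  obtain ⟨d, f, b1, b2, b3⟩ := hb
  have hm := (h.met ht).isMetricOn x
  have hz := pt_mem_dom (E := E3) hx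
  obtain ⟨P, p1, p2, p3, p4, -, p5⟩ := poly_above (f := fun _ => rd E3 f x) (I := univ) (t := t)
    (d := 0) (ε := 1) convex_univ (mem_univ _) uniqueDiffWithinAt_univ
    (ContDiffAt.comp (t, pt E3 x) (g := rd E3 f x) b1.sm contDiffAt_snd).contDiffWithinAt
    (hasDerivWithinAt_const _ _ _) (hm.symm _ hz) (hm.pos _ hz) one_pos
  have p6 : ∀ᶠ y in 𝓝 (pt E3 x), rd E3 f x y ≤ P t y := by
    rw [univ_prod_univ, nhdsWithin_univ] at p5
    exact ((Continuous.prodMk_right t).continuousAt.eventually p5).mono fun _ a => a le_rfl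
  have p7 : ContDiff ℝ ∞ (P t) := p1.comp (contDiff_const.prodMk contDiff_id)
  let L := loc (h.toFam.co x) hI
  let p : L.O := Loc.sec (b := (t, pt E3 x)) ⟨ht, hz⟩
  have hu : ContDiffOn ℝ ∞ (fun b : ℝ × E3 => P t b.2 + (d - 1) * (b.1 - t)) L.W :=
    ((p7.comp contDiff_snd).add (by fun_prop)).contDiffOn
  have e0 : (fun y => P t y + (d - 1) * (t - t)) = P t := by simp
  have e1 : P t (pt E3 x) = φ t x := by rw [p2, rd_pt, b1.eq]
  have hn := ev_N_co h.toFam hI x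
  refine tst_of_model (Loc.rf (L := L) (h.co x)) (ev p) L.time' (L.sc _ hu)
    (fun i => (hn p i).trans (congrArg (fun y => NN (g t) i y / 4) (symm_pt x))) rfl Loc.D_time
    ((congrArg (ev p) Loc.Dt_time).trans (map_one _)) ((congrFun e0 _).trans e1) h0 ?_ ?_ ?_
  · refine (Loc.ev_ip_sc p hu hu).trans_le ?_
    change gamG (co (g t) x) (fun y => P t y + (d - 1) * (t - t))
      (fun y => P t y + (d - 1) * (t - t)) (pt E3 x) ≤ _
    rw [e0]
    simp only [gam, gamG, gradG, ← p3] at b2 ⊢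
    linarith
  · refine le_of_le_of_eq ?_ (Loc.ev_H_sc p hu).symm
    change _ ≤ derivWithin (fun s => P t (pt E3 x) + (d - 1) * (s - t)) I t -
      lapG (co (g t) x) (fun y => P t y + (d - 1) * (t - t)) (pt E3 x)
    have e2 : hessG (co (g t) x) (P t) (pt E3 x) =
        hessG (co (g t) x) (rd E3 f x) (pt E3 x) + co (g t) x (pt E3 x) := by
      ext v w
      simp [hessG_apply, p3, p4]
      ring
    have e3 : HasDerivWithinAt (fun s => P t (pt E3 x) + (d - 1) * (s - t)) (d - 1) I t := by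
      simpa using ((((hasDerivAt_id t).sub_const t).const_mul (d - 1)).const_add
        (P t (pt E3 x))).hasDerivWithinAt
    have o : ON (co (g t) x (pt E3 x)) (Loc.e p) := Loc.on_g p
    have e4 : trB (co (g t) x (pt E3 x)) (co (g t) x (pt E3 x)) = 3 := by
      rw [o.trB (hm.pos _ hz)]
      simp [o _ _]
    rw [e0, lapG_eq, e2, trB_add, e4, ← lapG_eq, e3.derivWithin (hI.ud t ht)]
    rw [lap] at b3
    linarith
  intro k K α β ρ c1 c2 c3 c4 F hF
  let Φ : ℝ → E3 → ℝ := fun s z => (α + β * s) * (ρ - (P t z + (d - 1) * (s - t))) ^ 2 *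
    ((8 * K + NN (g s) k ((chartAt E3 x).symm z) / 4) * (NN (g s) (k + 1) ((chartAt E3 x).symm z) / 4))
  have key : ∀ s z, 0 < α + β * s → P t z + (d - 1) * (s - t) < ρ →
      φ s ((chartAt E3 x).symm z) ≤ P t z + (d - 1) * (s - t) →
      mq Prod.fst (fun q => φ q.1 q.2) (fun k q => NN (g q.1) k q.2 / 4) k K α β ρ
        (s, (chartAt E3 x).symm z) ≤
      mq Prod.fst (fun q => φ q.1 q.2) (fun k q => NN (g q.1) k q.2 / 4) k K α β ρ (t, x) →
      Φ s z ≤ Φ t (pt E3 x) := fun s z a1 a2 a3 a4 => by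
    refine le_trans ?_ (a4.trans_eq (by simp [Φ, mq, e1, symm_pt]))
    have := NN_nonneg (g s) k ((chartAt E3 x).symm z)
    have := NN_nonneg (g s) (k + 1) ((chartAt E3 x).symm z)
    simp only [Φ, mq]
    gcongr
  refine Loc.max_test (L := L) (p := p) (Φ := Φ) (fun q => ?_) hl ?_ ?_
  · simp only [hF, map_mul, RF.ev_bsq, map_add, map_sub, map_pow, AlgHom.commutes]
    rw [show (Loc.rf (L := L) (h.co x)).N = L.fr.N from rfl, hn, hn]
    rfl
  · have a1 : Tendsto (fun s => (s, x)) (𝓝[<] t) (𝓝[S] (t, x)) := tendsto_nhdsWithin_iff.2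
      ⟨((Continuous.prodMk_left x).tendsto t).mono_left nhdsWithin_le_nhds, h1⟩
    have a2 : ∀ᶠ s in 𝓝 t, 0 < α + β * s := continuousAt_const.eventually_lt (by fun_prop) c2
    have a3 : ∀ᶠ s in 𝓝 t, P t (pt E3 x) + (d - 1) * (s - t) < ρ :=
      ContinuousAt.eventually_lt (by fun_prop) continuousAt_const (by simpa [e1] using c1)
    filter_upwards [a1.eventually c3, nhdsWithin_le_nhds a2, nhdsWithin_le_nhds a3,
      b1.time 1 one_pos, self_mem_nhdsWithin] with s s1 s2 s3 s4 s5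
    exact key s (pt E3 x) s2 s3 (by rwa [symm_pt, e1]) (by rw [symm_pt]; exact s1 (le_of_lt s5))
  · have a1 : Tendsto (fun y => (t, y)) (𝓝 x) (𝓝[S] (t, x)) := tendsto_nhdsWithin_iff.2
      ⟨(Continuous.prodMk_right t).tendsto x, h2⟩
    have a3 : ∀ᶠ z in 𝓝 (pt E3 x), P t z < ρ :=
      p7.continuous.continuousAt.eventually_lt continuousAt_const (e1 ▸ c1)
    filter_upwards [(tendsto_symm_pt x).eventually ((a1.eventually c3).and b1.space), a3, p6]
      with z s1 s2 s3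
    exact key t z c2 (by simpa using s2) (by simpa using s1.2.trans s3) (s1.1 le_rfl)

end Vale.Agent.P216D
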